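import Vale.Agent.P137.Centred.Core.Weights

/-!
P137, centred operator: averages, fluxes and the rotation identity.
-/

open MeasureTheory Metric Set Filter
open scoped ENNReal Topology RealInnerProductSpace

noncomputable section

namespace Vale.Agent.P137.Centred

variable {d : ℕ} {f : X d → ℝ}

/-- Radial test functions: measurable, bounded by one, vanishing beyond radius `4`. -/
def RWeight (ψ : ℝ → ℝ) : Prop := Measurable ψ ∧ (∀ t, |ψ t| ≤ 1) ∧ ∀ t, 4 < t → ψ t = 0

lemma inner_vgrad (y u : X d) : ⟪vgrad f y, u⟫ = fderiv ℝ f y u :=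
  InnerProductSpace.toDual_symm_apply

lemma inner_vgrad' (y u : X d) : ⟪u, vgrad f y⟫ = fderiv ℝ f y u := by
  rw [real_inner_comm]; exact inner_vgrad y u

lemma continuous_vgrad (hf : ContDiff ℝ 1 f) : Continuous (vgrad f) :=
  (InnerProductSpace.toDual ℝ (X d)).symm.continuous.comp (hf.continuous_fderiv one_ne_zero)

lemma RWeight.integrable {ψ : ℝ → ℝ} (hψ : RWeight ψ) {E : Type*} [NormedAddCommGroup E]
    [NormedSpace ℝ E] [SecondCountableTopology E] {g : X d → E} (hg : Continuous g) (x : X d) :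
    Integrable fun y => ψ ‖y - x‖ • g y := by
  refine IntegrableOn.integrable_of_forall_notMem_eq_zero (s := closedBall x 4) ?_ fun y hy => ?_
  · obtain ⟨B, hB⟩ := (isCompact_closedBall x 4).exists_bound_of_continuousOn hg.continuousOn
    refine IntegrableOn.of_bound measure_closedBall_lt_top ?_ B ?_
    · exact ((hψ.1.comp (by fun_prop : Measurable fun y : X d => ‖y - x‖)).aestronglyMeasurable.smul
        hg.aestronglyMeasurable)
    · filter_upwards [ae_restrict_mem measurableSet_closedBall] with y hy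
      rw [norm_smul]
      calc ‖ψ ‖y - x‖‖ * ‖g y‖ ≤ 1 * B :=
            mul_le_mul (hψ.2.1 _) (hB y hy) (norm_nonneg _) zero_le_one
        _ = B := one_mul B
  · rw [hψ.2.2 _ (by simpa [dist_eq_norm, mem_closedBall] using hy), zero_smul]

lemma rweight_wIn {r h : ℝ} (hd : 1 ≤ d) (hr : 0 < r - h) (hh : 0 < h) (hr4 : r ≤ 4) :
    RWeight (wIn d r h) :=
  ⟨(continuous_wIn hr).measurable, fun t => by
    rw [abs_of_nonneg (wIn_mem hd hr hh t).1]; exact (wIn_mem hd hr hh t).2,
    fun t ht => wIn_of_ge hh (by linarith)⟩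

lemma rweight_ball {r : ℝ} (hr4 : r ≤ 4) : RWeight fun s => if s < r then 1 else 0 :=
  ⟨Measurable.ite measurableSet_Iio measurable_const measurable_const,
    fun t => by by_cases h : t < r <;> simp [h], fun t ht => if_neg (by linarith)⟩

lemma ball_integral {E : Type*} [NormedAddCommGroup E] [NormedSpace ℝ E] (g : X d → E) (x : X d)
    {t : ℝ} (ht : 0 < t) :
    ∫ u in ball (0 : X d) 1, g (x + t • u) = (t ^ d)⁻¹ • ∫ y in ball x t, g y := by
  have e : ball x t = (fun u => x + u) '' ball 0 t := by simp [image_add_left, add_comm]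
  rw [e, (measurePreserving_add_left volume x).setIntegral_image_emb
    (measurableEmbedding_addLeft x)]
  have := Measure.setIntegral_comp_smul_of_pos (μ := (volume : Measure (X d)))
    (fun u => g (x + u)) (ball (0 : X d) 1) ht
  simpa [smul_unitBall_of_pos ht] using this

lemma ball_integral_ite {E : Type*} [NormedAddCommGroup E] [NormedSpace ℝ E] (g : X d → E)
    (x : X d) (t : ℝ) :
    ∫ y in ball x t, g y = ∫ y, (if ‖y - x‖ < t then (1:ℝ) else 0) • g y := by
  rw [← integral_indicator measurableSet_ball]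
  refine integral_congr_ae (Eventually.of_forall fun y => ?_)
  by_cases hy : ‖y - x‖ < t
  · rw [indicator_of_mem (by simpa [dist_eq_norm] using hy)]; simp [hy]
  · rw [indicator_of_notMem (by simpa [dist_eq_norm] using hy)]; simp [hy]

/-- The normalising constant of averages. -/
def volc (d : ℕ) : ℝ := (volume (ball (0 : X d) 1)).toReal⁻¹

lemma volc_pos (d : ℕ) : 0 < volc d := inv_pos.2 vol_unit_pos

lemma gradA_eq (x : X d) {r : ℝ} (hr : 0 < r) :
    gradA f x r = (volc d * (r ^ d)⁻¹) • ∫ y, (if ‖y - x‖ < r then (1:ℝ) else 0) • vgrad f y := by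
  rw [gradA, ball_integral (vgrad f) x hr, ball_integral_ite, smul_smul]; rfl

lemma slopeA_eq (x : X d) {r : ℝ} (hr : 0 < r) :
    slopeA f x r = volc d * (r ^ d)⁻¹ * flux f x r fun s => if s < r then 1 else 0 := by
  have e : ∀ u : X d, ⟪vgrad f (x + r • u), u⟫ =
      (fun y => ⟪r⁻¹ • (y - x), vgrad f y⟫) (x + r • u) := fun u => by
    simp only [add_sub_cancel_left, inv_smul_smul₀ hr.ne', real_inner_comm]
  rw [slopeA]
  simp only [e]
  rw [ball_integral (fun y => ⟪r⁻¹ • (y - x), vgrad f y⟫) x hr, ball_integral_ite, flux, smul_eq_mul,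
    mul_assoc]
  rfl

lemma hasDerivAt_cavg_radius (hf : ContDiff ℝ 1 f) (x : X d) (t : ℝ) :
    HasDerivAt (fun t => cavg f (x, t)) (slopeA f x t) t := by
  have h1 : HasDerivAt (fun t : ℝ => (x, t)) ((0 : X d), (1:ℝ)) t :=
    (hasDerivAt_const t x).prodMk (hasDerivAt_id t)
  refine ((hasFDerivAt_cavg hf (x, t)).comp_hasDerivAt t h1).congr_deriv ?_
  rw [cavgDeriv_apply hf]
  unfold slopeA
  congr 1
  refine setIntegral_congr_fun measurableSet_ball fun u _ => ?_
  simp [inner_vgrad]

lemma continuous_slopeA (hf : ContDiff ℝ 1 f) (x : X d) :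
    Continuous fun t => slopeA f x t := by
  unfold slopeA
  refine continuous_const.mul (continuous_iff_continuousAt.2 fun t0 => ?_)
  obtain ⟨B, hB⟩ := ((isCompact_closedBall t0 1).prod
    (isCompact_closedBall (0 : X d) 1)).exists_bound_of_continuousOn
    (f := fun p : ℝ × X d => ⟪vgrad f (x + p.1 • p.2), p.2⟫)
    (((continuous_vgrad hf).comp (by fun_prop)).inner continuous_snd).continuousOn
  have : IsFiniteMeasure (volume.restrict (ball (0 : X d) 1)) :=
    ⟨by rw [Measure.restrict_apply_univ]; exact measure_ball_lt_top⟩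
  refine continuousAt_of_dominated (bound := fun _ => B) ?_ ?_ (integrable_const _) ?_
  · exact Eventually.of_forall fun t =>
      (((continuous_vgrad hf).comp (by fun_prop : Continuous fun u : X d => x + t • u)).inner
        continuous_id).aestronglyMeasurable
  · filter_upwards [ball_mem_nhds t0 one_pos] with t ht
    filter_upwards [ae_restrict_mem measurableSet_ball] with u hu
    exact hB (t, u) ⟨ball_subset_closedBall ht, ball_subset_closedBall hu⟩
  · exact Eventually.of_forall fun u =>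
      (((continuous_vgrad hf).comp (by fun_prop : Continuous fun t : ℝ => x + t • u)).inner
        continuous_const).continuousAt

/-- The increment of the averages is the flux against the test weight. -/
theorem cavg_sub_eq (hd : 1 ≤ d) (hf : ContDiff ℝ 1 f) (x : X d) {r h n : ℝ} (hr : 0 < r - h)
    (hh : 0 < h) (hn : 0 < n) :
    cavg f (x, r) - cavg f (x, r - h) =
      (volc d * n * ((((r - h) ^ d)⁻¹ - (r ^ d)⁻¹) / d)) * flux f x n (wIn d r h) := by
  have hFTC : ∫ t in (r - h)..r, slopeA f x t = cavg f (x, r) - cavg f (x, r - h) :=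
    intervalIntegral.integral_eq_sub_of_hasDerivAt (fun t _ => hasDerivAt_cavg_radius hf x t)
      ((continuous_slopeA hf x).intervalIntegrable _ _)
  set g : X d → ℝ := fun y => ⟪y - x, vgrad f y⟫ with hg
  have hgc : Continuous g := (by fun_prop : Continuous fun y : X d => y - x).inner (continuous_vgrad hf)
  have hs : ∀ t, 0 < t → slopeA f x t =
      volc d * ∫ y, (if ‖y - x‖ < t then (t ^ (d + 1))⁻¹ else 0) * g y := by
    intro t ht
    rw [slopeA_eq x ht, flux, mul_assoc, ← integral_const_mul]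
    congr 1
    refine integral_congr_ae (Eventually.of_forall fun y => ?_)
    simp only [hg, real_inner_smul_left]
    split
    · rw [pow_succ, mul_inv]; ring
    · simp
  rw [← hFTC, intervalIntegral.integral_of_le (by linarith),
    setIntegral_congr_fun measurableSet_Ioc (fun t ht => hs t (by linarith [ht.1])),
    integral_const_mul, integral_integral_swap]
  · rw [flux, ← integral_const_mul, ← integral_const_mul]
    refine integral_congr_ae (Eventually.of_forall fun y => ?_)
    simp only [integral_mul_const, integral_wIn hd hr hh, hg, real_inner_smul_left]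
    field_simp
  · obtain ⟨B, hB⟩ := (isCompact_closedBall x r).exists_bound_of_continuousOn hgc.continuousOn
    have hm : Measurable fun p : ℝ × X d =>
        (if ‖p.2 - x‖ < p.1 then (p.1 ^ (d + 1))⁻¹ else 0) * g p.2 :=
      (Measurable.ite (measurableSet_lt (by fun_prop) measurable_fst) (by fun_prop)
        measurable_const).mul (hgc.measurable.comp measurable_snd)
    refine Integrable.mono' (g := fun p : ℝ × X d =>
      (closedBall x r).indicator (fun _ => ((r - h) ^ (d + 1))⁻¹ * B) p.2) ?_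
      hm.aestronglyMeasurable ?_
    · have hi1 : Integrable (fun _ : ℝ => (1:ℝ)) (volume.restrict (Ioc (r - h) r)) :=
        integrableOn_const measure_Ioc_lt_top.ne
      have hi2 : Integrable (fun y : X d =>
          (closedBall x r).indicator (fun _ => ((r - h) ^ (d + 1))⁻¹ * B) y) :=
        (integrable_indicator_iff measurableSet_closedBall).2
          (integrableOn_const measure_closedBall_lt_top.ne)
      simpa using hi1.mul_prod hi2
    · have hmem : ∀ᵐ p ∂(volume.restrict (Ioc (r - h) r)).prod (volume : Measure (X d)),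
          p.1 ∈ Ioc (r - h) r := Measure.quasiMeasurePreserving_fst.ae
            (ae_restrict_mem measurableSet_Ioc)
      filter_upwards [hmem] with p hp
      simp only [Function.uncurry]
      by_cases hc : ‖p.2 - x‖ < p.1
      · have hy : p.2 ∈ closedBall x r := by
          rw [mem_closedBall, dist_eq_norm]; linarith [hp.2]
        rw [if_pos hc, indicator_of_mem hy, norm_mul, Real.norm_of_nonneg
          (by have : 0 < p.1 := by linarith [hp.1]
              positivity)]
        refine mul_le_mul ?_ (hB _ hy) (norm_nonneg _) (by positivity)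
        exact inv_anti₀ (by positivity) (pow_le_pow_left₀ hr.le hp.1.le _)
      · rw [if_neg hc, zero_mul, norm_zero]
        refine indicator_nonneg (fun y _ => ?_) _
        exact mul_nonneg (by positivity) ((norm_nonneg _).trans (hB x (mem_closedBall_self (by linarith))))

/-- The inner flux at a maximiser is nonnegative. -/
theorem flux_wIn_nonneg (hd : 1 ≤ d) (hf : ContDiff ℝ 1 f) (x : X d) {r h n : ℝ} (hr : 0 < r - h)
    (hh : 0 < h) (hn : 0 < n) (hmax : cavg f (x, r - h) ≤ cavg f (x, r)) :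
    0 ≤ flux f x n (wIn d r h) := by
  have hd' : (0:ℝ) < d := by exact_mod_cast hd
  have hk : 0 < volc d * n * ((((r - h) ^ d)⁻¹ - (r ^ d)⁻¹) / d) :=
    mul_pos (mul_pos (volc_pos d) hn) (div_pos (inv_pow_gap hd hr (by linarith)) hd')
  nlinarith [cavg_sub_eq hd hf x hr hh hn]

/-- The outer flux at a maximiser is nonpositive. -/
theorem flux_outer_nonpos (hd : 1 ≤ d) (hf : ContDiff ℝ 1 f) (x : X d) {r h n : ℝ} (hr : 0 < r)
    (hh : 0 < h) (hn : 0 < n) (hmax : cavg f (x, r + h) ≤ cavg f (x, r)) :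
    flux f x n (wIn d (r + h) h) ≤ 0 := by
  have hd' : (0:ℝ) < d := by exact_mod_cast hd
  have hk : 0 < volc d * n * ((((r + h - h) ^ d)⁻¹ - ((r + h) ^ d)⁻¹) / d) :=
    mul_pos (mul_pos (volc_pos d) hn)
      (div_pos (inv_pow_gap hd (by linarith) (by linarith)) hd')
  have := cavg_sub_eq hd hf x (r := r + h) (h := h) (by linarith) hh hn
  rw [add_sub_cancel_right] at this hk
  nlinarith

/-- The slope at an interior maximiser vanishes. -/
theorem slopeA_eq_zero (hf : ContDiff ℝ 1 f) (x : X d) {r lo up : ℝ} (h1 : lo < r) (h2 : r < up)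
    (hmax : ∀ t, lo ≤ t → t ≤ up → cavg f (x, t) ≤ cavg f (x, r)) : slopeA f x r = 0 := by
  refine IsLocalMax.hasDerivAt_eq_zero ?_ (hasDerivAt_cavg_radius hf x r)
  filter_upwards [Ioo_mem_nhds h1 h2] with t ht
  exact hmax t ht.1.le ht.2.le

/-- The bilinear expression whose radial integrals give the field minus its flux. -/
def Kvec (ν a v : X d) : X d := ⟪a, v⟫ • ν + ⟪ν, a⟫ • v - ⟪ν, v⟫ • a

lemma norm_Kvec_le {ν : X d} (hν : ‖ν‖ = 1) (a v : X d) : ‖Kvec ν a v‖ ≤ 3 * ‖a‖ * ‖v‖ := by
  refine (norm_sub_le _ _).trans ((add_le_add (norm_add_le _ _) le_rfl).trans ?_)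
  rw [norm_smul, norm_smul, norm_smul, hν, Real.norm_eq_abs, Real.norm_eq_abs, Real.norm_eq_abs]
  have h1 := abs_real_inner_le_norm a v
  have h2 := mul_le_mul_of_nonneg_right (abs_real_inner_le_norm ν a) (norm_nonneg v)
  have h3 := mul_le_mul_of_nonneg_right (abs_real_inner_le_norm ν v) (norm_nonneg a)
  rw [hν, one_mul] at h2 h3
  linarith

lemma rotGen_inner (y : X d) (a b : Fin d) (u : X d) :
    fderiv ℝ f y (rotGen a b u) = u a * vgrad f y b - u b * vgrad f y a := by
  rw [← inner_vgrad, rotGen, inner_sub_right, real_inner_smul_right, real_inner_smul_right, e, e,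
    EuclideanSpace.inner_single_right, EuclideanSpace.inner_single_right]
  simp

/-- Radial integrals of a gradient are carried by one direction, up to the deviation from it. -/
theorem integral_Kvec (hf : ContDiff ℝ 1 f) {ψ : ℝ → ℝ} (hψ : RWeight ψ) (x : X d) (r : ℝ)
    {ν : X d} (hν : ‖ν‖ = 1) :
    ∫ y, ψ ‖y - x‖ • Kvec ν (ν - r⁻¹ • (y - x)) (vgrad f y) =
      (∫ y, ψ ‖y - x‖ • vgrad f y) - flux f x r ψ • ν := by
  have hv := continuous_vgrad hf
  have hn : Continuous fun y : X d => r⁻¹ • (y - x) := by fun_prop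
  have hνν : ⟪ν, ν⟫ = (1:ℝ) := by rw [real_inner_self_eq_norm_sq, hν, one_pow]
  have hA : ∀ a : Fin d, ∫ y, ψ ‖y - x‖ *
      (⟪ν, vgrad f y⟫ * (r⁻¹ • (y - x)) a - ⟪ν, r⁻¹ • (y - x)⟫ * vgrad f y a) = 0 := by
    intro a
    have hrot : ∀ b : Fin d, ∫ y, ψ ‖y - x‖ *
        ((y - x) a * vgrad f y b - (y - x) b * vgrad f y a) = 0 := by
      intro b
      by_cases hab : a = b
      · subst hab; simp
      · have h := integral_rotGen hf hψ.1 (B := 1) hψ.2.1 (R := 4) hψ.2.2 hab x
        rw [← integral_add_right_eq_self (fun y => ψ ‖y - x‖ *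
          ((y - x) a * vgrad f y b - (y - x) b * vgrad f y a)) x]
        simpa [rotGen_inner, add_comm _ x] using h
    have e : ∀ y, ψ ‖y - x‖ *
        (⟪ν, vgrad f y⟫ * (r⁻¹ • (y - x)) a - ⟪ν, r⁻¹ • (y - x)⟫ * vgrad f y a) =
        ∑ b, r⁻¹ * ν b * (ψ ‖y - x‖ * ((y - x) a * vgrad f y b - (y - x) b * vgrad f y a)) := by
      intro y
      simp only [PiLp.inner_apply, RCLike.inner_apply, conj_trivial, PiLp.smul_apply, smul_eq_mul,
        Finset.sum_mul, ← Finset.sum_sub_distrib, Finset.mul_sum]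
      refine Finset.sum_congr rfl fun b _ => ?_
      ring
    simp only [e]
    rw [integral_finsetSum _ fun b _ => ?_]
    · refine Finset.sum_eq_zero fun b _ => ?_
      rw [integral_const_mul, hrot, mul_zero]
    · refine Integrable.const_mul ?_ _
      have := hψ.integrable (E := ℝ) (g := fun y : X d =>
        (y - x) a * vgrad f y b - (y - x) b * vgrad f y a) (by fun_prop) x
      simpa using this
  have hrest : ∫ y, ψ ‖y - x‖ •
      (⟪ν, vgrad f y⟫ • (r⁻¹ • (y - x)) - ⟪ν, r⁻¹ • (y - x)⟫ • vgrad f y) = 0 := by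
    refine ext_inner_right ℝ fun w => ?_
    have hint := hψ.integrable (E := X d) (g := fun y : X d =>
      ⟪ν, vgrad f y⟫ • (r⁻¹ • (y - x)) - ⟪ν, r⁻¹ • (y - x)⟫ • vgrad f y) (by fun_prop) x
    rw [inner_zero_left, real_inner_comm, ← integral_inner hint]
    have e : ∀ y, ⟪w, ψ ‖y - x‖ •
        (⟪ν, vgrad f y⟫ • (r⁻¹ • (y - x)) - ⟪ν, r⁻¹ • (y - x)⟫ • vgrad f y)⟫ =
        ∑ a, w a * (ψ ‖y - x‖ *
          (⟪ν, vgrad f y⟫ * (r⁻¹ • (y - x)) a - ⟪ν, r⁻¹ • (y - x)⟫ * vgrad f y a)) := by
      intro y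
      rw [PiLp.inner_apply]
      refine Finset.sum_congr rfl fun a _ => ?_
      simp only [RCLike.inner_apply, conj_trivial, PiLp.smul_apply, PiLp.sub_apply, smul_eq_mul]
      ring
    simp only [e]
    rw [integral_finsetSum _ fun a _ => ?_]
    · refine Finset.sum_eq_zero fun a _ => ?_
      rw [integral_const_mul, hA, mul_zero]
    · refine Integrable.const_mul ?_ _
      have := hψ.integrable (E := ℝ) (g := fun y : X d =>
        ⟪ν, vgrad f y⟫ * (r⁻¹ • (y - x)) a - ⟪ν, r⁻¹ • (y - x)⟫ * vgrad f y a) (by fun_prop) x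
      simpa using this
  have e : ∀ y, ψ ‖y - x‖ • Kvec ν (ν - r⁻¹ • (y - x)) (vgrad f y) =
      ψ ‖y - x‖ • vgrad f y - (ψ ‖y - x‖ * ⟪r⁻¹ • (y - x), vgrad f y⟫) • ν +
      ψ ‖y - x‖ • (⟪ν, vgrad f y⟫ • (r⁻¹ • (y - x)) - ⟪ν, r⁻¹ • (y - x)⟫ • vgrad f y) := by
    intro y
    simp only [Kvec, inner_sub_left, inner_sub_right, hνν]
    module
  have i1 := hψ.integrable (E := X d) hv x
  have i3 := hψ.integrable (E := X d) (g := fun y : X d =>
    ⟪ν, vgrad f y⟫ • (r⁻¹ • (y - x)) - ⟪ν, r⁻¹ • (y - x)⟫ • vgrad f y) (by fun_prop) x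
  have i2 : Integrable fun y => (ψ ‖y - x‖ * ⟪r⁻¹ • (y - x), vgrad f y⟫) • ν := by
    have := hψ.integrable (E := ℝ) (g := fun y : X d => ⟪r⁻¹ • (y - x), vgrad f y⟫) (by fun_prop) x
    simpa using Integrable.smul_const this ν
  simp only [e]
  rw [integral_add (f := fun y => ψ ‖y - x‖ • vgrad f y -
    (ψ ‖y - x‖ * ⟪r⁻¹ • (y - x), vgrad f y⟫) • ν) (i1.sub i2) i3, hrest, add_zero,
    integral_sub i1 i2, integral_smul_const, flux]

end Vale.Agent.P137.Centred
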