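import Vale.Agent.P137.Centred.Core.CellPos
import Vale.Agent.P137.Centred.Core.Flux

/-!
P137, centred operator: geometry of bands and boxes.
-/

open MeasureTheory Metric Set Filter
open scoped ENNReal Topology RealInnerProductSpace

noncomputable section

namespace Vale.Agent.P137.Centred

variable {d : ℕ}

lemma dbox_mem {n j : ℕ} {k : Fin d → ℤ} :
    k ∈ dbox d n j ↔ ∀ i, -((n:ℤ) * 2 ^ j) ≤ k i ∧ k i < (n:ℤ) * 2 ^ j := by
  simp [dbox, Fintype.mem_piFinset]

lemma dcen_mem (j : ℕ) (k : Fin d → ℤ) : dcen j k ∈ cube (dcorner j k) (dl j) := by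
  rw [mem_cell]
  intro i
  rw [Int.floor_eq_iff]
  have h : (dcen j k : X d) i * 2 ^ j = (k i : ℝ) + 1 / 2 := by simp [dcen]
  constructor <;> linarith

lemma norm_sub_dcen_le {j : ℕ} {k : Fin d → ℤ} {y : X d} (hy : y ∈ cube (dcorner j k) (dl j)) :
    ‖y - dcen j k‖ ≤ ((d:ℝ) + 1) * dl j := dist_cube_le (dl_pos j).le hy (dcen_mem j k)

lemma abs_norm_sub_dcen_le {j : ℕ} {k : Fin d → ℤ} {y : X d} (x : X d)
    (hy : y ∈ cube (dcorner j k) (dl j)) :
    |‖y - x‖ - ‖dcen j k - x‖| ≤ ((d:ℝ) + 1) * dl j := by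
  refine (abs_norm_sub_norm_le _ _).trans ?_
  rw [sub_sub_sub_cancel_right]
  exact norm_sub_dcen_le hy

lemma abs_coord_le (w : X d) (i : Fin d) : |w i| ≤ ‖w‖ := by
  have := abs_real_inner_le_norm (EuclideanSpace.single i (1:ℝ) : X d) w
  simpa [EuclideanSpace.inner_single_left] using this

/-- Points within distance six of the unit cube lie in the box. -/
lemma mem_box {j : ℕ} {x y : X d} {k : Fin d → ℤ} (hx : x ∈ cube (0 : X d) 1)
    (hy : y ∈ cube (dcorner j k) (dl j)) (hxy : ‖y - x‖ ≤ 6) : k ∈ dbox d 8 j := by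
  rw [dbox_mem]
  intro i
  rw [mem_cell] at hy
  have h1 := hy i
  rw [Int.floor_eq_iff] at h1
  have h2 := (abs_le.1 ((abs_coord_le (y - x) i).trans hxy))
  have h3 : (0:ℝ) ≤ x i ∧ x i < 1 := by
    have := hx i; simpa using this
  simp only [PiLp.sub_apply] at h2
  have hp : (0:ℝ) < 2 ^ j := by positivity
  have a1 : (-8:ℝ) * 2 ^ j < (k i : ℝ) + 1 := by nlinarith
  have a2 : (k i : ℝ) < 8 * 2 ^ j := by nlinarith
  constructor
  · have a1' : -((8:ℝ) * 2 ^ j) < (k i : ℝ) + 1 := by linarith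
    have : (-((8:ℤ) * 2 ^ j) : ℤ) < k i + 1 := by exact_mod_cast a1'
    have h : ((8:ℕ):ℤ) = 8 := rfl
    rw [h]; omega
  · exact_mod_cast a2

lemma norm_le_of_box {j : ℕ} {k : Fin d → ℤ} (hk : k ∈ dbox d 8 j) {y : X d}
    (hy : y ∈ cube (dcorner j k) (dl j)) : ‖y‖ ≤ 16 * (d:ℝ) + 16 := by
  refine (norm_le_sqrt_mul (by norm_num : (0:ℝ) ≤ 8) fun i => ?_).trans ?_
  · rw [mem_cell] at hy
    have h1 := hy i
    rw [Int.floor_eq_iff] at h1
    have h2 := dbox_mem.1 hk i
    have hp : (0:ℝ) < 2 ^ j := by positivity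
    have a1 : -((8:ℝ) * 2 ^ j) ≤ (k i : ℝ) := by exact_mod_cast h2.1
    have a2 : (k i : ℝ) + 1 ≤ 8 * 2 ^ j := by exact_mod_cast h2.2
    rw [abs_le]; constructor <;> nlinarith
  · have : Real.sqrt d ≤ (d:ℝ) + 1 := by
      rw [Real.sqrt_le_iff]; constructor <;> nlinarith [Nat.cast_nonneg (α := ℝ) d]
    nlinarith

lemma cells_disjoint (j : ℕ) (s : Finset (Fin d → ℤ)) :
    (s : Set (Fin d → ℤ)).Pairwise
      (Function.onFun Disjoint fun k => cube (dcorner j k) (dl j)) := by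
  intro a _ b _ hab
  refine Set.disjoint_left.2 fun y hya hyb => hab (funext fun i => ?_)
  rw [← mem_cell.1 hya i, mem_cell.1 hyb i]

/-- An integrand supported near the point is the sum of its integrals over the box cells. -/
lemma integral_eq_sum_box {E : Type*} [NormedAddCommGroup E] [NormedSpace ℝ E] {x : X d}
    (hx : x ∈ cube (0 : X d) 1) (j : ℕ) {g : X d → E} (hg : Integrable g)
    (h0 : ∀ y, g y ≠ 0 → ‖y - x‖ ≤ 6) :
    ∫ y, g y = ∑ k ∈ dbox d 8 j, ∫ y in cube (dcorner j k) (dl j), g y := by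
  rw [← integral_biUnion_finset _ (fun k _ => measurableSet_cube _ _) (cells_disjoint j _)
    (fun k _ => hg.integrableOn)]
  refine (setIntegral_eq_integral_of_forall_compl_eq_zero fun y hy => ?_).symm
  by_contra hne
  exact hy (mem_iUnion₂.2 ⟨fun i => ⌊y i * 2 ^ j⌋,
    mem_box (j := j) hx (mem_cell.2 fun i => rfl) (h0 y hne), mem_cell.2 fun i => rfl⟩)

/-- The integral over a cube is the sum over its descendants. -/
lemma cell_sum_desc {g : X d → X d} {l j : ℕ} (h : l ≤ j) (k : Fin d → ℤ)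
    (hg : IntegrableOn g (cube (dcorner l k) (dl l))) :
    ∫ y in cube (dcorner l k) (dl l), g y =
      ∑ k' ∈ desc l j k, ∫ y in cube (dcorner j k') (dl j), g y := by
  obtain ⟨m, rfl⟩ := Nat.exists_eq_add_of_le h
  clear h
  induction m generalizing l k with
  | zero =>
    have hself : desc l l k = {k} := by ext k'; simp [mem_desc, funext_iff]
    simp [hself]
  | succ m ih =>
    rw [cell_sum_children k g hg,
      show l + (m + 1) = l + 1 + m by omega, ← sum_desc (M := X d) (by omega : l + 1 ≤ l + 1 + m)]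
    exact Finset.sum_congr rfl fun c hc => ih c (hg.mono_set (cell_subset (by omega) hc))

/-- The ancestor of a cube. -/
def banc (l j : ℕ) (k : Fin d → ℤ) : Fin d → ℤ := fun i => k i / 2 ^ (j - l)

lemma mem_desc_banc (l j : ℕ) (k : Fin d → ℤ) : k ∈ desc l j (banc l j k) := mem_desc.2 fun _ => rfl

lemma anc_mem_box {l j : ℕ} (h : l ≤ j) {k : Fin d → ℤ} (hk : k ∈ dbox d 8 j) :
    banc l j k ∈ dbox d 8 l := by
  rw [dbox_mem] at hk ⊢
  intro i
  obtain ⟨m, rfl⟩ := Nat.exists_eq_add_of_le h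
  have hm : (0:ℤ) < 2 ^ m := by positivity
  simp only [banc, Nat.add_sub_cancel_left]
  have := hk i
  rw [pow_add, ← mul_assoc] at this
  refine ⟨(Int.le_ediv_iff_mul_le hm).2 ?_, (Int.ediv_lt_iff_lt_mul hm).2 this.2⟩
  rw [neg_mul]; exact this.1

lemma desc_subset_box {l j : ℕ} (h : l ≤ j) {a : Fin d → ℤ} (ha : a ∈ dbox d 8 l) :
    desc l j a ⊆ dbox d 8 j := by
  intro k hk
  rw [mem_desc] at hk
  rw [dbox_mem] at ha ⊢
  intro i
  obtain ⟨m, rfl⟩ := Nat.exists_eq_add_of_le h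
  have hm : (0:ℤ) < 2 ^ m := by positivity
  have := ha i
  rw [← hk i, Nat.add_sub_cancel_left] at this
  rw [pow_add, ← mul_assoc]
  have h1 := (Int.le_ediv_iff_mul_le hm).1 this.1
  have h2 := (Int.ediv_lt_iff_lt_mul hm).1 this.2
  exact ⟨by linarith, h2⟩

lemma udir_norm_le (x y : X d) : ‖udir x y‖ ≤ 1 := by
  unfold udir
  rw [norm_smul, norm_inv, norm_norm]
  exact inv_mul_le_one

lemma udir_norm {x y : X d} (h : 0 < ‖y - x‖) : ‖udir x y‖ = 1 := by
  unfold udir
  rw [norm_smul, norm_inv, norm_norm, inv_mul_cancel₀ h.ne']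

/-- The normalised radial vector on a cube of the band. -/
lemma norm_radial_sub_udir {j : ℕ} {k : Fin d → ℤ} {x y : X d} {r : ℝ} (hr : 1 ≤ r)
    (hk : inBand x r j k) (hy : y ∈ cube (dcorner j k) (dl j)) :
    ‖r⁻¹ • (y - x) - udir x (dcen j k)‖ ≤ (5 * (d:ℝ) + 5) * dl j := by
  have h1 : ‖r⁻¹ • (y - x) - r⁻¹ • (dcen j k - x)‖ ≤ ((d:ℝ) + 1) * dl j := by
    rw [← smul_sub, sub_sub_sub_cancel_right, norm_smul, norm_inv, Real.norm_of_nonneg (by linarith)]
    calc r⁻¹ * ‖y - dcen j k‖ ≤ 1 * ‖y - dcen j k‖ :=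
          mul_le_mul_of_nonneg_right (inv_le_one_of_one_le₀ hr) (norm_nonneg _)
      _ ≤ _ := by rw [one_mul]; exact norm_sub_dcen_le hy
  have h2 : ‖r⁻¹ • (dcen j k - x) - udir x (dcen j k)‖ ≤ bw d j := by
    have hb : 0 ≤ bw d j := by unfold bw; have := dl_pos j; positivity
    rcases eq_or_lt_of_le (norm_nonneg (dcen j k - x)) with h0 | h0
    · have : dcen j k - x = 0 := norm_eq_zero.1 h0.symm
      simp [udir, this, hb]
    · have e : r⁻¹ • (dcen j k - x) - udir x (dcen j k) =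
          ((‖dcen j k - x‖ - r) * r⁻¹) • udir x (dcen j k) := by
        rw [udir, smul_smul, ← sub_smul]
        congr 1
        field_simp
      rw [e, norm_smul, udir_norm h0, mul_one, norm_mul, norm_inv, Real.norm_eq_abs,
        Real.norm_of_nonneg (by linarith : (0:ℝ) ≤ r)]
      calc |‖dcen j k - x‖ - r| * r⁻¹ ≤ bw d j * 1 :=
            mul_le_mul hk (inv_le_one_of_one_le₀ hr) (by positivity) hb
        _ = _ := mul_one _
  calc ‖r⁻¹ • (y - x) - udir x (dcen j k)‖
      ≤ ‖r⁻¹ • (y - x) - r⁻¹ • (dcen j k - x)‖ + ‖r⁻¹ • (dcen j k - x) - udir x (dcen j k)‖ :=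
        norm_sub_le_norm_sub_add_norm_sub _ _ _
    _ ≤ ((d:ℝ) + 1) * dl j + bw d j := add_le_add h1 h2
    _ = _ := by unfold bw; ring

lemma pow_sub_pow_le_mul {a b : ℝ} (n : ℕ) (ha : 0 ≤ a) (hab : a ≤ b) :
    b ^ n - a ^ n ≤ n * b ^ (n - 1) * (b - a) := by
  induction n with
  | zero => simp
  | succ n ih =>
    have e : b ^ (n + 1) - a ^ (n + 1) = (b ^ n - a ^ n) * b + a ^ n * (b - a) := by ring
    have h1 : (b ^ n - a ^ n) * b ≤ n * b ^ n * (b - a) := by
      rcases Nat.eq_zero_or_pos n with hn | hn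
      · subst hn; simp
      · refine (mul_le_mul_of_nonneg_right ih (ha.trans hab)).trans (le_of_eq ?_)
        obtain ⟨m, rfl⟩ := Nat.exists_eq_add_of_le' (show 1 ≤ n by omega)
        simp only [Nat.add_sub_cancel, pow_succ]; ring
    have h2 : a ^ n * (b - a) ≤ b ^ n * (b - a) :=
      mul_le_mul_of_nonneg_right (pow_le_pow_left₀ ha hab n) (by linarith)
    rw [Nat.add_sub_cancel, e]
    push_cast
    linarith

/-- The volume of a thin annulus. -/
lemma volume_annulus (hd : 1 ≤ d) (x : X d) {r a : ℝ} (hr : 0 ≤ r) (ha : 0 ≤ a) :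
    volume.real (closedBall x (r + a) \ ball x (max (r - a) 0)) ≤
      2 * a * d * (r + a) ^ (d - 1) * volume.real (ball (0 : X d) 1) := by
  have : Nonempty (Fin d) := ⟨⟨0, hd⟩⟩
  have hb : 0 ≤ max (r - a) 0 := le_max_right _ _
  have hsub : ball x (max (r - a) 0) ⊆ closedBall x (r + a) :=
    ball_subset_closedBall.trans (closedBall_subset_closedBall (max_le (by linarith) (by linarith)))
  rw [measureReal_sdiff hsub measurableSet_ball measure_closedBall_lt_top.ne,
    Measure.addHaar_real_closedBall _ _ (by linarith), measureReal_def (s := ball x (max (r - a) 0)),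
    Measure.addHaar_ball _ _ hb, ENNReal.toReal_mul, ENNReal.toReal_ofReal (by positivity),
    finrank_euclideanSpace_fin, ← measureReal_def, ← sub_mul]
  refine mul_le_mul_of_nonneg_right ?_ measureReal_nonneg
  refine (pow_sub_pow_le_mul d hb (max_le (by linarith) (by linarith))).trans ?_
  have h1 : r + a - max (r - a) 0 ≤ 2 * a := by linarith [le_max_left (r - a) 0]
  calc (d:ℝ) * (r + a) ^ (d - 1) * (r + a - max (r - a) 0)
      ≤ (d:ℝ) * (r + a) ^ (d - 1) * (2 * a) := mul_le_mul_of_nonneg_left h1 (by positivity)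
    _ = _ := by ring

/-- The volume constant of bands. -/
def bandC (d : ℕ) : ℝ :=
  2 * (5 * (d:ℝ) + 5) * d * (5 * (d:ℝ) + 8) ^ (d - 1) * (volume.real (ball (0 : X d) 1))

lemma bandC_nonneg (d : ℕ) : 0 ≤ bandC d := by unfold bandC; positivity

/-- The cubes of a band have small total volume. -/
lemma band_card (hd : 1 ≤ d) (x : X d) {r : ℝ} (hr : 0 ≤ r) (hr2 : r ≤ 3) (j : ℕ) :
    ((band x r j).card : ℝ) * dl j ^ d ≤ bandC d * dl j := by
  set a := (5 * (d:ℝ) + 5) * dl j with ha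
  have ha0 : 0 ≤ a := by have := dl_pos j; positivity
  have hsub : ⋃ k ∈ band x r j, cube (dcorner j k) (dl j) ⊆
      closedBall x (r + a) \ ball x (max (r - a) 0) := by
    refine iUnion₂_subset fun k hk y hy => ?_
    simp only [band, Finset.mem_filter] at hk
    have h1 := abs_le.1 (abs_norm_sub_dcen_le x hy)
    have h2 := abs_le.1 (show |‖dcen j k - x‖ - r| ≤ bw d j from hk.2)
    have e : bw d j + ((d:ℝ) + 1) * dl j = a := by unfold bw; rw [ha]; ring
    refine ⟨?_, ?_⟩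
    · rw [mem_closedBall, dist_eq_norm]; linarith
    · rw [mem_ball, dist_eq_norm, not_lt]
      exact max_le (by linarith) (norm_nonneg _)
  have h := measureReal_mono (μ := volume) hsub
    ((measure_mono sdiff_subset).trans_lt measure_closedBall_lt_top).ne
  rw [measureReal_biUnion_finset (cells_disjoint j _) (fun k _ => measurableSet_cube _ _)
    (fun k _ => (volume_cube_lt_top _ (dl_pos j).le).ne)] at h
  simp only [measureReal_cube _ (dl_pos j).le, Finset.sum_const, nsmul_eq_mul] at h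
  refine h.trans ((volume_annulus hd x hr ha0).trans ?_)
  rw [bandC, ha]
  have hpow : (r + (5 * (d:ℝ) + 5) * dl j) ^ (d - 1) ≤ (5 * (d:ℝ) + 8) ^ (d - 1) := by
    refine pow_le_pow_left₀ (by positivity) ?_ _
    have : (5 * (d:ℝ) + 5) * dl j ≤ (5 * (d:ℝ) + 5) * 1 :=
      mul_le_mul_of_nonneg_left (dl_le_one j) (by positivity)
    linarith
  calc 2 * ((5 * (d:ℝ) + 5) * dl j) * d * (r + (5 * (d:ℝ) + 5) * dl j) ^ (d - 1) *
        volume.real (ball (0 : X d) 1)
      ≤ 2 * ((5 * (d:ℝ) + 5) * dl j) * d * (5 * (d:ℝ) + 8) ^ (d - 1) *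
        volume.real (ball (0 : X d) 1) := by
        refine mul_le_mul_of_nonneg_right (mul_le_mul_of_nonneg_left hpow ?_) measureReal_nonneg
        have := dl_pos j
        positivity
    _ = _ := by ring

end Vale.Agent.P137.Centred
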