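import Vale.Agent.P137.Centred.Core.Far

/-!
P137, centred operator: the estimates attached to one significant level.
-/

open MeasureTheory Metric Set Filter
open scoped ENNReal Topology RealInnerProductSpace

noncomputable section

namespace Vale.Agent.P137.Centred

variable {d : ℕ}

lemma qq_lt_one : qq < 1 := by
  unfold qq
  exact Real.rpow_lt_one (by norm_num) (by norm_num) (by norm_num)

lemma qq_pow_hundred : qq ^ 100 = 1 / 2 := by
  unfold qq
  rw [← Real.rpow_natCast, ← Real.rpow_mul (by norm_num)]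
  norm_num

lemma dl_eq_qq (j : ℕ) : dl j = qq ^ (100 * j) := by
  rw [pow_mul, qq_pow_hundred, dl, one_div, inv_pow]

lemma qq_pos' : 0 < qq := by unfold qq; positivity

lemma one_le_qq_inv_pow (n : ℕ) : 1 ≤ (qq ^ n)⁻¹ :=
  (one_le_inv₀ (pow_pos qq_pos' n)).2 (pow_le_one₀ qq_pos'.le qq_lt_one.le)

lemma qq_inv_pow_mono {m n : ℕ} (h : m ≤ n) : (qq ^ m)⁻¹ ≤ (qq ^ n)⁻¹ :=
  inv_anti₀ (pow_pos qq_pos' n) (pow_le_pow_of_le_one qq_pos'.le qq_lt_one.le h)

lemma nat_le_qq_inv_pow (K : ℕ) : (K:ℝ) ≤ qq / (1 - qq) * (qq ^ K)⁻¹ := by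
  have hq := qq_pos'
  have hq1 := qq_lt_one
  have h : 1 + (K:ℝ) * ((1 - qq) / qq) ≤ (1 + (1 - qq) / qq) ^ K :=
    one_add_mul_le_pow (by
      have : 0 ≤ (1 - qq) / qq := div_nonneg (by linarith) hq.le
      linarith) K
  have e : (1 + (1 - qq) / qq) ^ K = (qq ^ K)⁻¹ := by
    rw [← inv_pow]; congr 1; field_simp; ring
  rw [e] at h
  have h1 : (K:ℝ) * ((1 - qq) / qq) ≤ (qq ^ K)⁻¹ := by linarith
  have h2 := mul_le_mul_of_nonneg_left h1 (show 0 ≤ qq / (1 - qq) from div_nonneg hq.le (by linarith))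
  have h3 : qq / (1 - qq) * ((K:ℝ) * ((1 - qq) / qq)) = K := by
    have : 1 - qq ≠ 0 := by linarith
    field_simp
  linarith

lemma sum_qq_pow_le {a : ℕ} (s : Finset ℕ) (h : ∀ j ∈ s, a ≤ j) :
    ∑ j ∈ s, qq ^ j ≤ qq ^ a / (1 - qq) := by
  have hq := qq_pos'
  have hq1 := qq_lt_one
  obtain ⟨b, hb⟩ : ∃ b, ∀ j ∈ s, j < b :=
    ⟨s.sup id + 1, fun j hj => Nat.lt_succ_of_le (Finset.le_sup (f := id) hj)⟩
  refine (Finset.sum_le_sum_of_subset_of_nonneg (t := Finset.Ico a b)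
    (fun j hj => Finset.mem_Ico.2 ⟨h j hj, hb j hj⟩) fun j _ _ => pow_nonneg hq.le j).trans ?_
  rcases le_or_gt a b with hab | hab
  · rw [geom_sum_Ico' hq1.ne hab, div_le_div_iff_of_pos_right (by linarith)]
    linarith [pow_pos hq b]
  · rw [Finset.Ico_eq_empty (by omega), Finset.sum_empty]
    exact div_nonneg (pow_nonneg hq.le a) (by linarith)

/-- The smallness of levels beyond `K0`. -/
structure Large (d : ℕ) (A : ℝ) (K : ℕ) : Prop where
  two : 2 ≤ K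
  growth : 4 * (qq ^ K / (1 - qq)) ≤ 1
  band : bw d (K - 1) ≤ 1 / 2
  cells : 16 * ((d:ℝ) + 1) * dl (K - 1) ≤ qq ^ (3 * K)
  cap : A * qq ^ K ≤ 1
  cone : 28 * (d:ℝ) * qq ^ (3 * K) ≤ Ctx.sigC d

namespace Ctx

variable (c : Ctx d)

/-- The error attached to one level. -/
def errK (K : ℕ) : ℝ :=
  qq ^ K * mu2 c.e c.f c.N K + (qq ^ (5 * K))⁻¹ * pairTerm c.e c.f c.N c.x c.r K +
    (qq ^ (4 * K) * mu2 c.e c.f c.N K)⁻¹ * rayTerm c.e c.f c.N c.x c.r K + (c.N + 1 : ℝ) * c.rem0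

lemma pairTerm_nonneg (K : ℕ) : 0 ≤ pairTerm c.e c.f c.N c.x c.r K :=
  Finset.sum_nonneg fun _ _ => Finset.sum_nonneg fun _ _ => Real.sqrt_nonneg _

lemma errK_nonneg (K : ℕ) : 0 ≤ c.errK K := by
  have hq := qq_pos'
  have h0 := c.mu2_nonneg K
  have h1 := c.pairTerm_nonneg K
  have h2 := c.rayTerm_nonneg K
  have h3 := c.rem0_nonneg
  unfold errK; positivity

lemma errK_ge (K : ℕ) :
    qq ^ K * mu2 c.e c.f c.N K ≤ c.errK K ∧
    (qq ^ (5 * K))⁻¹ * pairTerm c.e c.f c.N c.x c.r K ≤ c.errK K ∧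
    (qq ^ (4 * K) * mu2 c.e c.f c.N K)⁻¹ * rayTerm c.e c.f c.N c.x c.r K ≤ c.errK K ∧
    (c.N + 1 : ℝ) * c.rem0 ≤ c.errK K := by
  have hq := qq_pos'
  have h0 : 0 ≤ qq ^ K * mu2 c.e c.f c.N K := mul_nonneg (by positivity) (c.mu2_nonneg K)
  have h1 : 0 ≤ (qq ^ (5 * K))⁻¹ * pairTerm c.e c.f c.N c.x c.r K :=
    mul_nonneg (by positivity) (c.pairTerm_nonneg K)
  have h2 : 0 ≤ (qq ^ (4 * K) * mu2 c.e c.f c.N K)⁻¹ * rayTerm c.e c.f c.N c.x c.r K :=
    mul_nonneg (inv_nonneg.2 (mul_nonneg (by positivity) (c.mu2_nonneg K))) (c.rayTerm_nonneg K)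
  have h3 : 0 ≤ (c.N + 1 : ℝ) * c.rem0 := mul_nonneg (by positivity) c.rem0_nonneg
  refine ⟨?_, ?_, ?_, ?_⟩ <;> unfold errK <;> linarith

lemma sqrt_pairs_le {K j : ℕ} (hK : K ≤ c.N) (h1 : K - 1 ≤ j) (h2 : j ≤ 3 * K + 1) (h3 : j ≤ c.N) :
    Real.sqrt (pairs c.e c.f c.N c.x c.r j K) ≤ pairTerm c.e c.f c.N c.x c.r K ∧
    Real.sqrt (pairs c.e c.f c.N c.x c.r K j) ≤ pairTerm c.e c.f c.N c.x c.r K ∧
    Real.sqrt (pairs c.e c.f c.N c.x c.r j j) ≤ pairTerm c.e c.f c.N c.x c.r K := by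
  have hj : j ∈ Finset.Icc (K - 1) (min (3 * K + 1) c.N) := Finset.mem_Icc.2 ⟨h1, le_min h2 h3⟩
  have hK' : K ∈ Finset.Icc (K - 1) (min (3 * K + 1) c.N) :=
    Finset.mem_Icc.2 ⟨Nat.sub_le _ _, le_min (by omega) hK⟩
  have hn : ∀ a, 0 ≤ ∑ l ∈ Finset.Icc (K - 1) (min (3 * K + 1) c.N),
      Real.sqrt (pairs c.e c.f c.N c.x c.r a l) :=
    fun a => Finset.sum_nonneg fun _ _ => Real.sqrt_nonneg _
  have key : ∀ a b, a ∈ Finset.Icc (K - 1) (min (3 * K + 1) c.N) →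
      b ∈ Finset.Icc (K - 1) (min (3 * K + 1) c.N) →
      Real.sqrt (pairs c.e c.f c.N c.x c.r a b) ≤ pairTerm c.e c.f c.N c.x c.r K := by
    intro a b ha hb
    exact (Finset.single_le_sum (f := fun l => Real.sqrt (pairs c.e c.f c.N c.x c.r a l))
      (fun _ _ => Real.sqrt_nonneg _) hb).trans
      (Finset.single_le_sum (f := fun a => ∑ l ∈ Finset.Icc (K - 1) (min (3 * K + 1) c.N),
        Real.sqrt (pairs c.e c.f c.N c.x c.r a l)) (fun a _ => hn a) ha)
  exact ⟨key j K hj hK', key K j hK' hj, key j j hj hj⟩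

lemma sum_sqrt_pairs_le {K i : ℕ} (hK : K ≤ c.N) :
    ∑ j ∈ Finset.Icc (K - 1) (min i (min (3 * K + 1) c.N)),
      Real.sqrt (pairs c.e c.f c.N c.x c.r j K) ≤ pairTerm c.e c.f c.N c.x c.r K := by
  have hK' : K ∈ Finset.Icc (K - 1) (min (3 * K + 1) c.N) :=
    Finset.mem_Icc.2 ⟨Nat.sub_le _ _, le_min (by omega) hK⟩
  refine le_trans (Finset.sum_le_sum_of_subset_of_nonneg (Finset.Icc_subset_Icc_right
    (min_le_right _ _)) fun _ _ _ => Real.sqrt_nonneg _) (Finset.sum_le_sum fun j _ => ?_)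
  exact Finset.single_le_sum (f := fun l => Real.sqrt (pairs c.e c.f c.N c.x c.r j l))
    (fun _ _ => Real.sqrt_nonneg _) hK'

/-- A level dominates the levels up to `i`. -/
structure Dom (A : ℝ) (K i : ℕ) : Prop where
  large : Large d A K
  hKN : K ≤ c.N
  hi : K - 1 ≤ i
  hiN : i ≤ c.N
  pos : 0 < bM c.e c.f c.N c.x c.r K
  mid : ∀ j, K - 1 ≤ j → j ≤ i → bM c.e c.f c.N c.x c.r j ≤
    2 * (qq ^ K)⁻¹ * bM c.e c.f c.N c.x c.r K
  fine : ∀ j, 3 * K + 1 < j → j ≤ i → bM c.e c.f c.N c.x c.r j ≤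
    2 * qq ^ j * (qq ^ K)⁻¹ * bM c.e c.f c.N c.x c.r K

/-- The representative direction of a level. -/
def IsDir (K : ℕ) (ν : X d) : Prop :=
  ‖ν‖ = 1 ∧ spread c.e c.f c.N c.x c.r K ν ≤ Real.sqrt (2 * pairs c.e c.f c.N c.x c.r K K)

lemma exists_isDir {A : ℝ} {K : ℕ} (hL : Large d A K)
    (hM : 0 < bM c.e c.f c.N c.x c.r K) : ∃ ν, c.IsDir K ν := by
  obtain ⟨p, hp, hs⟩ := c.exists_dir K hM
  refine ⟨udir c.x (dcen K p), udir_norm ?_, hs⟩
  have h := (abs_le.1 (show |‖dcen K p - c.x‖ - c.r| ≤ bw d K from (mem_band.1 hp).2)).1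
  have h2 : bw d K ≤ bw d (K - 1) :=
    mul_le_mul_of_nonneg_left (dl_antitone (Nat.sub_le _ _)) (by positivity)
  linarith [c.hr1, hL.band]

/-- The constant of the far bound. -/
def farC (d : ℕ) : ℝ := 16 + 7 * cC d * (60 + 8 / (1 - qq) + 60 * (qq / (1 - qq)) + rC d)

lemma farC_pos (d : ℕ) : 0 < farC d := by
  have := cC_pos d; have := rC_nonneg d; have := qq_lt_one; have := qq_pos'
  have : 0 < 1 - qq := by linarith
  unfold farC; positivity

lemma far_sum_le {A : ℝ} {K i : ℕ} (h : c.Dom A K i) {ν : X d} (hν : c.IsDir K ν) :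
    ∑ j ∈ Finset.Icc (K - 1) i, (c.farM j (qq ^ (3 * K) / 4) ν + rC d * c.rem0) ≤
      (60 + 8 / (1 - qq) + 60 * (qq / (1 - qq)) + rC d) * c.errK K := by
  classical
  have hq := qq_pos'
  have hq1 : 0 < 1 - qq := by linarith [qq_lt_one]
  obtain ⟨e1, e2, -, e4⟩ := c.errK_ge K
  have he0 := c.errK_nonneg K
  set th := qq ^ (3 * K) with hth
  set MK := bM c.e c.f c.N c.x c.r K with hMK
  set P := pairTerm c.e c.f c.N c.x c.r K with hP
  have hP0 : 0 ≤ P := c.pairTerm_nonneg K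
  set β := 2 * (qq ^ K)⁻¹ with hβ
  have hβ2 : 2 ≤ β := by rw [hβ]; linarith [one_le_qq_inv_pow K]
  have hsp : spread c.e c.f c.N c.x c.r K ν ≤ 2 * P := by
    refine hν.2.trans ?_
    rw [Real.sqrt_mul zero_le_two]
    refine mul_le_mul (Real.sqrt_le_iff.2 ⟨by norm_num, by norm_num⟩)
      (c.sqrt_pairs_le h.hKN (by omega) (by omega) h.hKN).1 (Real.sqrt_nonneg _) (by norm_num)
  have hrem : ∑ _j ∈ Finset.Icc (K - 1) i, rC d * c.rem0 ≤ rC d * c.errK K := by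
    rw [Finset.sum_const, nsmul_eq_mul, Nat.card_Icc]
    have hc : ((i + 1 - (K - 1) : ℕ) : ℝ) ≤ c.N + 1 := by
      have : i + 1 - (K - 1) ≤ c.N + 1 := by have := h.hiN; omega
      exact_mod_cast this
    calc ((i + 1 - (K - 1) : ℕ) : ℝ) * (rC d * c.rem0) ≤ (c.N + 1 : ℝ) * (rC d * c.rem0) :=
          mul_le_mul_of_nonneg_right hc (mul_nonneg (rC_nonneg d) c.rem0_nonneg)
      _ = rC d * ((c.N + 1 : ℝ) * c.rem0) := by ring
      _ ≤ _ := mul_le_mul_of_nonneg_left e4 (rC_nonneg d)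
  set s1 := Finset.Icc (K - 1) (min i (min (3 * K + 1) c.N)) with hs1
  set s2 := (Finset.Icc (K - 1) i).filter (fun j => 3 * K + 1 < j) with hs2
  have hle : ∑ j ∈ Finset.Icc (K - 1) i, c.farM j (th / 4) ν ≤
      ∑ j ∈ s1, c.farM j (th / 4) ν + ∑ j ∈ s2, c.farM j (th / 4) ν := by
    refine le_trans ?_ (le_of_eq (Finset.sum_union ?_))
    · refine Finset.sum_le_sum_of_subset_of_nonneg (fun j hj => ?_)
        fun j _ _ => c.farM_nonneg _ _ _
      rw [Finset.mem_Icc] at hj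
      have := h.hiN
      simp only [hs1, hs2, Finset.mem_union, Finset.mem_filter, Finset.mem_Icc]
      omega
    · refine Finset.disjoint_left.2 fun j h1 h2 => ?_
      simp only [hs1, hs2, Finset.mem_filter, Finset.mem_Icc] at h1 h2
      omega
  have hone : ∀ j ∈ s1, c.farM j (th / 4) ν ≤
      4 * th⁻¹ * (β * Real.sqrt (pairs c.e c.f c.N c.x c.r j K) + β * (2 * P)) := by
    intro j hj
    simp only [hs1, Finset.mem_Icc] at hj
    have hji : j ≤ i := hj.2.trans (min_le_left _ _)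
    have hb := h.mid j hj.1 hji
    have hcr := c.spread_cross (β := β) (by linarith) h.pos hb ν
    have hsq : Real.sqrt (2 * β) ≤ β := by
      rw [Real.sqrt_le_iff]; exact ⟨by linarith, by nlinarith⟩
    have h1 := c.farM_le_spread j (th := th / 4) ν
    have h2 : spread c.e c.f c.N c.x c.r j ν ≤
        β * Real.sqrt (pairs c.e c.f c.N c.x c.r j K) + β * (2 * P) :=
      hcr.trans (add_le_add (mul_le_mul_of_nonneg_right hsq (Real.sqrt_nonneg _))
        (mul_le_mul_of_nonneg_left hsp (by linarith)))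
    rw [show 4 * th⁻¹ = (th / 4)⁻¹ by rw [inv_div]; rfl, inv_mul_eq_div,
      le_div_iff₀ (by rw [hth]; positivity), mul_comm]
    exact h1.trans h2
  have hsum1 : ∑ j ∈ s1, c.farM j (th / 4) ν ≤ (60 + 60 * (qq / (1 - qq))) * c.errK K := by
    refine (Finset.sum_le_sum hone).trans ?_
    rw [← Finset.mul_sum, Finset.sum_add_distrib, ← Finset.mul_sum, Finset.sum_const, nsmul_eq_mul]
    have hcard : (s1.card : ℝ) ≤ 2 * K + 3 := by
      have : s1.card ≤ 2 * K + 3 := by rw [hs1, Nat.card_Icc]; omega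
      exact_mod_cast this
    have hps : ∑ j ∈ s1, Real.sqrt (pairs c.e c.f c.N c.x c.r j K) ≤ P := c.sum_sqrt_pairs_le h.hKN
    have hb0 : 0 ≤ 4 * th⁻¹ := by rw [hth]; positivity
    calc 4 * th⁻¹ * (β * ∑ j ∈ s1, Real.sqrt (pairs c.e c.f c.N c.x c.r j K) +
            (s1.card : ℝ) * (β * (2 * P)))
        ≤ 4 * th⁻¹ * (β * P + (2 * (K:ℝ) + 3) * (β * (2 * P))) :=
          mul_le_mul_of_nonneg_left (add_le_add (mul_le_mul_of_nonneg_left hps (by linarith))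
            (mul_le_mul_of_nonneg_right hcard (by positivity))) hb0
      _ = 8 * (7 + 4 * (K:ℝ)) * ((qq ^ (4 * K))⁻¹ * P) := by
          rw [hth, hβ, show 4 * K = 3 * K + K by omega, pow_add, mul_inv]; ring
      _ ≤ 8 * ((7 + 4 * (qq / (1 - qq))) * (qq ^ K)⁻¹) * ((qq ^ (4 * K))⁻¹ * P) := by
          refine mul_le_mul_of_nonneg_right (mul_le_mul_of_nonneg_left ?_ (by norm_num))
            (mul_nonneg (by positivity) hP0)
          nlinarith [nat_le_qq_inv_pow K, one_le_qq_inv_pow K]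
      _ = (56 + 32 * (qq / (1 - qq))) * ((qq ^ (5 * K))⁻¹ * P) := by
          rw [show 5 * K = K + 4 * K by omega, pow_add, mul_inv]; ring
      _ ≤ _ := by
          have hqq : 0 ≤ qq / (1 - qq) := div_nonneg hq.le hq1.le
          exact mul_le_mul (by linarith) e2 (mul_nonneg (by positivity) hP0) (by linarith)
  have hsum2 : ∑ j ∈ s2, c.farM j (th / 4) ν ≤ 8 / (1 - qq) * c.errK K := by
    refine (Finset.sum_le_sum (g := fun j => 2 * (qq ^ K)⁻¹ * MK * qq ^ j) fun j hj => ?_).trans ?_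
    · simp only [hs2, Finset.mem_filter, Finset.mem_Icc] at hj
      refine le_trans ?_ ((h.fine j hj.2 hj.1.2).trans (le_of_eq (by rw [hMK]; ring)))
      exact Finset.sum_le_sum_of_subset_of_nonneg (Finset.filter_subset _ _)
        fun _ _ _ => c.bwt_nonneg _ _
    rw [← Finset.mul_sum]
    have hgeo := sum_qq_pow_le (a := 3 * K) s2 fun j hj => by
      simp only [hs2, Finset.mem_filter] at hj; omega
    have hM0 : 0 ≤ MK := c.bM_nonneg K
    calc 2 * (qq ^ K)⁻¹ * MK * ∑ j ∈ s2, qq ^ j ≤ 2 * (qq ^ K)⁻¹ * MK * (qq ^ (3 * K) / (1 - qq)) :=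
          mul_le_mul_of_nonneg_left hgeo (by positivity)
      _ = 2 / (1 - qq) * (qq ^ (2 * K) * MK) := by
          rw [show 3 * K = K + 2 * K by omega, pow_add]; field_simp
      _ ≤ 8 / (1 - qq) * (qq ^ K * mu2 c.e c.f c.N K) := by
          refine mul_le_mul (div_le_div_of_nonneg_right (by norm_num) hq1.le) (mul_le_mul
            (pow_le_pow_of_le_one hq.le qq_lt_one.le (by omega))
            ((c.bM_le_bmu K).trans (le_add_of_nonneg_left (c.bmu_nonneg _))) hM0 (by positivity))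
            (mul_nonneg (by positivity) hM0) (by positivity)
      _ ≤ _ := mul_le_mul_of_nonneg_left e1 (by positivity)
  rw [Finset.sum_add_distrib]
  calc ∑ j ∈ Finset.Icc (K - 1) i, c.farM j (th / 4) ν + ∑ _j ∈ Finset.Icc (K - 1) i, rC d * c.rem0
      ≤ ((60 + 60 * (qq / (1 - qq))) * c.errK K + 8 / (1 - qq) * c.errK K) + rC d * c.errK K :=
        add_le_add (hle.trans (add_le_add hsum1 hsum2)) hrem
    _ = _ := by ring

/-- **Far bound.** What is below both the far layers and the cap is an error term. -/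
theorem far_bound {A : ℝ} (hA : 1 + cC d ≤ A) {K i : ℕ} (h : c.Dom A K i)
    (hD : c.D (K - 1) ≤ (A - (1 + cC d)) * ((qq ^ K)⁻¹ * bM c.e c.f c.N c.x c.r K))
    {ν : X d} (hν : c.IsDir K ν) {T : ℝ}
    (h1 : T ≤ (∑ j ∈ Finset.Ico (K - 1) i,
        ∑ k ∈ c.farSet j (qq ^ (3 * K)) ν, c.Ep j k (c.chi j)) +
      ∑ k ∈ c.farSet i (qq ^ (3 * K)) ν, c.Ep i k (c.om i))
    (h2 : T ≤ A * ((qq ^ K)⁻¹ * bM c.e c.f c.N c.x c.r K)) :
    T ≤ (farC d + 10) * c.errK K := by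
  have hq := qq_pos'
  have hl : 1 ≤ K - 1 := by have := h.large.two; omega
  obtain ⟨e1, e2, e3, -⟩ := c.errK_ge K
  have he0 := c.errK_nonneg K
  set MK := bM c.e c.f c.N c.x c.r K with hMK
  set mu := mu2 c.e c.f c.N K with hmu
  have hM0 : 0 ≤ MK := c.bM_nonneg K
  have hmu' : bmu c.e c.f c.N (K - 1) ≤ mu ∧ MK ≤ mu :=
    ⟨le_add_of_nonneg_right (c.bmu_nonneg _),
      (c.bM_le_bmu K).trans (le_add_of_nonneg_left (c.bmu_nonneg _))⟩
  have hone := one_le_qq_inv_pow K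
  have hcap : A * (qq ^ K)⁻¹ ≤ (qq ^ (2 * K))⁻¹ := by
    rw [two_mul, pow_add, mul_inv]
    refine mul_le_mul_of_nonneg_right ?_ (by positivity)
    rw [← one_div, le_div_iff₀ (pow_pos hq K)]; exact h.large.cap
  have hP : gDeep c.e c.f c.x c.r (K - 1) ≤ (qq ^ (2 * K))⁻¹ * mu := by
    refine (c.gDeep_le hl (h.hi.trans h.hiN)).trans ?_
    calc c.D (K - 1) + (1 + cC d) * bmu c.e c.f c.N (K - 1)
        ≤ (A - (1 + cC d)) * ((qq ^ K)⁻¹ * mu) + (1 + cC d) * ((qq ^ K)⁻¹ * mu) := by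
          refine add_le_add (hD.trans (mul_le_mul_of_nonneg_left
            (mul_le_mul_of_nonneg_left hmu'.2 (by positivity)) (by linarith))) ?_
          refine mul_le_mul_of_nonneg_left (hmu'.1.trans ?_) (by linarith [cC_pos d])
          exact le_mul_of_one_le_left (c.mu2_nonneg K) hone
      _ = A * (qq ^ K)⁻¹ * mu := by ring
      _ ≤ _ := mul_le_mul_of_nonneg_right hcap (c.mu2_nonneg K)
  have hfar := c.far_le hl h.hi h.hiN ν h.large.band h.large.cells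
  have hsum := c.far_sum_le h hν
  have hconv := c.ray_conv ν hP
  set G := gFar c.e c.f c.x c.r (K - 1) (qq ^ (3 * K) / 2) ν with hG
  have hc0 := cC_pos d
  set Rst := 7 * cC d * ((60 + 8 / (1 - qq) + 60 * (qq / (1 - qq)) + rC d) * c.errK K) with hRst
  have hRst0 : 0 ≤ Rst := by
    have := rC_nonneg d
    have : 0 < 1 - qq := by linarith [qq_lt_one]
    rw [hRst]; positivity
  have hT1 : T ≤ G + Rst :=
    h1.trans (hfar.trans (add_le_add le_rfl (mul_le_mul_of_nonneg_left hsum (by positivity))))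
  have hT2 : T ≤ (qq ^ (2 * K))⁻¹ * MK + Rst := by
    refine h2.trans (le_add_of_le_of_nonneg ?_ hRst0)
    calc A * ((qq ^ K)⁻¹ * MK) = A * (qq ^ K)⁻¹ * MK := by ring
      _ ≤ _ := mul_le_mul_of_nonneg_right hcap hM0
  have hT : T ≤ min G ((qq ^ (2 * K))⁻¹ * MK) + Rst := by
    rcases min_choice G ((qq ^ (2 * K))⁻¹ * MK) with e | e <;> rw [e] <;> assumption
  have hsp : 8 * (qq ^ (5 * K))⁻¹ * spread c.e c.f c.N c.x c.r K ν ≤ 16 * c.errK K := by
    have : spread c.e c.f c.N c.x c.r K ν ≤ 2 * pairTerm c.e c.f c.N c.x c.r K := by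
      refine hν.2.trans ?_
      rw [Real.sqrt_mul zero_le_two]
      exact mul_le_mul (Real.sqrt_le_iff.2 ⟨by norm_num, by norm_num⟩)
        (c.sqrt_pairs_le h.hKN (by omega) (by omega) h.hKN).1 (Real.sqrt_nonneg _) (by norm_num)
    calc 8 * (qq ^ (5 * K))⁻¹ * spread c.e c.f c.N c.x c.r K ν
        ≤ 8 * (qq ^ (5 * K))⁻¹ * (2 * pairTerm c.e c.f c.N c.x c.r K) :=
          mul_le_mul_of_nonneg_left this (by positivity)
      _ ≤ _ := by linarith
  have h2K : qq ^ (2 * K) * mu ≤ c.errK K :=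
    (mul_le_mul_of_nonneg_right (pow_le_pow_of_le_one hq.le qq_lt_one.le (by omega))
      (c.mu2_nonneg K)).trans e1
  have : (farC d + 10) * c.errK K = Rst + 26 * c.errK K := by rw [hRst]; unfold farC; ring
  rw [this]
  have h3 : 2 * (qq ^ (4 * K) * mu)⁻¹ * rayTerm c.e c.f c.N c.x c.r K ≤ 2 * c.errK K := by
    rw [mul_assoc]; exact mul_le_mul_of_nonneg_left e3 zero_le_two
  linarith

/-- The total deviation is small outside the far cubes. -/
lemma hdev_le {K j : ℕ} (hj : K - 1 ≤ j) {A : ℝ} (hL : Large d A K) (k : Fin d → ℤ) (ν : X d)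
    (h : ‖udir c.x (dcen j k) - ν‖ ≤ qq ^ (3 * K)) : c.hdev j k ν ≤ 2 * qq ^ (3 * K) := by
  have h1 : (5 * (d:ℝ) + 5) * dl j ≤ 16 * ((d:ℝ) + 1) * dl (K - 1) := by
    refine mul_le_mul ?_ (dl_antitone hj) (dl_pos j).le (by positivity)
    linarith [Nat.cast_nonneg (α := ℝ) d]
  unfold hdev; linarith [hL.cells]

lemma hdev_le_three {K j : ℕ} (hj : K - 1 ≤ j) {A : ℝ} (hL : Large d A K) (k : Fin d → ℤ)
    {ν : X d} (hν : ‖ν‖ = 1) : c.hdev j k ν ≤ 3 := by
  have h1 : (5 * (d:ℝ) + 5) * dl j ≤ 16 * ((d:ℝ) + 1) * dl (K - 1) := by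
    refine mul_le_mul ?_ (dl_antitone hj) (dl_pos j).le (by positivity)
    linarith [Nat.cast_nonneg (α := ℝ) d]
  have h2 : qq ^ (3 * K) ≤ 1 := pow_le_one₀ qq_pos'.le qq_lt_one.le
  have h3 := norm_sub_le (udir c.x (dcen j k)) ν
  unfold hdev
  linarith [hL.cells, udir_norm_le c.x (dcen j k)]

/-- Splitting a sum over a band at a threshold. -/
lemma split_le (j : ℕ) (th : ℝ) (ν : X d) (W : (Fin d → ℤ) → ℝ) (E : (Fin d → ℤ) → ℝ) {a b : ℝ}
    (hE : ∀ k ∈ band c.x c.r j, 0 ≤ E k)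
    (hnear : ∀ k ∈ band c.x c.r j, ‖udir c.x (dcen j k) - ν‖ ≤ th → W k ≤ a * E k)
    (hfar : ∀ k ∈ band c.x c.r j, W k ≤ b * E k) (ha : 0 ≤ a) :
    ∑ k ∈ band c.x c.r j, W k ≤
      a * ∑ k ∈ band c.x c.r j, E k + b * ∑ k ∈ c.farSet j th ν, E k := by
  classical
  rw [← Finset.sum_filter_add_sum_filter_not (band c.x c.r j)
    (fun k => th < ‖udir c.x (dcen j k) - ν‖) W, add_comm, Finset.mul_sum, Finset.mul_sum]
  refine add_le_add ?_ (Finset.sum_le_sum fun k hk => hfar k (Finset.mem_filter.1 hk).1)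
  refine (Finset.sum_le_sum fun k hk => hnear k (Finset.mem_filter.1 hk).1
    (not_lt.1 (Finset.mem_filter.1 hk).2)).trans ?_
  exact Finset.sum_le_sum_of_subset_of_nonneg (Finset.filter_subset _ _)
    fun k hk _ => mul_nonneg ha (hE k hk)

/-- The layers governed by one level. -/
theorem layers_le {A : ℝ} (hA : 1 + cC d ≤ A) {K i : ℕ} (h : c.Dom A K i)
    (hD : c.D i ≤ (A - (1 + cC d)) * ((qq ^ K)⁻¹ * bM c.e c.f c.N c.x c.r K))
    {ν : X d} (hν : c.IsDir K ν) :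
    ∑ j ∈ Finset.Ico (K - 1) i, ‖c.Kv ν (c.chi j)‖ ≤
      (42 * d * A + 63 * d * (farC d + 10)) * c.errK K := by
  have hl : 1 ≤ K - 1 := by have := h.large.two; omega
  have hi1 : 1 ≤ i := hl.trans h.hi
  set th := qq ^ (3 * K) with hth
  have hth0 : 0 ≤ th := by rw [hth]; have := qq_pos'; positivity
  have hmono : c.D (K - 1) ≤ c.D i := c.D_mono hl h.hi (by have := h.hiN; omega)
  have hA0 : 0 ≤ A := by linarith [cC_pos d]
  have hMK : 0 ≤ (qq ^ K)⁻¹ * bM c.e c.f c.N c.x c.r K :=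
    mul_nonneg (by have := qq_pos'; positivity) (c.bM_nonneg K)
  have hEn : ∀ j ∈ Finset.Ico (K - 1) i, ∀ k ∈ band c.x c.r j, 0 ≤ c.Ep j k (c.chi j) :=
    fun j hj k hk => by
      rw [Finset.mem_Ico] at hj
      exact c.Ep_nonneg (by have := h.hiN; omega) (c.band_subset j hk) (c.chi_test (by omega))
  have hj1 : ∀ j ∈ Finset.Ico (K - 1) i, ‖c.Kv ν (c.chi j)‖ ≤
      42 * d * th * (c.D (j + 1) - c.D j) +
        63 * d * ∑ k ∈ c.farSet j th ν, c.Ep j k (c.chi j) := by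
    intro j hj
    have hjE := hEn j hj
    rw [Finset.mem_Ico] at hj
    have hjN : j ≤ c.N := by have := h.hiN; omega
    have h1j : 1 ≤ j := hl.trans hj.1
    rw [c.Kv_band (c.chi_test h1j) (fun t => c.chi_supp h1j)]
    refine (norm_sum_le _ _).trans ((Finset.sum_le_sum fun k hk =>
      c.Kvec_le hjN hk (c.chi_test h1j) hν.1).trans ?_)
    refine (c.split_le j th ν _ (fun k => c.Ep j k (c.chi j)) (a := 42 * d * th) (b := 63 * d)
      hjE ?_ ?_ (by positivity)).trans ?_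
    · intro k hk hk'
      refine (mul_le_mul_of_nonneg_right (mul_le_mul_of_nonneg_left (c.hdev_le hj.1 h.large k ν hk')
        (by positivity)) (hjE k hk)).trans (le_of_eq ?_)
      rw [hth]; ring
    · intro k hk
      refine (mul_le_mul_of_nonneg_right (mul_le_mul_of_nonneg_left
        (c.hdev_le_three hj.1 h.large k hν.1) (by positivity)) (hjE k hk)).trans (le_of_eq (by ring))
    · exact add_le_add (mul_le_mul_of_nonneg_left (c.sum_band_chi_le h1j hjN) (by positivity))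
        le_rfl
  refine (Finset.sum_le_sum hj1).trans ?_
  rw [Finset.sum_add_distrib, ← Finset.mul_sum, ← Finset.mul_sum]
  have htel : ∑ j ∈ Finset.Ico (K - 1) i, (c.D (j + 1) - c.D j) = c.D i - c.D (K - 1) :=
    Finset.sum_Ico_sub c.D h.hi
  set T := ∑ j ∈ Finset.Ico (K - 1) i, ∑ k ∈ c.farSet j th ν, c.Ep j k (c.chi j) with hTdef
  have hN1 : 1 ≤ c.N := hi1.trans h.hiN
  have hK10 : 0 ≤ c.D (K - 1) := c.D_nonneg hl (by have := h.hi; have := h.hiN; omega) hN1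
  have hT : T ≤ (farC d + 10) * c.errK K := by
    refine c.far_bound hA h (hmono.trans hD) hν ?_ ?_
    · refine le_add_of_nonneg_right (Finset.sum_nonneg fun k hk => ?_)
      exact c.Ep_nonneg h.hiN (c.band_subset i (Finset.mem_filter.1 hk).1) (c.om_test hi1)
    · have h1 : T ≤ ∑ j ∈ Finset.Ico (K - 1) i, (c.D (j + 1) - c.D j) := by
        refine Finset.sum_le_sum fun j hj => ?_
        refine le_trans (Finset.sum_le_sum_of_subset_of_nonneg (Finset.filter_subset _ _)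
          fun k hk _ => hEn j hj k hk) ?_
        rw [Finset.mem_Ico] at hj
        exact c.sum_band_chi_le (by omega) (by have := h.hiN; omega)
      nlinarith [cC_pos d, htel]
  rw [htel]
  have h2 : th * (c.D i - c.D (K - 1)) ≤ A * c.errK K := by
    have hq := qq_pos'
    calc th * (c.D i - c.D (K - 1)) ≤ th * (A * ((qq ^ K)⁻¹ * bM c.e c.f c.N c.x c.r K)) :=
          mul_le_mul_of_nonneg_left (by nlinarith [cC_pos d]) hth0
      _ = A * (qq ^ (2 * K) * bM c.e c.f c.N c.x c.r K) := by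
          rw [hth, show 3 * K = K + 2 * K by omega, pow_add]; field_simp
      _ ≤ A * (qq ^ K * mu2 c.e c.f c.N K) :=
          mul_le_mul_of_nonneg_left (mul_le_mul (pow_le_pow_of_le_one hq.le qq_lt_one.le (by omega))
            ((c.bM_le_bmu K).trans (le_add_of_nonneg_left (c.bmu_nonneg _))) (c.bM_nonneg K)
            (by positivity)) hA0
      _ ≤ _ := mul_le_mul_of_nonneg_left (c.errK_ge K).1 hA0
  have hd0 : (0:ℝ) ≤ d := Nat.cast_nonneg d
  nlinarith [mul_le_mul_of_nonneg_left h2 hd0, mul_le_mul_of_nonneg_left hT hd0]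

end Ctx

end Vale.Agent.P137.Centred
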