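import Vale.Agent.P137.Centred.Cells

/-!
P137, centred operator: testing a field against a nonnegative weight on one cube.
-/

open MeasureTheory Metric Set Filter
open scoped ENNReal Topology RealInnerProductSpace

noncomputable section

namespace Vale.Agent.P137.Centred

variable {d : ℕ}

lemma bad_nonneg (η : ℝ) (e X : X d) : 0 ≤ bad η e X := by
  unfold bad; split
  · exact norm_nonneg _
  · exact le_rfl

lemma inner_ge_neg_bad {η : ℝ} {e τ : X d} (hτ : ∀ X, bad η e X = 0 → 0 ≤ ⟪τ, X⟫) (X : X d) :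
    -(‖τ‖ * bad η e X) ≤ ⟪τ, X⟫ := by
  by_cases h : η * ‖X‖ < excess e X
  · rw [bad, if_pos h]
    linarith [neg_abs_le ⟪τ, X⟫, abs_real_inner_le_norm τ X]
  · have h0 : bad η e X = 0 := if_neg h
    rw [h0]
    simpa using hτ X h0

lemma integrableOn_cube {v : X d → X d} (hv : Continuous v) (j : ℕ) (k : Fin d → ℤ) :
    IntegrableOn v (cube (dcorner j k) (dl j)) := by
  refine (hv.continuousOn.integrableOn_compact (isCompact_closedBall (dcorner j k)
    (((d:ℝ) + 1) * dl j))).mono_set fun y hy => ?_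
  rw [mem_closedBall, dist_eq_norm]
  refine dist_cube_le (dl_pos j).le hy ?_
  exact fun i => ⟨le_rfl, by linarith [dl_pos j]⟩

/-- The recursion behind the cube test: an absolute Lipschitz constant, a finite depth. -/
lemma cell_pos_rec {v : X d → X d} (hv : Continuous v) {η : ℝ} {e τ : X d}
    (hτ : ∀ X, bad η e X = 0 → 0 ≤ ⟪τ, X⟫) {V0 Λ : ℝ} (hΛ : 0 ≤ Λ) :
    ∀ (n j : ℕ) (k : Fin d → ℤ) (α : X d → ℝ) (H : ℝ),
      (∀ y ∈ cube (dcorner j k) (dl j), ‖v y‖ ≤ V0) →
      (∀ y ∈ cube (dcorner j k) (dl j), 0 ≤ α y ∧ α y ≤ H) →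
      (∀ y ∈ cube (dcorner j k) (dl j), ∀ z ∈ cube (dcorner j k) (dl j),
        |α y - α z| ≤ Λ * ‖y - z‖) →
      -(‖τ‖ * (H * bad η e (cint v (dcorner j k) (dl j)) + Λ * ((d:ℝ) + 1) *
          ((∑ s ∈ Finset.Icc (j + 1) (j + n), 2 * dl s *
              ∑ k' ∈ desc j s k, bad η e (cint v (dcorner s k') (dl s)))
            + dl (j + n) * dl j ^ d * V0))) ≤
        ⟪τ, ∫ y in cube (dcorner j k) (dl j), α y • v y⟫ := by
  intro n
  induction n with
  | zero =>
    intro j k α H hV hα hL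
    set Q := cube (dcorner j k) (dl j) with hQ
    have hne : Q.Nonempty := ⟨dcorner j k, fun i => ⟨le_rfl, by linarith [dl_pos j]⟩⟩
    have hQv : volume Q < ⊤ := volume_cube_lt_top _ (dl_pos j).le
    have hvi : IntegrableOn v Q := integrableOn_cube hv j k
    set a := sInf (α '' Q) with ha
    have hbdd : BddBelow (α '' Q) := ⟨0, by rintro _ ⟨y, hy, rfl⟩; exact (hα y hy).1⟩
    have ha0 : 0 ≤ a := le_csInf (hne.image α) (by rintro _ ⟨y, hy, rfl⟩; exact (hα y hy).1)
    have haH : a ≤ H := by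
      obtain ⟨y, hy⟩ := hne
      exact (csInf_le hbdd ⟨y, hy, rfl⟩).trans (hα y hy).2
    have hbeta : ∀ y ∈ Q, ‖(α y - a) • v y‖ ≤ Λ * ((d:ℝ) + 1) * dl j * V0 := fun y hy => by
      have h1 : 0 ≤ α y - a := sub_nonneg.2 (csInf_le hbdd ⟨y, hy, rfl⟩)
      have h2 : α y - Λ * ((d:ℝ) + 1) * dl j ≤ a := le_csInf (hne.image α) (by
        rintro _ ⟨z, hz, rfl⟩
        have hd := mul_le_mul_of_nonneg_left (dist_cube_le (dl_pos j).le hy hz) hΛ
        linarith [le_abs_self (α y - α z), hL y hy z hz, mul_assoc Λ ((d:ℝ) + 1) (dl j)])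
      rw [norm_smul, Real.norm_of_nonneg h1]
      refine mul_le_mul (by linarith) (hV y hy) (norm_nonneg _) ?_
      have := dl_pos j; positivity
    have hmeas : AEStronglyMeasurable (fun y => α y • v y) (volume.restrict Q) := by
      have hcont : ContinuousOn α Q := by
        refine (LipschitzOnWith.of_dist_le_mul (K := Real.toNNReal Λ) fun y hy z hz => ?_).continuousOn
        rw [Real.dist_eq, dist_eq_norm, Real.coe_toNNReal _ hΛ]
        exact hL y hy z hz
      exact (hcont.smul hv.continuousOn).aestronglyMeasurable (measurableSet_cube _ _)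
    have hai : IntegrableOn (fun y => α y • v y) Q :=
      IntegrableOn.of_bound hQv hmeas (H * V0) ((ae_restrict_iff' (measurableSet_cube _ _)).2
        (Eventually.of_forall fun y hy => by
          rw [norm_smul, Real.norm_of_nonneg (hα y hy).1]
          exact mul_le_mul (hα y hy).2 (hV y hy) (norm_nonneg _)
            ((hα y hy).1.trans (hα y hy).2)))
    have hsplit : ∫ y in Q, α y • v y = a • cint v (dcorner j k) (dl j) +
        ∫ y in Q, (α y - a) • v y := by
      rw [cint, ← hQ, ← integral_smul, ← integral_add (hvi.fun_smul a)]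
      · exact integral_congr_ae (Eventually.of_forall fun y => by simp [sub_smul])
      · simp only [sub_smul]; exact hai.sub (hvi.fun_smul a)
    have h3 : -(‖τ‖ * (Λ * ((d:ℝ) + 1) * dl j * V0 * dl j ^ d)) ≤
        ⟪τ, ∫ y in Q, (α y - a) • v y⟫ := by
      have := norm_setIntegral_le_of_norm_le_const hQv hbeta
      rw [hQ, measureReal_cube _ (dl_pos j).le, ← hQ] at this
      nlinarith [neg_abs_le ⟪τ, ∫ y in Q, (α y - a) • v y⟫,
        abs_real_inner_le_norm τ (∫ y in Q, (α y - a) • v y), norm_nonneg τ]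
    rw [hsplit, inner_add_right, real_inner_smul_right]
    have h4 : -(H * (‖τ‖ * bad η e (cint v (dcorner j k) (dl j)))) ≤
        a * ⟪τ, cint v (dcorner j k) (dl j)⟫ := by
      have hb := mul_le_mul_of_nonneg_left (inner_ge_neg_bad hτ (cint v (dcorner j k) (dl j))) ha0
      have := mul_le_mul_of_nonneg_right haH
        (mul_nonneg (norm_nonneg τ) (bad_nonneg η e (cint v (dcorner j k) (dl j))))
      linarith
    have he : Finset.Icc (j + 1) (j + 0) = ∅ := Finset.Icc_eq_empty_of_lt (by omega)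
    rw [he, Finset.sum_empty, Nat.add_zero]
    linarith
  | succ n ih =>
    intro j k α H hV hα hL
    set Q := cube (dcorner j k) (dl j) with hQ
    have hne : Q.Nonempty := ⟨dcorner j k, fun i => ⟨le_rfl, by linarith [dl_pos j]⟩⟩
    have hQv : volume Q < ⊤ := volume_cube_lt_top _ (dl_pos j).le
    have hvi : IntegrableOn v Q := integrableOn_cube hv j k
    set a := sInf (α '' Q) with ha
    have hbdd : BddBelow (α '' Q) := ⟨0, by rintro _ ⟨y, hy, rfl⟩; exact (hα y hy).1⟩
    have ha0 : 0 ≤ a := le_csInf (hne.image α) (by rintro _ ⟨y, hy, rfl⟩; exact (hα y hy).1)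
    have haH : a ≤ H := by
      obtain ⟨y, hy⟩ := hne
      exact (csInf_le hbdd ⟨y, hy, rfl⟩).trans (hα y hy).2
    set H' := Λ * ((d:ℝ) + 1) * dl j with hH'
    have hb : ∀ y ∈ Q, 0 ≤ α y - a ∧ α y - a ≤ H' := fun y hy => by
      refine ⟨sub_nonneg.2 (csInf_le hbdd ⟨y, hy, rfl⟩), ?_⟩
      have h2 : α y - H' ≤ a := le_csInf (hne.image α) (by
        rintro _ ⟨z, hz, rfl⟩
        have hd := mul_le_mul_of_nonneg_left (dist_cube_le (dl_pos j).le hy hz) hΛ
        linarith [le_abs_self (α y - α z), hL y hy z hz, mul_assoc Λ ((d:ℝ) + 1) (dl j)])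
      linarith
    have hbi : IntegrableOn (fun y => (α y - a) • v y) Q := by
      have hcont : ContinuousOn α Q := by
        refine (LipschitzOnWith.of_dist_le_mul (K := Real.toNNReal Λ) fun y hy z hz => ?_).continuousOn
        rw [Real.dist_eq, dist_eq_norm, Real.coe_toNNReal _ hΛ]
        exact hL y hy z hz
      refine IntegrableOn.of_bound hQv
        (((hcont.sub continuousOn_const).smul hv.continuousOn).aestronglyMeasurable
          (measurableSet_cube _ _)) (H' * V0) ((ae_restrict_iff' (measurableSet_cube _ _)).2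
        (Eventually.of_forall fun y hy => ?_))
      rw [norm_smul, Real.norm_of_nonneg (hb y hy).1]
      exact mul_le_mul (hb y hy).2 (hV y hy) (norm_nonneg _) ((hb y hy).1.trans (hb y hy).2)
    have hsplit : ∫ y in Q, α y • v y = a • cint v (dcorner j k) (dl j) +
        ∫ y in Q, (α y - a) • v y := by
      rw [cint, ← hQ, ← integral_smul, ← integral_add (hvi.fun_smul a) hbi]
      exact integral_congr_ae (Eventually.of_forall fun y => by simp [sub_smul])
    rw [hsplit, inner_add_right, real_inner_smul_right, cell_sum_children k _ hbi, inner_sum]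
    have hc := Finset.sum_le_sum (s := desc j (j + 1) k) fun c hc => ih (j + 1) c
      (fun y => α y - a) H'
      (fun y hy => hV y (cell_subset (by omega) hc hy))
      (fun y hy => hb y (cell_subset (by omega) hc hy))
      (fun y hy z hz => by
        rw [sub_sub_sub_cancel_right]
        exact hL y (cell_subset (by omega) hc hy) z (cell_subset (by omega) hc hz))
    have h4 : -(H * (‖τ‖ * bad η e (cint v (dcorner j k) (dl j)))) ≤
        a * ⟪τ, cint v (dcorner j k) (dl j)⟫ := by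
      have hb1 := mul_le_mul_of_nonneg_left (inner_ge_neg_bad hτ (cint v (dcorner j k) (dl j))) ha0
      have := mul_le_mul_of_nonneg_right haH
        (mul_nonneg (norm_nonneg τ) (bad_nonneg η e (cint v (dcorner j k) (dl j))))
      linarith
    have hn : j + 1 + n = j + (n + 1) := by omega
    have hcard : ((desc j (j + 1) k).card : ℝ) * dl (j + 1) ^ d = dl j ^ d := by
      have hc2 : (desc j (j + 1) k).card = 2 ^ d := by
        simp only [desc, Fintype.card_piFinset, Int.card_Ico, Nat.add_sub_cancel_left, pow_one,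
          add_one_mul, add_sub_cancel_left]
        simp
      rw [hc2, dl_succ, Nat.cast_pow, ← mul_pow]
      norm_num
      congr 1
      ring
    have hins : Finset.Icc (j + 1) (j + (n + 1)) =
        insert (j + 1) (Finset.Icc (j + 1 + 1) (j + (n + 1))) := by
      ext s; simp only [Finset.mem_insert, Finset.mem_Icc]; omega
    have hsum : ∑ c ∈ desc j (j + 1) k,
        -(‖τ‖ * (H' * bad η e (cint v (dcorner (j + 1) c) (dl (j + 1))) + Λ * ((d:ℝ) + 1) *
          ((∑ s ∈ Finset.Icc (j + 1 + 1) (j + 1 + n), 2 * dl s *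
              ∑ k' ∈ desc (j + 1) s c, bad η e (cint v (dcorner s k') (dl s)))
            + dl (j + 1 + n) * dl (j + 1) ^ d * V0)))
        = -(‖τ‖ * (Λ * ((d:ℝ) + 1) *
          ((∑ s ∈ Finset.Icc (j + 1) (j + (n + 1)), 2 * dl s *
              ∑ k' ∈ desc j s k, bad η e (cint v (dcorner s k') (dl s)))
            + dl (j + (n + 1)) * dl j ^ d * V0))) := by
      rw [Finset.sum_neg_distrib, ← Finset.mul_sum, Finset.sum_add_distrib, ← Finset.mul_sum,
        ← Finset.mul_sum, Finset.sum_add_distrib, Finset.sum_comm, hn, hins,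
        Finset.sum_insert (by simp), Finset.sum_const, nsmul_eq_mul, ← hcard, hH', dl_succ]
      have hsw : ∑ s ∈ Finset.Icc (j + 1 + 1) (j + (n + 1)),
          ∑ c ∈ desc j (j + 1) k, 2 * dl s *
            ∑ k' ∈ desc (j + 1) s c, bad η e (cint v (dcorner s k') (dl s)) =
          ∑ s ∈ Finset.Icc (j + 1 + 1) (j + (n + 1)), 2 * dl s *
              ∑ k' ∈ desc j s k, bad η e (cint v (dcorner s k') (dl s)) := by
        refine Finset.sum_congr rfl fun s hs => ?_
        rw [← Finset.mul_sum, sum_desc (M := ℝ) (by simp at hs; omega)]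
      rw [hsw]
      ring
    rw [hsum] at hc
    linarith

theorem cellPos (d : ℕ) : CellPos d := by
  refine ⟨2 * ((d:ℝ) + 1), by positivity, fun f hf e N j k hjN V0 hV τ hτ α H L hα hL0 hL => ?_⟩
  have hv : Continuous (vgrad f) := by
    have := hf.continuous_fderiv one_ne_zero
    exact (InnerProductSpace.toDual ℝ (X d)).symm.continuous.comp this
  have h := cell_pos_rec hv hτ (V0 := V0) (Λ := L * 2 ^ j) (by positivity) (N - j) j k α H hV hα hL
  rw [Nat.add_sub_cancel' hjN] at h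
  refine le_trans (neg_le_neg ?_) h
  have hH0 : 0 ≤ H := by
    have hy : dcorner j k ∈ cube (dcorner j k) (dl j) :=
      fun i => ⟨le_rfl, by linarith [dl_pos j]⟩
    exact (hα _ hy).1.trans (hα _ hy).2
  have hV0 : 0 ≤ V0 := (norm_nonneg _).trans
    (hV (dcorner j k) fun i => ⟨le_rfl, by linarith [dl_pos j]⟩)
  have hins : Finset.Icc j N = insert j (Finset.Icc (j + 1) N) := by
    ext s; simp only [Finset.mem_insert, Finset.mem_Icc]; omega
  have hb : bwt e f N j k = bad (etaC d) e (dint f j k) +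
      2 ^ j * ∑ s ∈ Finset.Icc (j + 1) N, dl s *
        ∑ k' ∈ desc j s k, bad (etaC d) e (dint f s k') := by
    have hself : desc j j k = {k} := by
      ext k'; simp [mem_desc, funext_iff]
    rw [bwt, hins, Finset.sum_insert (by simp : j ∉ Finset.Icc (j + 1) N), hself]
    simp only [Nat.sub_self, pow_zero, inv_one, one_mul, Finset.sum_singleton]
    rw [Finset.mul_sum (a := (2:ℝ) ^ j)]
    congr 1
    refine Finset.sum_congr rfl fun s hs => ?_
    rw [← mul_assoc]
    congr 1
    obtain ⟨m, rfl⟩ := Nat.exists_eq_add_of_le (by simp at hs; omega : j ≤ s)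
    simp only [Nat.add_sub_cancel_left, dl, pow_add]
    field_simp
  rw [hb]
  simp only [dint, dl] at *
  have hS : ∑ s ∈ Finset.Icc (j + 1) N, 2 * ((2:ℝ) ^ s)⁻¹ *
      ∑ k' ∈ desc j s k, bad (etaC d) e (cint (vgrad f) (dcorner s k') ((2:ℝ) ^ s)⁻¹) =
      2 * ∑ s ∈ Finset.Icc (j + 1) N, ((2:ℝ) ^ s)⁻¹ *
      ∑ k' ∈ desc j s k, bad (etaC d) e (cint (vgrad f) (dcorner s k') ((2:ℝ) ^ s)⁻¹) := by
    rw [Finset.mul_sum]; exact Finset.sum_congr rfl fun s _ => by ring
  rw [hS]
  have h0 := bad_nonneg (etaC d) e (cint (vgrad f) (dcorner j k) ((2:ℝ) ^ j)⁻¹)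
  have h1 : 0 ≤ ∑ s ∈ Finset.Icc (j + 1) N, ((2:ℝ) ^ s)⁻¹ *
      ∑ k' ∈ desc j s k, bad (etaC d) e (cint (vgrad f) (dcorner s k') ((2:ℝ) ^ s)⁻¹) :=
    Finset.sum_nonneg fun s _ => mul_nonneg (by positivity)
      (Finset.sum_nonneg fun k' _ => bad_nonneg _ _ _)
  set b := bad (etaC d) e (cint (vgrad f) (dcorner j k) ((2:ℝ) ^ j)⁻¹)
  set S := ∑ s ∈ Finset.Icc (j + 1) N, ((2:ℝ) ^ s)⁻¹ *
      ∑ k' ∈ desc j s k, bad (etaC d) e (cint (vgrad f) (dcorner s k') ((2:ℝ) ^ s)⁻¹)
  set R := ((2:ℝ) ^ N)⁻¹ * (((2:ℝ) ^ j)⁻¹) ^ d * V0 with hR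
  have hR0 : 0 ≤ R := by rw [hR]; positivity
  have hd1 : (1:ℝ) ≤ (d:ℝ) + 1 := by linarith [Nat.cast_nonneg (α := ℝ) d]
  have key : H * b + L * 2 ^ j * ((d:ℝ) + 1) * (2 * S + R) ≤
      2 * ((d:ℝ) + 1) * (H + L) * (b + 2 ^ j * S + 2 ^ j * R) := by
    have hp : (0:ℝ) < 2 ^ j := by positivity
    nlinarith [mul_nonneg hL0 (mul_nonneg hp.le hR0), mul_nonneg hH0 (mul_nonneg hp.le h1),
      mul_nonneg hH0 (mul_nonneg hp.le hR0), mul_nonneg hL0 h0, mul_nonneg hH0 h0,
      mul_nonneg (mul_nonneg hH0 h0) (sub_nonneg.2 hd1),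
      mul_nonneg (mul_nonneg hH0 (mul_nonneg hp.le h1)) (sub_nonneg.2 hd1),
      mul_nonneg (mul_nonneg hH0 (mul_nonneg hp.le hR0)) (sub_nonneg.2 hd1),
      mul_nonneg (mul_nonneg hL0 h0) (sub_nonneg.2 hd1)]
  calc ‖τ‖ * (H * b + L * 2 ^ j * ((d:ℝ) + 1) * (2 * S + R))
      ≤ ‖τ‖ * (2 * ((d:ℝ) + 1) * (H + L) * (b + 2 ^ j * S + 2 ^ j * R)) :=
        mul_le_mul_of_nonneg_left key (norm_nonneg _)
    _ = _ := by rw [hR]; ring

end Vale.Agent.P137.Centred
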