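import Vale.Agent.P137.Centred.Core.Start

/-!
P137, centred operator: the decomposition along the significant levels.
-/

open MeasureTheory Metric Set Filter
open scoped ENNReal Topology RealInnerProductSpace

noncomputable section

namespace Vale.Agent.P137.Centred

variable {d : ℕ}

/-- The cap constant. -/
def capA (d : ℕ) : ℝ := 2 / Ctx.epsC d + (1 + cC d)

lemma capA_ge (d : ℕ) : 1 + cC d ≤ capA d := by
  have := Ctx.epsC_pos d; unfold capA
  linarith [div_nonneg zero_le_two this.le]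

lemma capA_nonneg (d : ℕ) : 0 ≤ capA d := by linarith [capA_ge d, cC_pos d]

/-- The layer constant. -/
def layC (d : ℕ) : ℝ := 42 * (d:ℝ) * capA d + 63 * d * (Ctx.farC d + 10)

lemma layC_nonneg (d : ℕ) : 0 ≤ layC d := by
  have := Ctx.farC_pos d; have := capA_nonneg d; unfold layC; positivity

/-- The jump constant. -/
def jumpC (d : ℕ) : ℝ :=
  Ctx.fC d * (capA d + 2 * (Ctx.farC d + 10)) + 8 * (Ctx.fC d * capA d)

lemma jumpC_nonneg (d : ℕ) : 0 ≤ jumpC d := by
  have := Ctx.farC_pos d; have := capA_nonneg d; have := Ctx.fC_pos d; unfold jumpC; positivity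

/-- The prefix constant. -/
def preC (d : ℕ) : ℝ :=
  (1 + Ctx.coneC d) * (2 + Ctx.fC d) *
    (8 * Ctx.fC d * (Ctx.farC d + 10) + 24 * cC d * Ctx.rC d + 4 / Ctx.epsC d)

lemma preC_nonneg (d : ℕ) : 0 ≤ preC d := by
  have := Ctx.farC_pos d; have := Ctx.fC_pos d; have := cC_pos d; have := Ctx.rC_nonneg d
  have := Ctx.epsC_pos d; have : 0 < Ctx.coneC d := by unfold Ctx.coneC; positivity
  unfold preC; positivity

/-- The constant of the main case. -/
def chainC (d : ℕ) : ℝ := preC d + (1 + Ctx.coneC d) * (layC d + 2 * jumpC d + 1)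

lemma chainC_nonneg (d : ℕ) : 0 ≤ chainC d := by
  have := preC_nonneg d; have := layC_nonneg d; have := jumpC_nonneg d; have := Ctx.fC_pos d
  have : 0 < Ctx.coneC d := by unfold Ctx.coneC; positivity
  unfold chainC; positivity

namespace Ctx

variable (c : Ctx d)

/-- A significant level above the restart. -/
def Sig (i0 K : ℕ) : Prop :=
  i0 < K ∧ K ≤ c.N ∧ qq ^ K * bS c.e c.f c.N c.x c.r (K + 1) ≤ bM c.e c.f c.N c.x c.r K

/-- The hypotheses of the main case. -/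
structure Restart (K0 i0 : ℕ) : Prop where
  large : ∀ K, K0 ≤ K → Large d (capA d) K
  le : K0 ≤ i0
  sign : ∀ j, i0 ≤ j → j ≤ c.N → 0 ≤ c.Fl (c.w j) ∧ c.Fl (wp d c.r j) ≤ 0
  rule : ∀ l, i0 < l → l ≤ c.N → epsC d * c.D l < bS c.e c.f c.N c.x c.r (l + 1)

variable {K0 i0 : ℕ}

lemma Restart.two (h : c.Restart K0 i0) : 2 ≤ K0 := (h.large K0 le_rfl).two

lemma sig_pos (h : c.Restart K0 i0) {K : ℕ} (hK : c.Sig i0 K) :
    0 < bM c.e c.f c.N c.x c.r K := by
  have h2 : 0 ≤ c.D K := c.D_nonneg (by have := hK.1; omega) (by have := hK.2.1; omega)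
    (by have := hK.1; have := hK.2.1; omega)
  have h3 : 0 < bS c.e c.f c.N c.x c.r (K + 1) :=
    lt_of_le_of_lt (mul_nonneg (epsC_pos d).le h2) (h.rule K hK.1 hK.2.1)
  exact lt_of_lt_of_le (mul_pos (pow_pos qq_pos' K) h3) hK.2.2

lemma insig {s : ℕ} (h1 : i0 < s) (h2 : s ≤ c.N) (h3 : ¬c.Sig i0 s) :
    bM c.e c.f c.N c.x c.r s ≤ qq ^ s * bS c.e c.f c.N c.x c.r (s + 1) := by
  by_contra h
  exact h3 ⟨h1, h2, (not_le.1 h).le⟩

lemma bS_after_sig (h : c.Restart K0 i0) {K i : ℕ} (hK : c.Sig i0 K) (h1 : K ≤ i) (h2 : i ≤ c.N)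
    (h3 : ∀ s, K < s → s ≤ i → ¬c.Sig i0 s) :
    bS c.e c.f c.N c.x c.r (i + 1) ≤ 2 * ((qq ^ K)⁻¹ * bM c.e c.f c.N c.x c.r K) := by
  refine (c.growth (by omega) (h.large (K + 1) (by have := h.le; have := hK.1; omega))
    fun s hs hs' => c.insig (by have := hK.1; omega) (by omega) (h3 s (by omega) (by omega))).trans ?_
  refine mul_le_mul_of_nonneg_left ?_ zero_le_two
  rw [inv_mul_eq_div, le_div_iff₀ (pow_pos qq_pos' K), mul_comm]
  exact hK.2.2

lemma bM_le_bS {s : ℕ} (hs : 1 ≤ s) :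
    bM c.e c.f c.N c.x c.r s ≤ bS c.e c.f c.N c.x c.r (s + 1) := by
  rw [c.bS_succ hs]; linarith [c.bS_nonneg s]

theorem dom_caps (h : c.Restart K0 i0) {K i : ℕ} (hK : c.Sig i0 K) (h1 : K - 1 ≤ i) (h2 : i ≤ c.N)
    (h3 : ∀ s, K < s → s ≤ i → ¬c.Sig i0 s) :
    c.Dom (capA d) K i ∧
      c.D i ≤ (capA d - (1 + cC d)) * ((qq ^ K)⁻¹ * bM c.e c.f c.N c.x c.r K) := by
  have hK1 : 2 ≤ K := by have := h.two; have := h.le; have := hK.1; omega
  have hnn : 0 ≤ (qq ^ K)⁻¹ * bM c.e c.f c.N c.x c.r K :=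
    mul_nonneg (by have := qq_pos'; positivity) (c.bM_nonneg K)
  have hSK : ∀ s, K ≤ s → s ≤ i →
      bS c.e c.f c.N c.x c.r (s + 1) ≤ 2 * ((qq ^ K)⁻¹ * bM c.e c.f c.N c.x c.r K) :=
    fun s hs hs' => c.bS_after_sig h hK hs (by omega) fun u hu hu' => h3 u hu (by omega)
  have hS0 : bS c.e c.f c.N c.x c.r (K + 1) ≤ (qq ^ K)⁻¹ * bM c.e c.f c.N c.x c.r K := by
    rw [inv_mul_eq_div, le_div_iff₀ (pow_pos qq_pos' K), mul_comm]; exact hK.2.2
  refine ⟨⟨h.large K (by have := h.le; have := hK.1; omega), hK.2.1, h1, h2, c.sig_pos h hK,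
    fun j hj hj' => ?_, fun j hj hj' => ?_⟩, ?_⟩
  · rcases Nat.lt_or_ge j K with hlt | hge
    · have h5 := c.bM_le_bS (s := j) (by omega)
      have e : j + 1 = K := by omega
      rw [e] at h5
      have h6 : bS c.e c.f c.N c.x c.r K ≤ bS c.e c.f c.N c.x c.r (K + 1) := by
        rw [c.bS_succ (j := K) (by omega)]; linarith [c.bM_nonneg K]
      linarith
    · exact (c.bM_le_bS (by omega)).trans ((hSK j hge hj').trans (le_of_eq (by ring)))
  · refine (c.insig (by have := hK.1; omega) (by omega) (h3 j (by omega) hj')).trans ?_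
    refine (mul_le_mul_of_nonneg_left (hSK j (by omega) hj')
      (by have := qq_pos'; positivity)).trans (le_of_eq ?_)
    ring
  · have heps := epsC_pos d
    rw [capA, add_sub_cancel_right, div_mul_eq_mul_div, le_div_iff₀ heps, mul_comm]
    rcases Nat.lt_or_ge i K with hlt | hge
    · have h8 : c.D i ≤ c.D K := c.D_mono (by omega) hlt.le (by have := hK.2.1; omega)
      refine (mul_le_mul_of_nonneg_left h8 heps.le).trans ((h.rule K hK.1 hK.2.1).le.trans ?_)
      linarith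
    · exact (h.rule i (by have := hK.1; omega) h2).le.trans (hSK i hge le_rfl)

/-- The direction attached to a level. -/
def dirOf (K : ℕ) : X d :=
  open Classical in if h : ∃ ν, c.IsDir K ν then Classical.choose h else 0

lemma dirOf_spec (h : c.Restart K0 i0) {K : ℕ} (hK : c.Sig i0 K) : c.IsDir K (c.dirOf K) := by
  have hex : ∃ ν, c.IsDir K ν :=
    c.exists_isDir (h.large K (by have := h.le; have := hK.1; omega)) (c.sig_pos h hK)
  rw [dirOf, dif_pos hex]
  exact Classical.choose_spec hex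

open Classical in
/-- The last significant level up to `j + 1`. -/
def lastSig (i0 : ℕ) (j : ℕ) : ℕ := Nat.findGreatest (c.Sig i0) (j + 1)

/-- The direction of layer `j`. -/
def layDir (i0 j : ℕ) : X d := c.dirOf (c.lastSig i0 j)

variable {K1 : ℕ}

open Classical in
lemma lastSig_sig (hK1 : c.Sig i0 K1) {j : ℕ} (hj : K1 - 1 ≤ j) : c.Sig i0 (c.lastSig i0 j) :=
  Nat.findGreatest_spec (m := K1) (by omega) hK1

open Classical in
lemma lastSig_le (j : ℕ) : c.lastSig i0 j ≤ j + 1 := Nat.findGreatest_le _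

open Classical in
lemma lastSig_max {j s : ℕ} (h1 : c.lastSig i0 j < s) (h2 : s ≤ j + 1) : ¬c.Sig i0 s :=
  Nat.findGreatest_is_greatest h1 h2

open Classical in
lemma le_lastSig {j K : ℕ} (hK : c.Sig i0 K) (h : K ≤ j + 1) : K ≤ c.lastSig i0 j :=
  Nat.le_findGreatest h hK

lemma sig_mem (h : c.Restart K0 i0) {K : ℕ} (hK : c.Sig i0 K) : K ∈ Finset.Icc K0 c.N :=
  Finset.mem_Icc.2 ⟨by have := h.le; have := hK.1; omega, hK.2.1⟩

/-- All layers. -/
theorem layers_total (h : c.Restart K0 i0) (hK1 : c.Sig i0 K1) :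
    ‖∑ j ∈ Finset.Ico (K1 - 1) c.N, c.Kv (c.layDir i0 j) (c.chi j)‖ ≤
      layC d * ∑ K ∈ Finset.Icc K0 c.N, c.errK K := by
  classical
  refine (norm_sum_le _ _).trans ?_
  rw [← Finset.sum_fiberwise_of_maps_to (t := (Finset.Icc K0 c.N).filter (c.Sig i0))
    (g := c.lastSig i0) (fun j hj => Finset.mem_filter.2
      ⟨c.sig_mem h (c.lastSig_sig hK1 (Finset.mem_Ico.1 hj).1),
        c.lastSig_sig hK1 (Finset.mem_Ico.1 hj).1⟩), Finset.mul_sum]
  refine (Finset.sum_le_sum fun K hK => ?_).trans (Finset.sum_le_sum_of_subset_of_nonneg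
    (Finset.filter_subset _ _) fun K _ _ => mul_nonneg (layC_nonneg d) (c.errK_nonneg K))
  have hPK : c.Sig i0 K := (Finset.mem_filter.1 hK).2
  set fib := (Finset.Ico (K1 - 1) c.N).filter (fun j => c.lastSig i0 j = K) with hfib
  rcases fib.eq_empty_or_nonempty with he | hne
  · rw [he, Finset.sum_empty]
    exact mul_nonneg (layC_nonneg d) (c.errK_nonneg K)
  obtain ⟨jm, hjm, hjmax⟩ : ∃ jm ∈ fib, ∀ j ∈ fib, j ≤ jm :=
    ⟨fib.max' hne, fib.max'_mem hne, fun j hj => fib.le_max' j hj⟩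
  obtain ⟨hjm1, hjm2⟩ := Finset.mem_filter.1 hjm
  rw [Finset.mem_Ico] at hjm1
  have hKjm : K ≤ jm + 1 := hjm2 ▸ c.lastSig_le jm
  obtain ⟨hD1, hD2⟩ := c.dom_caps h (i := jm + 1) hPK (by omega) (by omega) fun s h1 h2 =>
    c.lastSig_max (j := jm) (by omega) h2
  have hsub : fib ⊆ Finset.Ico (K - 1) (jm + 1) := fun j hj => by
    have h1 := hjmax j hj
    have h2 : K ≤ j + 1 := (Finset.mem_filter.1 hj).2 ▸ c.lastSig_le j
    rw [Finset.mem_Ico]; omega
  refine le_trans ?_ (c.layers_le (capA_ge d) hD1 hD2 (c.dirOf_spec h hPK))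
  refine le_trans (le_of_eq (Finset.sum_congr rfl fun j hj => ?_))
    (Finset.sum_le_sum_of_subset_of_nonneg hsub fun j _ _ => norm_nonneg _)
  rw [layDir, (Finset.mem_filter.1 hj).2]

/-- One change of direction. -/
theorem jump_one (h : c.Restart K0 i0) (hK1 : c.Sig i0 K1) {j : ℕ} (hj1 : K1 - 1 < j)
    (hjN : j < c.N) (hne : c.lastSig i0 (j - 1) ≠ c.lastSig i0 j) :
    c.lastSig i0 j = j + 1 ∧ c.lastSig i0 (j - 1) ≤ j ∧
      ‖c.Fl (c.w j) • (c.layDir i0 (j - 1) - c.layDir i0 j)‖ ≤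
        jumpC d * (c.errK (c.lastSig i0 (j - 1)) + c.errK (j + 1)) := by
  set K := c.lastSig i0 (j - 1) with hKdef
  have hKj : K ≤ j := by
    have : c.lastSig i0 (j - 1) ≤ j - 1 + 1 := c.lastSig_le (j - 1)
    omega
  have hPK : c.Sig i0 K := c.lastSig_sig hK1 (by omega)
  have hPj : c.Sig i0 (c.lastSig i0 j) := c.lastSig_sig hK1 (by omega)
  have hi : c.lastSig i0 j = j + 1 := by
    by_contra hc'
    have h1 : c.lastSig i0 j ≤ j := by have := c.lastSig_le (i0 := i0) j; omega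
    have h2 : c.lastSig i0 j ≤ K := c.le_lastSig hPj (by omega)
    have h3 : K ≤ c.lastSig i0 j := c.le_lastSig hPK (by omega)
    exact hne (le_antisymm h3 h2)
  refine ⟨hi, hKj, ?_⟩
  rw [hi] at hPj
  obtain ⟨dK, cK⟩ := c.dom_caps h (i := j) hPK (by omega) (by omega) fun s h1 h2 =>
    c.lastSig_max (j := j - 1) h1 (by omega)
  obtain ⟨di, ci⟩ := c.dom_caps h (i := j) hPj (by omega) (by omega) fun s h1 h2 =>
    absurd h2 (by omega)
  obtain ⟨hw, hp⟩ := h.sign j (by have := hK1.1; omega) (by omega)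
  have hf := fC_pos d
  have hA0 := capA_nonneg d
  rw [norm_smul, Real.norm_of_nonneg hw, layDir, layDir, ← hKdef, hi, mul_comm]
  rcases Nat.lt_or_ge (3 * K) (j + 1) with hfar | hclose
  · refine (c.jump_far (K := K) (i := j + 1) (capA_ge d) dK di (c.dirOf_spec h hPK)
      (c.dirOf_spec h hPj) cK ci hw hp).trans ?_
    refine mul_le_mul_of_nonneg_right ?_ (add_nonneg (c.errK_nonneg _) (c.errK_nonneg _))
    unfold jumpC; linarith [mul_nonneg hf.le hA0]
  · have hFD : c.Fl (c.w j) ≤ fC d * c.D j := (le_abs_self _).trans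
      (c.norm_Iv_le (j := j) (by omega) (by omega) (by omega)).2
    have hcap : ∀ L, c.D j ≤ (capA d - (1 + cC d)) * ((qq ^ L)⁻¹ * bM c.e c.f c.N c.x c.r L) →
        c.Fl (c.w j) ≤ fC d * capA d * ((qq ^ L)⁻¹ * bM c.e c.f c.N c.x c.r L) := fun L hL => by
      refine hFD.trans ?_
      rw [mul_assoc]
      refine mul_le_mul_of_nonneg_left
        (hL.trans (mul_le_mul_of_nonneg_right (by linarith [cC_pos d]) ?_)) hf.le
      exact mul_nonneg (by have := qq_pos'; positivity) (c.bM_nonneg L)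
    refine (c.jump_close (mul_nonneg hf.le hA0) (by omega : K < j + 1) hclose hPj.2.1
      (c.sig_pos h hPK) (c.sig_pos h hPj) (c.dirOf_spec h hPK) (c.dirOf_spec h hPj) (hcap K cK)
      (hcap (j + 1) ci)).trans ?_
    refine mul_le_mul ?_ (le_add_of_nonneg_right (c.errK_nonneg _)) (c.errK_nonneg _)
      (jumpC_nonneg d)
    unfold jumpC
    linarith [mul_nonneg hf.le (show 0 ≤ capA d + 2 * (farC d + 10) by linarith [farC_pos d])]

/-- All changes of direction. -/
theorem jumps_total (h : c.Restart K0 i0) (hK1 : c.Sig i0 K1) :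
    ‖∑ j ∈ Finset.Ico (K1 - 1 + 1) c.N,
        c.Fl (c.w j) • (c.layDir i0 (j - 1) - c.layDir i0 j)‖ ≤
      2 * jumpC d * ∑ K ∈ Finset.Icc K0 c.N, c.errK K := by
  classical
  refine (norm_sum_le _ _).trans ?_
  set J := (Finset.Ico (K1 - 1 + 1) c.N).filter
    (fun j => c.lastSig i0 (j - 1) ≠ c.lastSig i0 j) with hJ
  rw [← Finset.sum_subset (Finset.filter_subset
    (fun j => c.lastSig i0 (j - 1) ≠ c.lastSig i0 j) _) (fun j hj hn => by
      have : c.lastSig i0 (j - 1) = c.lastSig i0 j := by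
        by_contra hc'; exact hn (Finset.mem_filter.2 ⟨hj, hc'⟩)
      simp [layDir, this])]
  have hone : ∀ j ∈ J, c.lastSig i0 j = j + 1 ∧ c.lastSig i0 (j - 1) ≤ j ∧
      ‖c.Fl (c.w j) • (c.layDir i0 (j - 1) - c.layDir i0 j)‖ ≤
        jumpC d * (c.errK (c.lastSig i0 (j - 1)) + c.errK (j + 1)) := fun j hj => by
    obtain ⟨h1, h2⟩ := Finset.mem_filter.1 hj
    rw [Finset.mem_Ico] at h1
    exact c.jump_one h hK1 (by omega) h1.2 h2
  have hsub : ∀ (g : ℕ → ℕ), Set.InjOn g J → (∀ j ∈ J, c.Sig i0 (g j)) →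
      ∑ j ∈ J, c.errK (g j) ≤ ∑ K ∈ Finset.Icc K0 c.N, c.errK K := fun g hg hgs => by
    rw [← Finset.sum_image (f := c.errK) hg]
    exact Finset.sum_le_sum_of_subset_of_nonneg (fun K hK => by
      obtain ⟨j, hj, rfl⟩ := Finset.mem_image.1 hK
      exact c.sig_mem h (hgs j hj)) fun K _ _ => c.errK_nonneg K
  refine (Finset.sum_le_sum fun j hj => (hone j hj).2.2).trans ?_
  rw [← Finset.mul_sum, Finset.sum_add_distrib, mul_comm 2 (jumpC d), mul_assoc, two_mul]
  refine mul_le_mul_of_nonneg_left (add_le_add (hsub (fun j => c.lastSig i0 (j - 1)) ?_ ?_)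
    (hsub (fun j => j + 1) ?_ ?_)) (jumpC_nonneg d)
  · have key : ∀ x ∈ J, ∀ y ∈ J, x < y → c.lastSig i0 (x - 1) < c.lastSig i0 (y - 1) := by
      intro x hx y hy hxy
      obtain ⟨e, l, -⟩ := hone x hx
      have hx1 := Finset.mem_Ico.1 (Finset.mem_filter.1 hx).1
      have h1 : c.lastSig i0 x ≤ c.lastSig i0 (y - 1) :=
        c.le_lastSig (c.lastSig_sig hK1 (by omega)) (by omega)
      omega
    intro x hx y hy hxy
    simp only at hxy
    by_contra hne
    rcases Nat.lt_or_gt_of_ne hne with hlt | hlt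
    · exact absurd hxy (key x hx y hy hlt).ne
    · exact absurd hxy (key y hy x hx hlt).ne'
  · intro j hj
    have hj1 := Finset.mem_Ico.1 (Finset.mem_filter.1 hj).1
    exact c.lastSig_sig hK1 (by omega)
  · intro x _ y _ hxy
    simp only at hxy
    omega
  · intro j hj
    have hj1 := Finset.mem_Ico.1 (Finset.mem_filter.1 hj).1
    have := c.lastSig_sig (j := j) hK1 (by omega)
    rwa [(hone j hj).1] at this

/-- The prefix. -/
theorem prefix_total (h : c.Restart K0 i0) (hK1 : c.Sig i0 K1) (hmin : ∀ s, s < K1 → ¬c.Sig i0 s)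
    {B : ℝ} (hB : 0 ≤ B)
    (hbase : bS c.e c.f c.N c.x c.r (i0 + 1) ≤ epsC d * c.D i0 ∨
      bS c.e c.f c.N c.x c.r (i0 + 1) ≤ B) :
    ‖c.Iv (c.w (K1 - 1)) - c.Fl (c.w (K1 - 1)) • c.layDir i0 (K1 - 1)‖ -
        coneC d * ⟪c.e, c.Iv (c.w (K1 - 1)) - c.Fl (c.w (K1 - 1)) • c.layDir i0 (K1 - 1)⟫ ≤
      preC d * ((∑ K ∈ Finset.Icc K0 c.N, c.errK K) + B) := by
  have h2K := h.two
  have hle := h.le
  have hgt := hK1.1
  have hN := hK1.2.1
  have hlast : c.lastSig i0 (K1 - 1) = K1 := by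
    refine le_antisymm ?_ (c.le_lastSig hK1 (by omega))
    have := c.lastSig_le (i0 := i0) (K1 - 1); omega
  rw [layDir, hlast]
  have hdir := c.dirOf_spec h hK1
  set E := ∑ K ∈ Finset.Icc K0 c.N, c.errK K with hE
  have hE0 : 0 ≤ E := Finset.sum_nonneg fun K _ => c.errK_nonneg K
  have hK1E : c.errK K1 ≤ E :=
    Finset.single_le_sum (fun K _ => c.errK_nonneg K) (c.sig_mem h hK1)
  obtain ⟨dA, cA⟩ := c.dom_caps h (i := K1 - 1) hK1 le_rfl (by omega)
    fun s h1 h2 => absurd h2 (by omega)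
  obtain ⟨hwa, hpa⟩ := h.sign (K1 - 1) (by omega) (by omega)
  have hS1 : bS c.e c.f c.N c.x c.r K1 ≤ 2 * bS c.e c.f c.N c.x c.r (i0 + 1) :=
    c.growth (by omega) (h.large (i0 + 1) (by omega))
      fun s hs hs' => c.insig (by omega) (by omega) (hmin s hs')
  have heps := epsC_pos d
  have hc := cC_pos d
  have hf := fC_pos d
  have hrC := rC_nonneg d
  have hfar := farC_pos d
  have hC : 0 < coneC d := by unfold coneC; positivity
  have hi : c.D i0 ≤ c.D (K1 - 1) := c.D_mono (by omega) (by omega) (by omega)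
  set u := c.Iv (c.w (K1 - 1)) - c.Fl (c.w (K1 - 1)) • c.dirOf K1 with hu
  by_cases hsm : bS c.e c.f c.N c.x c.r K1 ≤ 2 * epsC d * c.D (K1 - 1)
  · have hp := c.prefix_le (capA_ge d) dA hdir cA hsm hwa hpa
    rw [← hu] at hp
    have h2 : ((c.N:ℝ) + 1) * c.rem0 ≤ E := (c.errK_ge K1).2.2.2.trans hK1E
    have h3 := mul_le_mul_of_nonneg_left h2
      (show (0:ℝ) ≤ coneC d * (4 * cC d * rC d) by positivity)
    have hU : (0:ℝ) ≤ (1 + coneC d) * (2 + fC d) := by positivity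
    have h4 : coneC d * (4 * cC d * rC d) ≤ (1 + coneC d) * (2 + fC d) * (8 * cC d * rC d) := by
      refine mul_le_mul ?_ ?_ (by positivity) hU
      · have := mul_nonneg (show (0:ℝ) ≤ 1 + coneC d by linarith) (show (0:ℝ) ≤ 1 + fC d by linarith)
        linarith
      · linarith [mul_nonneg hc.le hrC]
    have h5 := mul_le_mul_of_nonneg_right h4 hE0
    have h6 : 0 ≤ preC d * B := mul_nonneg (preC_nonneg d) hB
    have h7 : (1 + coneC d) * (2 + fC d) * (8 * fC d * (farC d + 10) + 16 * cC d * rC d) *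
        c.errK K1 ≤ (1 + coneC d) * (2 + fC d) *
          (8 * fC d * (farC d + 10) + 16 * cC d * rC d) * E :=
      mul_le_mul_of_nonneg_left hK1E (by positivity)
    have h8 : 0 ≤ (1 + coneC d) * (2 + fC d) * (4 / epsC d) * E := by positivity
    unfold preC at h6 ⊢
    linarith
  · have hSB : bS c.e c.f c.N c.x c.r K1 ≤ 2 * B := by
      rcases hbase with hb | hb
      · exact absurd (by linarith [mul_le_mul_of_nonneg_left hi heps.le]) hsm
      · linarith
    push Not at hsm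
    obtain ⟨hI, hFa⟩ := c.norm_Iv_le (j := K1 - 1) (by omega) (by omega) (by omega)
    have hDB : c.D (K1 - 1) ≤ 4 / epsC d * B := by
      rw [div_mul_eq_mul_div, le_div_iff₀ heps]
      linarith
    have hnu : ‖u‖ ≤ (2 + fC d) * c.D (K1 - 1) := by
      refine (norm_sub_le _ _).trans ?_
      rw [norm_smul, hdir.1, mul_one, Real.norm_eq_abs]
      linarith
    have hlow : -(‖u‖) ≤ ⟪c.e, u⟫ := by
      have h1 := (abs_le.1 (abs_real_inner_le_norm c.e u)).1
      linarith [mul_le_mul_of_nonneg_right c.he (norm_nonneg u)]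
    have h1 := mul_le_mul_of_nonneg_left hlow hC.le
    have h2 : (1 + coneC d) * ‖u‖ ≤ (1 + coneC d) * ((2 + fC d) * (4 / epsC d * B)) :=
      mul_le_mul_of_nonneg_left (hnu.trans (mul_le_mul_of_nonneg_left hDB (by linarith)))
        (by linarith)
    have h3 : 0 ≤ preC d * E := mul_nonneg (preC_nonneg d) hE0
    have h4 : 0 ≤ (1 + coneC d) * (2 + fC d) *
        (8 * fC d * (farC d + 10) + 24 * cC d * rC d) * B := by positivity
    unfold preC at h3 ⊢
    linarith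

/-- The identity along the layers. -/
theorem decompose (h : c.Restart K0 i0) (hK1 : c.Sig i0 K1) (hlt : K1 - 1 < c.N) :
    c.Iv (c.w c.N) =
      (c.Iv (c.w (K1 - 1)) - c.Fl (c.w (K1 - 1)) • c.layDir i0 (K1 - 1)) +
      ((∑ j ∈ Finset.Ico (K1 - 1) c.N, c.Kv (c.layDir i0 j) (c.chi j)) +
        c.Fl (c.w c.N) • c.layDir i0 (c.N - 1) +
        ∑ j ∈ Finset.Ico (K1 - 1 + 1) c.N,
          c.Fl (c.w j) • (c.layDir i0 (j - 1) - c.layDir i0 j)) := by
  have h2K := h.two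
  have hle := h.le
  have hgt := hK1.1
  have hKv : ∀ j, K1 - 1 ≤ j → c.Iv (c.chi j) =
      c.Kv (c.layDir i0 j) (c.chi j) + (c.Fl (c.w (j + 1)) - c.Fl (c.w j)) • c.layDir i0 j := by
    intro j hj
    have hj1 : 1 ≤ j := by omega
    have hi := integral_Kvec c.hf (c.chi_test hj1).rweight c.x c.r
      (c.dirOf_spec h (c.lastSig_sig hK1 hj)).1
    rw [← c.Fl_chi hj1, Kv, Iv, Fl, layDir, hi]
    abel
  have htel : ∀ n, K1 - 1 ≤ n → c.Iv (c.w n) =
      c.Iv (c.w (K1 - 1)) + ∑ j ∈ Finset.Ico (K1 - 1) n, c.Iv (c.chi j) := by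
    intro n hn
    induction n, hn using Nat.le_induction with
    | base => simp
    | succ n hn ih => rw [Finset.sum_Ico_succ_top hn, ← add_assoc, ← ih, c.Iv_chi (by omega)]; abel
  rw [htel c.N hlt.le, Finset.sum_congr rfl fun j hj => hKv j (Finset.mem_Ico.1 hj).1,
    Finset.sum_add_distrib, abel_sum (fun j => c.Fl (c.w j)) (c.layDir i0) hlt]
  abel

/-- The main case. -/
theorem chain (h : c.Restart K0 i0) {B : ℝ} (hB : 0 ≤ B)
    (hbase : bS c.e c.f c.N c.x c.r (i0 + 1) ≤ epsC d * c.D i0 ∨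
      bS c.e c.f c.N c.x c.r (i0 + 1) ≤ B)
    (hex : ∃ K, c.Sig i0 K) :
    ‖c.Iv (c.w c.N)‖ - coneC d * ⟪c.e, c.Iv (c.w c.N)⟫ ≤
      chainC d * ((∑ K ∈ Finset.Icc K0 c.N, c.errK K) + B + |c.Fl (c.w c.N)|) := by
  classical
  obtain ⟨K1, hK1, hmin⟩ : ∃ K1, c.Sig i0 K1 ∧ ∀ s, s < K1 → ¬c.Sig i0 s :=
    ⟨Nat.find hex, Nat.find_spec hex, fun s hs => Nat.find_min hex hs⟩
  have hlt : K1 - 1 < c.N := by have := hK1.1; have := hK1.2.1; omega
  have hu := c.prefix_total h hK1 hmin hB hbase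
  have h1 := c.layers_total h hK1
  have h2 := c.jumps_total h hK1
  rw [c.decompose h hK1 hlt, inner_add_right]
  set E := ∑ K ∈ Finset.Icc K0 c.N, c.errK K with hE
  set u := c.Iv (c.w (K1 - 1)) - c.Fl (c.w (K1 - 1)) • c.layDir i0 (K1 - 1)
  set R := (∑ j ∈ Finset.Ico (K1 - 1) c.N, c.Kv (c.layDir i0 j) (c.chi j)) +
    c.Fl (c.w c.N) • c.layDir i0 (c.N - 1) +
    ∑ j ∈ Finset.Ico (K1 - 1 + 1) c.N, c.Fl (c.w j) • (c.layDir i0 (j - 1) - c.layDir i0 j)
    with hR
  have hvN : ‖c.layDir i0 (c.N - 1)‖ = 1 :=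
    (c.dirOf_spec h (c.lastSig_sig hK1 (by omega))).1
  have hRn : ‖R‖ ≤ layC d * E + |c.Fl (c.w c.N)| + 2 * jumpC d * E := by
    refine (norm_add_le _ _).trans (add_le_add ((norm_add_le _ _).trans (add_le_add h1 ?_)) h2)
    rw [norm_smul, hvN, mul_one, Real.norm_eq_abs]
  have hlow : -(‖R‖) ≤ ⟪c.e, R⟫ := by
    have h1 := (abs_le.1 (abs_real_inner_le_norm c.e R)).1
    linarith [mul_le_mul_of_nonneg_right c.he (norm_nonneg R)]
  have hC : 0 < coneC d := by have := fC_pos d; unfold coneC; positivity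
  have hE0 : 0 ≤ E := Finset.sum_nonneg fun K _ => c.errK_nonneg K
  have hF0 := abs_nonneg (c.Fl (c.w c.N))
  have a1 := mul_le_mul_of_nonneg_left hlow hC.le
  have a2 := norm_add_le u R
  have a3 : (1 + coneC d) * ‖R‖ ≤
      (1 + coneC d) * ((layC d + 2 * jumpC d + 1) * (E + |c.Fl (c.w c.N)|)) := by
    refine mul_le_mul_of_nonneg_left (hRn.trans ?_) (by linarith)
    linarith [mul_nonneg (layC_nonneg d) hF0, mul_nonneg (jumpC_nonneg d) hF0]
  have a4 : 0 ≤ (1 + coneC d) * (layC d + 2 * jumpC d + 1) * B := by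
    have := layC_nonneg d; have := jumpC_nonneg d; positivity
  have a5 := mul_nonneg (preC_nonneg d) hF0
  unfold chainC
  linarith

end Ctx

end Vale.Agent.P137.Centred
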