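import Vale.Agent.P137.Centred.Defs

/-!
P137, centred operator: definitions and interfaces inside the normalised core.

Levels are `j : ℕ`, cubes of level `j` have side `2 ^ (-j)`; the bad masses of the levels above
`N` are dropped and the remainder is `q ^ N` times a bound for the gradient.
-/

open MeasureTheory Metric Set Filter
open scoped ENNReal Topology RealInnerProductSpace

noncomputable section

namespace Vale.Agent.P137.Centred

variable {d : ℕ}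

/-! ### Parameters -/

/-- The base of the geometric gains: its hundredth power is one half. -/
def qq : ℝ := (1 / 2 : ℝ) ^ (1 / 100 : ℝ)

/-- The tolerance of good cubes. -/
def etaC (d : ℕ) : ℝ := 1 / (2 ^ 40 * ((d:ℝ) + 1) ^ 8)

/-- The Lipschitz constant of the edges of the range of radii. -/
def lamC (d : ℕ) : ℝ := 1 / (2 ^ 20 * ((d:ℝ) + 1) ^ 4)

/-- The side of the cubes of level `j`. -/
def dl (j : ℕ) : ℝ := ((2:ℝ) ^ j)⁻¹

/-- The half width of the bands of level `j`. -/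
def bw (d j : ℕ) : ℝ := (4 * (d:ℝ) + 4) * dl j

/-- The centre of a cube. -/
def dcen (j : ℕ) (k : Fin d → ℤ) : X d := WithLp.toLp 2 fun i => ((k i : ℝ) + 1 / 2) / 2 ^ j

/-- The direction from `x` to `y`. -/
def udir (x y : X d) : X d := ‖y - x‖⁻¹ • (y - x)

/-- The cubes of level `s` inside a cube of level `j`. -/
def desc (j s : ℕ) (k : Fin d → ℤ) : Finset (Fin d → ℤ) :=
  Fintype.piFinset fun i => Finset.Ico (k i * 2 ^ (s - j)) ((k i + 1) * 2 ^ (s - j))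

/-! ### Bad items -/

section Items

variable (e : X d) (f : X d → ℝ) (N : ℕ)

/-- The bad mass of a cube, with the bad masses of its descendants at geometric weights. -/
def bwt (j : ℕ) (k : Fin d → ℤ) : ℝ :=
  ∑ s ∈ Finset.Icc j N, ((2:ℝ) ^ (s - j))⁻¹ *
    ∑ k' ∈ desc j s k, bad (etaC d) e (dint f s k')

/-- The weighted bad mass of level `j`. -/
def bmu (j : ℕ) : ℝ := ∑ k ∈ dbox d 8 j, bwt e f N j k

/-- The positive mass of a cube. -/
def gpos (j : ℕ) (k : Fin d → ℤ) : ℝ := max ⟪e, dint f j k⟫ 0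

variable (x : X d) (r : ℝ)

/-- The cubes of level `j` near the sphere of centre `x` and radius `r`. -/
def inBand (j : ℕ) (k : Fin d → ℤ) : Prop := |‖dcen j k - x‖ - r| ≤ bw d j

open Classical in
/-- The cubes of the band. -/
def band (j : ℕ) : Finset (Fin d → ℤ) := (dbox d 8 j).filter (inBand x r j)

open Classical in
/-- The cubes deep inside the ball. -/
def deep (j : ℕ) : Finset (Fin d → ℤ) :=
  (dbox d 8 j).filter fun k => ‖dcen j k - x‖ + bw d j < r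

/-- The bad mass in the band of level `j`. -/
def bM (j : ℕ) : ℝ := ∑ k ∈ band x r j, bwt e f N j k

/-- The cumulative bad mass below level `j`. -/
def bS (j : ℕ) : ℝ := bmu e f N 1 + ∑ s ∈ Finset.Ico 1 j, bM e f N x r s

/-- The pairs of band items of two levels, weighted by the distance of their directions. -/
def pairs (j l : ℕ) : ℝ :=
  ∑ k ∈ band x r j, ∑ k' ∈ band x r l,
    bwt e f N j k * bwt e f N l k' * ‖udir x (dcen j k) - udir x (dcen l k')‖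

/-- The spread of the directions of the band items around a direction. -/
def spread (j : ℕ) (ν : X d) : ℝ :=
  ∑ k ∈ band x r j, bwt e f N j k * ‖udir x (dcen j k) - ν‖

open Classical in
/-- The positive mass of the band cubes away from a direction. -/
def gFar (j : ℕ) (th : ℝ) (ν : X d) : ℝ :=
  ∑ k ∈ (band x r j).filter (fun k => th < ‖udir x (dcen j k) - ν‖), gpos e f j k

/-- The positive mass of the deep cubes. -/
def gDeep (j : ℕ) : ℝ := ∑ k ∈ deep x r j, gpos e f j k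

/-- The normalisation of the ray terms of level `K`. -/
def mu2 (K : ℕ) : ℝ := bmu e f N (K - 1) + bmu e f N K

open Classical in
/-- The ray term of level `K`. -/
def rayTerm (K : ℕ) : ℝ :=
  if gDeep e f x r (K - 1) ≤ (qq ^ (2 * K))⁻¹ * mu2 e f N K then
    ∑ k ∈ band x r K, bwt e f N K k *
      min (gFar e f x r (K - 1) (qq ^ (3 * K) / 4) (udir x (dcen K k)))
        ((qq ^ (2 * K))⁻¹ * mu2 e f N K)
  else 0

/-- The sum of the pair terms attached to level `K`. -/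
def pairTerm (K : ℕ) : ℝ :=
  ∑ j ∈ Finset.Icc (K - 1) (min (3 * K + 1) N), ∑ l ∈ Finset.Icc (K - 1) (min (3 * K + 1) N),
    Real.sqrt (pairs e f N x r j l)

open Classical in
/-- The bad bands meeting an edge of the range of radii. -/
def sweepTerm (edge : ℝ) : ℝ :=
  ∑ j ∈ Finset.Icc 1 N,
    ∑ k ∈ (dbox d 8 j).filter (fun k => |‖dcen j k - x‖ - edge| ≤ 4 * bw d j), bwt e f N j k

end Items

/-! ### Tests -/

/-- The weight coming from the increment of the averages between `r - h` and `r`. -/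
def wIn (d : ℕ) (r h s : ℝ) : ℝ :=
  (((max (r - h) (min s r)) ^ d)⁻¹ - (r ^ d)⁻¹) / (((r - h) ^ d)⁻¹ - (r ^ d)⁻¹)

/-- The inner test of level `j`. -/
def wj (d : ℕ) (r : ℝ) (j : ℕ) (s : ℝ) : ℝ := wIn d r (dl j) s

/-- The outer test of level `j`. -/
def wp (d : ℕ) (r : ℝ) (j : ℕ) (s : ℝ) : ℝ := wIn d (r + dl j) (dl j) s

/-- The radial flux of the gradient against a radial weight. -/
def flux (f : X d → ℝ) (x : X d) (r : ℝ) (ψ : ℝ → ℝ) : ℝ :=
  ∫ y, ψ ‖y - x‖ * ⟪r⁻¹ • (y - x), vgrad f y⟫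

/-! ### Interfaces -/

/-- Testing a field against a nonnegative weight on one cube. -/
def CellPos (d : ℕ) : Prop :=
  ∃ C : ℝ, 0 ≤ C ∧ ∀ (f : X d → ℝ), ContDiff ℝ 1 f → ∀ (e : X d) (N j : ℕ) (k : Fin d → ℤ),
    j ≤ N → ∀ (V0 : ℝ), (∀ y ∈ cube (dcorner j k) (dl j), ‖vgrad f y‖ ≤ V0) →
    ∀ (τ : X d), (∀ X, bad (etaC d) e X = 0 → 0 ≤ ⟪τ, X⟫) →
    ∀ (α : X d → ℝ) (H L : ℝ), (∀ y ∈ cube (dcorner j k) (dl j), 0 ≤ α y ∧ α y ≤ H) → 0 ≤ L →
      (∀ y ∈ cube (dcorner j k) (dl j), ∀ z ∈ cube (dcorner j k) (dl j),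
        |α y - α z| ≤ L * 2 ^ j * ‖y - z‖) →
      -(C * ‖τ‖ * (H + L) * (bwt e f N j k + dl N * 2 ^ j * dl j ^ d * V0)) ≤
        ⟪τ, ∫ y in cube (dcorner j k) (dl j), α y • vgrad f y⟫

/-- Pairs of bad items are rarely both in the bands. -/
def PairEst (d : ℕ) : Prop :=
  ∃ C : ℝ, 0 ≤ C ∧ ∀ (f : X d → ℝ) (e : X d) (N j l : ℕ), 1 ≤ j → j ≤ l + 1 →
    ∀ (ρ : X d → ℝ), Measurable ρ → ∀ (Ω : Set (X d)), MeasurableSet Ω → Ω ⊆ cube 0 1 →
    (∀ x ∈ Ω, 1 ≤ ρ x ∧ ρ x ≤ 2) →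
      ∫⁻ x in Ω, ENNReal.ofReal (pairs e f N x (ρ x) j l) ≤
        ENNReal.ofReal (C * dl j * (bmu e f N j * bmu e f N l))

/-- Bands meeting an edge of the range of radii are rare. -/
def SweepEst (d : ℕ) : Prop :=
  ∃ C : ℝ, 0 ≤ C ∧ ∀ (f : X d → ℝ) (e : X d) (N : ℕ) (edge : X d → ℝ),
    (∀ x y, |edge x - edge y| ≤ lamC d * ‖x - y‖) →
    ∀ (Ω : Set (X d)), MeasurableSet Ω → Ω ⊆ cube 0 1 →
    (∀ x ∈ Ω, 1 / 2 ≤ edge x ∧ edge x ≤ 4) →
      ∫⁻ x in Ω, ENNReal.ofReal (sweepTerm e f N x (edge x)) ≤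
        ENNReal.ofReal (C * ∑ j ∈ Finset.Icc 1 N, dl j * bmu e f N j)

/-- The positive mass away from a bad item is rarely in the band while the deep mass is small. -/
def RayEst (d : ℕ) : Prop :=
  ∃ (C : ℝ) (K0 : ℕ), 0 ≤ C ∧ ∀ (f : X d → ℝ), ContDiff ℝ 1 f → ∀ (e : X d) (N K : ℕ), K0 ≤ K →
    K ≤ N → ∀ (ρ : X d → ℝ), Measurable ρ → ∀ (Ω : Set (X d)), MeasurableSet Ω → Ω ⊆ cube 0 1 →
    (∀ x ∈ Ω, 1 ≤ ρ x ∧ ρ x ≤ 2) →
      ∫⁻ x in Ω, ENNReal.ofReal (rayTerm e f N x (ρ x) K) ≤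
        ENNReal.ofReal (C * qq ^ (92 * K) * (bmu e f N K * mu2 e f N K))

/-- The gradient of an average at a maximising radius is in the cone, up to error terms whose
integrals have gains. -/
def Pointwise (d : ℕ) : Prop :=
  ∃ (C C' : ℝ) (K0 : ℕ), 1 ≤ C ∧ 0 ≤ C' ∧ 2 ≤ K0 ∧ ∀ (f : X d → ℝ), ContDiff ℝ 1 f →
    ∀ (e : X d), ‖e‖ ≤ 1 → ∀ (N : ℕ), K0 ≤ N →
    ∀ (x : X d), x ∈ cube (0 : X d) 1 → ∀ (r lo up : ℝ), 1 ≤ r → r ≤ 2 → lo ≤ r → r ≤ up →
      (∀ t, lo ≤ t → t ≤ up → cavg f (x, t) ≤ cavg f (x, r)) →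
    ∀ (V0 : ℝ), (∀ y ∈ closedBall (0 : X d) (16 * (d:ℝ) + 16), ‖vgrad f y‖ ≤ V0) →
      ‖gradA f x r‖ + |slopeA f x r| - C * (⟪e, gradA f x r⟫ - lamC d * |slopeA f x r|) ≤
        C' * (qq ^ N * V0 + (∑ j ∈ Finset.Icc 1 N, qq ^ j * bmu e f N j) +
          sweepTerm e f N x (min (max lo (1 / 2)) 4) + sweepTerm e f N x (min (max up (1 / 2)) 4) +
          (∑ K ∈ Finset.Icc K0 N, (qq ^ (5 * K))⁻¹ * pairTerm e f N x r K) +
          ∑ K ∈ Finset.Icc K0 N, (qq ^ (4 * K) * mu2 e f N K)⁻¹ * rayTerm e f N x r K)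

end Vale.Agent.P137.Centred
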