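import Vale.Agent.P137.Centred.Core.Levels

/-!
P137, centred operator: regrouping the layers in coarse cubes, spreads of directions, and the
conversion to ray terms.
-/

open MeasureTheory Metric Set Filter
open scoped ENNReal Topology RealInnerProductSpace

noncomputable section

namespace Vale.Agent.P137.Centred

variable {d : ℕ}

lemma udir_sub_le (x p : X d) {q : X d} (hq : 0 < ‖q - x‖) :
    ‖udir x p - udir x q‖ ≤ 2 * ‖p - q‖ / ‖q - x‖ := by
  set a := p - x with ha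
  set b := q - x with hb
  have hpq : p - q = a - b := by rw [ha, hb]; abel
  rw [udir, udir, ← ha, ← hb, hpq, le_div_iff₀ hq]
  by_cases h0 : a = 0
  · rw [h0, smul_zero, zero_sub, zero_sub, norm_neg, norm_neg, norm_smul, norm_inv, norm_norm,
      inv_mul_cancel₀ hq.ne']
    linarith
  have hA : 0 < ‖a‖ := norm_pos_iff.2 h0
  have e : ‖a‖⁻¹ • a - ‖b‖⁻¹ • b = ‖b‖⁻¹ • (a - b) + (‖a‖⁻¹ - ‖b‖⁻¹) • a := by
    module
  rw [e]
  have h1 := abs_norm_sub_norm_le b a
  rw [norm_sub_rev b a] at h1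
  calc ‖‖b‖⁻¹ • (a - b) + (‖a‖⁻¹ - ‖b‖⁻¹) • a‖ * ‖b‖
      ≤ (‖b‖⁻¹ * ‖a - b‖ + |‖a‖⁻¹ - ‖b‖⁻¹| * ‖a‖) * ‖b‖ :=
        mul_le_mul_of_nonneg_right ((norm_add_le _ _).trans (le_of_eq (by
          rw [norm_smul, norm_smul, norm_inv, norm_norm, Real.norm_eq_abs]))) (norm_nonneg _)
    _ = ‖a - b‖ + |‖b‖ - ‖a‖| := by
        rw [inv_sub_inv hA.ne' hq.ne', abs_div, abs_mul, abs_norm, abs_norm]
        field_simp
    _ ≤ _ := by linarith

namespace Ctx

variable (c : Ctx d)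

/-- The cubes of a band away from a direction. -/
def farSet (j : ℕ) (th : ℝ) (ν : X d) : Finset (Fin d → ℤ) :=
  (band c.x c.r j).filter fun k => th < ‖udir c.x (dcen j k) - ν‖

/-- The bad mass of a band away from a direction. -/
def farM (j : ℕ) (th : ℝ) (ν : X d) : ℝ := ∑ k ∈ c.farSet j th ν, bwt c.e c.f c.N j k

lemma farM_nonneg (j : ℕ) (th : ℝ) (ν : X d) : 0 ≤ c.farM j th ν :=
  Finset.sum_nonneg fun _ _ => c.bwt_nonneg _ _

lemma gFar_eq (j : ℕ) (th : ℝ) (ν : X d) :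
    gFar c.e c.f c.x c.r j th ν = ∑ k ∈ c.farSet j th ν, gpos c.e c.f j k := by
  classical
  simp [gFar, farSet]

lemma Ec_sub {i j : ℕ} (l : ℕ) (k : Fin d → ℤ) {ψ φ : ℝ → ℝ} (hψ : Test d i ψ) (hφ : Test d j φ) :
    c.Ec l k (fun s => ψ s - φ s) = c.Ec l k ψ - c.Ec l k φ := by
  have i1 := c.integrableOn_test hψ.1 l k (a := fun _ => 1) continuous_const
  have i2 := c.integrableOn_test hφ.1 l k (a := fun _ => 1) continuous_const
  simp only [mul_one] at i1 i2
  rw [Ec, Ec, Ec, ← inner_sub_right, Ic, Ic, Ic, ← integral_sub i1 i2]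
  congr 1
  exact setIntegral_congr_fun (measurableSet_cube _ _) fun y _ => sub_smul _ _ _

lemma wp_test {j : ℕ} (hj : 1 ≤ j) : Test d j (wp d c.r j) := by
  have h1 := c.hr1; have h2 := c.hr2; have h3 := dl_le_half hj; have h4 := dl_pos j
  refine ⟨continuous_wIn (by linarith), fun t => wIn_mem c.hd (by linarith) h4 t,
    fun s t => ?_, fun t ht => wIn_of_ge h4 (by linarith)⟩
  refine (c.lip_wIn hj (ρ := c.r + dl j) (by linarith) (by linarith) s t).trans ?_
  unfold lA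
  have : (0:ℝ) ≤ d * 6 ^ (d + 1) * 2 ^ j * |s - t| := by positivity
  nlinarith

lemma telescope {l i : ℕ} (hl : 1 ≤ l) (hli : l ≤ i) (a : Fin d → ℤ) :
    (∑ j ∈ Finset.Ico l i, (c.Ec l a (c.chi j) + c.Ec l a (c.chip j))) + c.Ec l a (c.om i) =
      c.Ec l a (c.om l) := by
  induction i, hli using Nat.le_induction with
  | base => simp
  | succ i hle ih =>
    rw [Finset.sum_Ico_succ_top hle, add_assoc]
    rw [← ih]
    have hi : 1 ≤ i := hl.trans hle
    congr 1
    have e1 : c.Ec l a (c.chi i) = c.Ec l a (wj d c.r (i + 1)) - c.Ec l a (wj d c.r i) :=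
      c.Ec_sub l a (c.w_test (by omega : 1 ≤ i + 1)) (c.w_test hi)
    have e2 : c.Ec l a (c.chip i) = c.Ec l a (wp d c.r i) - c.Ec l a (wp d c.r (i + 1)) :=
      c.Ec_sub l a (c.wp_test hi) (c.wp_test (by omega : 1 ≤ i + 1))
    have e3 : c.Ec l a (c.om i) = c.Ec l a (wp d c.r i) - c.Ec l a (wj d c.r i) :=
      c.Ec_sub l a (c.wp_test hi) (c.w_test hi)
    have e4 : c.Ec l a (c.om (i + 1)) =
        c.Ec l a (wp d c.r (i + 1)) - c.Ec l a (wj d c.r (i + 1)) :=
      c.Ec_sub l a (c.wp_test (by omega : 1 ≤ i + 1)) (c.w_test (by omega : 1 ≤ i + 1))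
    rw [e1, e2, e3, e4]; ring

/-- Band children of a cube. -/
def bkids (l j : ℕ) (a : Fin d → ℤ) : Finset (Fin d → ℤ) :=
  (band c.x c.r j).filter fun k => banc l j k = a

lemma sum_bkids_Ep {l j : ℕ} (hlj : l ≤ j) {a : Fin d → ℤ} (ha : a ∈ dbox d 8 l) {ψ : ℝ → ℝ}
    (hψ : Test d j ψ) (hs : ∀ t, 2 * dl j < |t - c.r| → ψ t = 0) :
    ∑ k ∈ c.bkids l j a, c.Ep j k ψ = c.Ec l a ψ + 2 * cC d * ∑ k ∈ c.bkids l j a, c.bR j k := by
  rw [c.sum_Ep]
  congr 1
  rw [Ec, Ic, cell_sum_desc (g := fun y => ψ ‖y - c.x‖ • vgrad c.f y) hlj a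
    (integrableOn_cube (v := fun y => ψ ‖y - c.x‖ • vgrad c.f y)
      ((hψ.1.comp (by fun_prop)).smul (continuous_vgrad c.hf)) l a)]
  congr 1
  refine Finset.sum_subset (fun k hk => ?_) fun k hk hn => ?_
  · simp only [bkids, Finset.mem_filter] at hk
    rw [← hk.2]; exact mem_desc_banc l j k
  · refine setIntegral_eq_zero_of_forall_eq_zero fun y hy => ?_
    have hb : k ∉ band c.x c.r j := fun hb =>
      hn (Finset.mem_filter.2 ⟨hb, funext fun i => mem_desc.1 hk i⟩)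
    rw [c.zero_of_not_band (desc_subset_box hlj ha hk) hb hs hy, zero_smul]

lemma anc_geom {l j : ℕ} (hlj : l ≤ j) {k : Fin d → ℤ} (hk : k ∈ band c.x c.r j) :
    banc l j k ∈ band c.x c.r l ∧
      (bw d l ≤ 1 / 2 →
        ‖udir c.x (dcen j k) - udir c.x (dcen l (banc l j k))‖ ≤ 4 * ((d:ℝ) + 1) * dl l) := by
  obtain ⟨hb, hin⟩ := mem_band.1 hk
  have hcen : dcen j k ∈ cube (dcorner l (banc l j k)) (dl l) :=
    cell_subset hlj (mem_desc_banc l j k) (dcen_mem j k)
  have hdist := norm_sub_dcen_le hcen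
  have hin' : inBand c.x c.r l (banc l j k) := by
    rcases eq_or_lt_of_le hlj with h | h
    · subst h
      have : banc l l k = k := by funext i; simp [banc]
      rw [this]; exact hin
    · unfold inBand at hin ⊢
      have h1 := abs_norm_sub_dcen_le c.x hcen
      have h2 := dl_antitone (show l + 1 ≤ j by omega)
      rw [dl_succ] at h2
      have h3 : bw d j + ((d:ℝ) + 1) * dl l ≤ bw d l := by
        unfold bw
        nlinarith [mul_le_mul_of_nonneg_left h2 (show (0:ℝ) ≤ (d:ℝ) + 1 by positivity), dl_pos l,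
          mul_nonneg (show (0:ℝ) ≤ (d:ℝ) + 1 by positivity) (dl_pos l).le]
      rw [abs_le] at hin h1 ⊢
      constructor <;> linarith
  refine ⟨mem_band.2 ⟨anc_mem_box hlj hb, hin'⟩, fun hw => ?_⟩
  have hlow : 1 / 2 ≤ ‖dcen l (banc l j k) - c.x‖ := by
    have := (abs_le.1 hin').1; linarith [c.hr1]
  refine (udir_sub_le c.x (dcen j k) (by linarith)).trans ?_
  rw [div_le_iff₀ (by linarith)]
  have : 0 ≤ ((d:ℝ) + 1) * dl l := mul_nonneg (by positivity) (dl_pos l).le
  nlinarith [mul_le_mul_of_nonneg_left hlow this]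

lemma sum_filter_bR (j : ℕ) (s : Finset (Fin d → ℤ)) (hs : s ⊆ band c.x c.r j) :
    ∑ k ∈ s, c.bR j k ≤ (∑ k ∈ s, bwt c.e c.f c.N j k) + rC d * c.rem0 := by
  simp only [bR, Finset.sum_add_distrib]
  refine add_le_add le_rfl ?_
  refine le_trans (Finset.sum_le_sum_of_subset_of_nonneg hs fun _ _ _ => ?_) ?_
  · have := dl_pos c.N; have := dl_pos j; have := c.V0_nonneg; positivity
  · have h := c.sum_band_bR j
    simp only [bR, Finset.sum_add_distrib, bM] at h
    have : bandC d * c.rem0 ≤ rC d * c.rem0 :=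
      mul_le_mul_of_nonneg_right (le_add_of_nonneg_right (by positivity)) c.rem0_nonneg
    linarith

/-- The far layers regrouped in coarse cubes. -/
theorem far_le {l i : ℕ} (hl : 1 ≤ l) (hli : l ≤ i) (hiN : i ≤ c.N) {th : ℝ} (ν : X d)
    (hw : bw d l ≤ 1 / 2) (hth : 16 * ((d:ℝ) + 1) * dl l ≤ th) :
    (∑ j ∈ Finset.Ico l i, ∑ k ∈ c.farSet j th ν, c.Ep j k (c.chi j)) +
        ∑ k ∈ c.farSet i th ν, c.Ep i k (c.om i) ≤
      gFar c.e c.f c.x c.r l (th / 2) ν +
        7 * cC d * ∑ j ∈ Finset.Icc l i, (c.farM j (th / 4) ν + rC d * c.rem0) := by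
  classical
  set A := c.farSet l (th / 2) ν with hA
  have hA_sub : A ⊆ dbox d 8 l := fun a ha => c.band_subset l (Finset.mem_filter.1 ha).1
  have hmap : ∀ j, l ≤ j → ∀ k ∈ c.farSet j th ν, banc l j k ∈ A := by
    intro j hj k hk
    simp only [farSet, Finset.mem_filter] at hk
    obtain ⟨g1, g2⟩ := c.anc_geom hj hk.1
    refine Finset.mem_filter.2 ⟨g1, ?_⟩
    have h3 := norm_sub_le_norm_sub_add_norm_sub (udir c.x (dcen j k))
      (udir c.x (dcen l (banc l j k))) ν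
    linarith [g2 hw, hk.2, hth,
      mul_pos (show (0:ℝ) < 16 * ((d:ℝ) + 1) by positivity) (dl_pos l)]
  have hback : ∀ j, l ≤ j → ∀ a ∈ A, ∀ k ∈ c.bkids l j a, k ∈ c.farSet j (th / 4) ν := by
    intro j hj a ha k hk
    simp only [bkids, Finset.mem_filter] at hk
    obtain ⟨g1, g2⟩ := c.anc_geom hj hk.1
    rw [hk.2] at g2
    refine Finset.mem_filter.2 ⟨hk.1, ?_⟩
    have h3 := norm_sub_le_norm_sub_add_norm_sub (udir c.x (dcen l a))
      (udir c.x (dcen j k)) ν
    rw [norm_sub_rev (udir c.x (dcen l a)) (udir c.x (dcen j k))] at h3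
    linarith [g2 hw, (Finset.mem_filter.1 ha).2, hth,
      mul_pos (show (0:ℝ) < 16 * ((d:ℝ) + 1) by positivity) (dl_pos l)]
  have hcover : ∀ j, l ≤ j → j ≤ c.N → ∀ ψ : ℝ → ℝ, Test d j ψ →
      (∀ t, 2 * dl j < |t - c.r| → ψ t = 0) →
      ∑ k ∈ c.farSet j th ν, c.Ep j k ψ ≤
        (∑ a ∈ A, c.Ec l a ψ) + 2 * cC d * (c.farM j (th / 4) ν + rC d * c.rem0) := by
    intro j hj hjN ψ hψ hs
    have hnn : ∀ k ∈ band c.x c.r j, 0 ≤ c.Ep j k ψ := fun k hk =>
      c.Ep_nonneg hjN (c.band_subset j hk) hψ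
    set T := (band c.x c.r j).filter (fun k => banc l j k ∈ A) with hT
    have h1 : ∑ k ∈ c.farSet j th ν, c.Ep j k ψ ≤ ∑ k ∈ T, c.Ep j k ψ :=
      Finset.sum_le_sum_of_subset_of_nonneg (fun k hk =>
        Finset.mem_filter.2 ⟨(Finset.mem_filter.1 hk).1, hmap j hj k hk⟩)
        fun k hk _ => hnn k (Finset.mem_filter.1 hk).1
    have hfib : ∀ F : (Fin d → ℤ) → ℝ, ∑ k ∈ T, F k = ∑ a ∈ A, ∑ k ∈ c.bkids l j a, F k := by
      intro F
      rw [← Finset.sum_fiberwise_of_maps_to (s := T) (t := A) (g := banc l j)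
        (fun k hk => (Finset.mem_filter.1 hk).2) F]
      refine Finset.sum_congr rfl fun a ha => Finset.sum_congr ?_ fun _ _ => rfl
      ext k
      simp only [hT, bkids, Finset.mem_filter]
      exact ⟨fun h => ⟨h.1.1, h.2⟩, fun h => ⟨⟨h.1, h.2 ▸ ha⟩, h.2⟩⟩
    rw [hfib, Finset.sum_congr rfl (fun a ha => c.sum_bkids_Ep hj (hA_sub ha) hψ hs),
      Finset.sum_add_distrib, ← Finset.mul_sum, ← hfib] at h1
    refine h1.trans (add_le_add le_rfl (mul_le_mul_of_nonneg_left ?_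
      (mul_nonneg zero_le_two (cC_pos d).le)))
    refine (c.sum_filter_bR j T (Finset.filter_subset _ _)).trans (add_le_add ?_ le_rfl)
    refine Finset.sum_le_sum_of_subset_of_nonneg (fun k hk => ?_) fun _ _ _ => c.bwt_nonneg _ _
    obtain ⟨hkb, hka⟩ := Finset.mem_filter.1 hk
    exact hback j hj _ hka k (Finset.mem_filter.2 ⟨hkb, rfl⟩)
  have hi : 1 ≤ i := hl.trans hli
  have t1 : ∀ j ∈ Finset.Ico l i, ∑ k ∈ c.farSet j th ν, c.Ep j k (c.chi j) ≤
      (∑ a ∈ A, (c.Ec l a (c.chi j) + c.Ec l a (c.chip j))) +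
        4 * cC d * (c.farM j (th / 4) ν + rC d * c.rem0) := by
    intro j hj
    rw [Finset.mem_Ico] at hj
    have h1 : 1 ≤ j := hl.trans hj.1
    have a1 := hcover j hj.1 (by omega) _ (c.chi_test h1) (fun t => c.chi_supp h1)
    have a2 := hcover j hj.1 (by omega) _ (c.chip_test h1) (fun t => c.chip_supp h1)
    have a3 := Finset.sum_nonneg (s := c.farSet j th ν) (f := fun k => c.Ep j k (c.chip j))
      fun k hk => c.Ep_nonneg (by omega : j ≤ c.N) (c.band_subset j (Finset.mem_filter.1 hk).1)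
        (c.chip_test h1)
    rw [Finset.sum_add_distrib]
    linarith
  have t2 := hcover i hli hiN _ (c.om_test hi) (fun t => c.om_supp hi)
  have t3 : ∑ a ∈ A, c.Ec l a (c.om l) ≤ gFar c.e c.f c.x c.r l (th / 2) ν +
      cC d * (c.farM l (th / 4) ν + rC d * c.rem0) := by
    rw [c.gFar_eq]
    refine (Finset.sum_le_sum fun a ha => c.Ec_le_gpos (hli.trans hiN) (hA_sub ha)
      (c.om_test hl)).trans ?_
    rw [Finset.sum_add_distrib, ← Finset.mul_sum]
    refine add_le_add le_rfl (mul_le_mul_of_nonneg_left ?_ (cC_pos d).le)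
    refine (c.sum_filter_bR l A (Finset.filter_subset _ _)).trans (add_le_add ?_ le_rfl)
    refine Finset.sum_le_sum_of_subset_of_nonneg (fun a ha => ?_) fun _ _ _ => c.bwt_nonneg _ _
    obtain ⟨hab, hau⟩ := Finset.mem_filter.1 ha
    refine Finset.mem_filter.2 ⟨hab, ?_⟩
    linarith [mul_pos (show (0:ℝ) < 16 * ((d:ℝ) + 1) by positivity) (dl_pos l)]
  have h0 : ∀ j, 0 ≤ c.farM j (th / 4) ν + rC d * c.rem0 := fun j =>
    add_nonneg (c.farM_nonneg _ _ _) (mul_nonneg (rC_nonneg d) c.rem0_nonneg)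
  set G := fun j => c.farM j (th / 4) ν + rC d * c.rem0 with hG
  have hsum := add_le_add (Finset.sum_le_sum t1) t2
  refine hsum.trans ?_
  rw [Finset.sum_add_distrib, Finset.sum_comm, ← Finset.mul_sum]
  have htel : (∑ a ∈ A, ∑ j ∈ Finset.Ico l i, (c.Ec l a (c.chi j) + c.Ec l a (c.chip j))) +
      ∑ a ∈ A, c.Ec l a (c.om i) = ∑ a ∈ A, c.Ec l a (c.om l) := by
    rw [← Finset.sum_add_distrib]
    exact Finset.sum_congr rfl fun a _ => c.telescope hl hli a
  have hIcc : ∑ j ∈ Finset.Icc l i, G j = (∑ j ∈ Finset.Ico l i, G j) + G i := by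
    rw [← Finset.Ico_succ_right_eq_Icc]
    exact Finset.sum_Ico_succ_top hli G
  have hGl : G l ≤ ∑ j ∈ Finset.Icc l i, G j :=
    Finset.single_le_sum (fun j _ => h0 j) (Finset.mem_Icc.2 ⟨le_rfl, hli⟩)
  have hc := (cC_pos d).le
  have hS : 0 ≤ ∑ j ∈ Finset.Ico l i, G j := Finset.sum_nonneg fun j _ => h0 j
  simp only [hG] at *
  nlinarith [mul_le_mul_of_nonneg_left hGl hc, mul_nonneg hc hS, mul_nonneg hc (h0 i)]

lemma spread_nonneg (j : ℕ) (ν : X d) : 0 ≤ spread c.e c.f c.N c.x c.r j ν :=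
  Finset.sum_nonneg fun _ _ => mul_nonneg (c.bwt_nonneg _ _) (norm_nonneg _)

lemma farM_le_spread (j : ℕ) {th : ℝ} (ν : X d) :
    th * c.farM j th ν ≤ spread c.e c.f c.N c.x c.r j ν := by
  rw [farM, Finset.mul_sum]
  refine le_trans (Finset.sum_le_sum (g := fun k => bwt c.e c.f c.N j k *
    ‖udir c.x (dcen j k) - ν‖) fun k hk => ?_) ?_
  · rw [mul_comm th]
    exact mul_le_mul_of_nonneg_left (Finset.mem_filter.1 hk).2.le (c.bwt_nonneg _ _)
  · exact Finset.sum_le_sum_of_subset_of_nonneg (Finset.filter_subset _ _)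
      fun _ _ _ => mul_nonneg (c.bwt_nonneg _ _) (norm_nonneg _)

lemma udir_sub_le_two (p q : X d) : ‖udir c.x p - udir c.x q‖ ≤ 2 :=
  (norm_sub_le _ _).trans (by linarith [udir_norm_le c.x p, udir_norm_le c.x q])

lemma pairs_nonneg (j l : ℕ) : 0 ≤ pairs c.e c.f c.N c.x c.r j l :=
  Finset.sum_nonneg fun _ _ => Finset.sum_nonneg fun _ _ =>
    mul_nonneg (mul_nonneg (c.bwt_nonneg _ _) (c.bwt_nonneg _ _)) (norm_nonneg _)

lemma pairs_le (j l : ℕ) : pairs c.e c.f c.N c.x c.r j l ≤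
    2 * bM c.e c.f c.N c.x c.r j * bM c.e c.f c.N c.x c.r l := by
  rw [bM, bM, mul_assoc, Finset.sum_mul_sum, Finset.mul_sum]
  refine Finset.sum_le_sum fun k _ => ?_
  rw [Finset.mul_sum]
  refine Finset.sum_le_sum fun k' _ => ?_
  rw [mul_comm 2]
  exact mul_le_mul_of_nonneg_left (c.udir_sub_le_two _ _)
    (mul_nonneg (c.bwt_nonneg _ _) (c.bwt_nonneg _ _))

/-- A representative direction of a band. -/
theorem exists_dir (K : ℕ) (hM : 0 < bM c.e c.f c.N c.x c.r K) :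
    ∃ p ∈ band c.x c.r K, spread c.e c.f c.N c.x c.r K (udir c.x (dcen K p)) ≤
      Real.sqrt (2 * pairs c.e c.f c.N c.x c.r K K) := by
  obtain ⟨p0, hp0⟩ : (band c.x c.r K).Nonempty := by
    by_contra h
    rw [Finset.not_nonempty_iff_eq_empty] at h
    simp [bM, h] at hM
  obtain ⟨p, hp, hmin⟩ := Finset.exists_min_image (band c.x c.r K)
    (fun p => spread c.e c.f c.N c.x c.r K (udir c.x (dcen K p))) ⟨p0, hp0⟩
  refine ⟨p, hp, Real.le_sqrt_of_sq_le ?_⟩
  set S := spread c.e c.f c.N c.x c.r K (udir c.x (dcen K p))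
  have hS0 : 0 ≤ S := c.spread_nonneg _ _
  have h1 : bM c.e c.f c.N c.x c.r K * S ≤ pairs c.e c.f c.N c.x c.r K K := by
    rw [bM, Finset.sum_mul]
    refine le_trans (Finset.sum_le_sum fun q hq =>
      mul_le_mul_of_nonneg_left (hmin q hq) (c.bwt_nonneg _ _)) ?_
    simp only [spread, pairs, Finset.mul_sum]
    rw [Finset.sum_comm]
    exact le_of_eq (Finset.sum_congr rfl fun a _ => Finset.sum_congr rfl fun b _ => by ring)
  have h2 : S ≤ 2 * bM c.e c.f c.N c.x c.r K := by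
    rw [bM, Finset.mul_sum]
    refine Finset.sum_le_sum fun k _ => ?_
    rw [mul_comm 2]
    exact mul_le_mul_of_nonneg_left (c.udir_sub_le_two _ _) (c.bwt_nonneg _ _)
  nlinarith

/-- The spread of a level of dominated mass. -/
theorem spread_cross {j K : ℕ} {β : ℝ} (hβ : 0 ≤ β) (hM : 0 < bM c.e c.f c.N c.x c.r K)
    (hj : bM c.e c.f c.N c.x c.r j ≤ β * bM c.e c.f c.N c.x c.r K) (ν : X d) :
    spread c.e c.f c.N c.x c.r j ν ≤
      Real.sqrt (2 * β) * Real.sqrt (pairs c.e c.f c.N c.x c.r j K) +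
        β * spread c.e c.f c.N c.x c.r K ν := by
  set MK := bM c.e c.f c.N c.x c.r K
  set Mj := bM c.e c.f c.N c.x c.r j
  set P := pairs c.e c.f c.N c.x c.r j K
  set X' := spread c.e c.f c.N c.x c.r j ν
  set SK := spread c.e c.f c.N c.x c.r K ν
  have hP0 : 0 ≤ P := c.pairs_nonneg _ _
  have hMj : 0 ≤ Mj := c.bM_nonneg _
  have h1 : MK * X' ≤ P + Mj * SK := by
    simp only [MK, Mj, X', SK, P, bM, spread, pairs]
    rw [Finset.sum_mul_sum, Finset.sum_mul_sum, Finset.sum_comm, ← Finset.sum_add_distrib]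
    refine Finset.sum_le_sum fun k _ => ?_
    rw [← Finset.sum_add_distrib]
    refine Finset.sum_le_sum fun k' _ => ?_
    have h3 := norm_sub_le_norm_sub_add_norm_sub (udir c.x (dcen j k)) (udir c.x (dcen K k')) ν
    have h4 := mul_le_mul_of_nonneg_left h3
      (mul_nonneg (c.bwt_nonneg j k) (c.bwt_nonneg K k'))
    linarith
  have h2 : P ≤ 2 * β * MK ^ 2 := by
    have := mul_le_mul_of_nonneg_right hj hM.le
    nlinarith [c.pairs_le j K]
  have h3 : P ≤ MK * (Real.sqrt (2 * β) * Real.sqrt P) := by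
    rw [← Real.sqrt_mul (by positivity)]
    calc P = Real.sqrt (P * P) := (Real.sqrt_mul_self hP0).symm
      _ ≤ Real.sqrt (MK ^ 2 * (2 * β * P)) := Real.sqrt_le_sqrt (by nlinarith)
      _ = _ := by rw [Real.sqrt_mul (sq_nonneg _), Real.sqrt_sq hM.le]
  have h5 : Mj * SK ≤ MK * (β * SK) := by
    have := mul_le_mul_of_nonneg_right hj (c.spread_nonneg K ν)
    linarith
  nlinarith

lemma qq_pos : 0 < qq := by unfold qq; positivity

lemma mu2_nonneg (K : ℕ) : 0 ≤ mu2 c.e c.f c.N K := add_nonneg (c.bmu_nonneg _) (c.bmu_nonneg _)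

lemma bM_le_bmu (K : ℕ) : bM c.e c.f c.N c.x c.r K ≤ bmu c.e c.f c.N K :=
  Finset.sum_le_sum_of_subset_of_nonneg (c.band_subset K) fun _ _ _ => c.bwt_nonneg _ _

lemma gFar_nonneg (j : ℕ) (th : ℝ) (ν : X d) : 0 ≤ gFar c.e c.f c.x c.r j th ν := by
  rw [c.gFar_eq]; exact Finset.sum_nonneg fun _ _ => le_max_right _ _

lemma rayTerm_nonneg (K : ℕ) : 0 ≤ rayTerm c.e c.f c.N c.x c.r K := by
  classical
  unfold rayTerm
  split
  · exact Finset.sum_nonneg fun p _ => mul_nonneg (c.bwt_nonneg _ _)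
      (le_min (c.gFar_nonneg _ _ _) (mul_nonneg (by have := qq_pos; positivity) (c.mu2_nonneg K)))
  · exact le_rfl

/-- Positive far mass below a cap is a ray term, up to trivial and pair terms. -/
theorem ray_conv {K : ℕ} (ν : X d)
    (hP : gDeep c.e c.f c.x c.r (K - 1) ≤ (qq ^ (2 * K))⁻¹ * mu2 c.e c.f c.N K) :
    min (gFar c.e c.f c.x c.r (K - 1) (qq ^ (3 * K) / 2) ν)
        ((qq ^ (2 * K))⁻¹ * bM c.e c.f c.N c.x c.r K) ≤
      qq ^ (2 * K) * mu2 c.e c.f c.N K +
      8 * (qq ^ (5 * K))⁻¹ * spread c.e c.f c.N c.x c.r K ν +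
      2 * (qq ^ (4 * K) * mu2 c.e c.f c.N K)⁻¹ * rayTerm c.e c.f c.N c.x c.r K := by
  classical
  have hq := qq_pos
  set th := qq ^ (3 * K) with hth
  set M := bM c.e c.f c.N c.x c.r K with hM
  set mu := mu2 c.e c.f c.N K with hmu
  set G := gFar c.e c.f c.x c.r (K - 1) (th / 2) ν with hG
  set R := rayTerm c.e c.f c.N c.x c.r K with hR
  set S := spread c.e c.f c.N c.x c.r K ν with hS
  have hmu0 : 0 ≤ mu := c.mu2_nonneg K
  have hR0 : 0 ≤ R := c.rayTerm_nonneg K
  have hS0 : 0 ≤ S := c.spread_nonneg K ν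
  have hM0 : 0 ≤ M := c.bM_nonneg K
  have hth0 : 0 < th := pow_pos hq _
  have t1 : 0 ≤ qq ^ (2 * K) * mu := mul_nonneg (by positivity) hmu0
  have t2 : 0 ≤ 8 * (qq ^ (5 * K))⁻¹ * S := mul_nonneg (by positivity) hS0
  have t3 : 0 ≤ 2 * (qq ^ (4 * K) * mu)⁻¹ * R := mul_nonneg (by positivity) hR0
  rcases le_or_gt M (qq ^ (4 * K) * mu) with hsm | hbig
  · refine (min_le_right _ _).trans (le_add_of_le_of_nonneg (le_add_of_le_of_nonneg ?_ t2) t3)
    refine (mul_le_mul_of_nonneg_left hsm (by positivity)).trans (le_of_eq ?_)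
    rw [show 4 * K = 2 * K + 2 * K by omega, pow_add]
    field_simp
  set near := (band c.x c.r K).filter fun p => ‖udir c.x (dcen K p) - ν‖ ≤ th / 4 with hnear
  set Mn := ∑ p ∈ near, bwt c.e c.f c.N K p with hMn
  have hsplit : (M - Mn) * (th / 4) ≤ S := by
    have e : M - Mn = ∑ p ∈ (band c.x c.r K).filter
        (fun p => ¬‖udir c.x (dcen K p) - ν‖ ≤ th / 4), bwt c.e c.f c.N K p := by
      rw [hM, hMn, hnear, bM, ← Finset.sum_filter_add_sum_filter_not (band c.x c.r K)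
        (fun p => ‖udir c.x (dcen K p) - ν‖ ≤ th / 4)]
      ring
    rw [e, Finset.sum_mul]
    refine le_trans (Finset.sum_le_sum (g := fun p => bwt c.e c.f c.N K p *
      ‖udir c.x (dcen K p) - ν‖) fun p hp => ?_) ?_
    · exact mul_le_mul_of_nonneg_left (le_of_lt (not_le.1 (Finset.mem_filter.1 hp).2))
        (c.bwt_nonneg _ _)
    · exact Finset.sum_le_sum_of_subset_of_nonneg (Finset.filter_subset _ _)
        fun _ _ _ => mul_nonneg (c.bwt_nonneg _ _) (norm_nonneg _)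
  rcases le_or_gt Mn (M / 2) with hn | hn
  · refine (min_le_right _ _).trans (le_add_of_le_of_nonneg (le_add_of_nonneg_of_le t1 ?_) t3)
    have h1 : M * th ≤ 8 * S := by nlinarith
    calc (qq ^ (2 * K))⁻¹ * M = (qq ^ (5 * K))⁻¹ * (M * th) := by
          rw [hth, show 5 * K = 2 * K + 3 * K by omega, pow_add]; field_simp
      _ ≤ (qq ^ (5 * K))⁻¹ * (8 * S) := mul_le_mul_of_nonneg_left h1 (by positivity)
      _ = _ := by ring
  refine le_add_of_nonneg_of_le (add_nonneg t1 t2) ?_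
  set B := (qq ^ (2 * K))⁻¹ * mu with hB
  have hkey : Mn * min G ((qq ^ (2 * K))⁻¹ * M) ≤ R := by
    have hR' : R = ∑ p ∈ band c.x c.r K, bwt c.e c.f c.N K p *
        min (gFar c.e c.f c.x c.r (K - 1) (th / 4) (udir c.x (dcen K p))) B := by
      rw [hR, rayTerm, if_pos hP]
    rw [hR', hMn, Finset.sum_mul]
    refine le_trans (Finset.sum_le_sum fun p hp => ?_)
      (Finset.sum_le_sum_of_subset_of_nonneg (Finset.filter_subset _ _) fun p _ _ =>
        mul_nonneg (c.bwt_nonneg _ _) (le_min (c.gFar_nonneg _ _ _)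
          (mul_nonneg (by positivity) hmu0)))
    refine mul_le_mul_of_nonneg_left (min_le_min ?_ ?_) (c.bwt_nonneg _ _)
    · rw [hG, c.gFar_eq, c.gFar_eq]
      refine Finset.sum_le_sum_of_subset_of_nonneg (fun a ha => ?_) fun _ _ _ => le_max_right _ _
      obtain ⟨ha1, ha2⟩ := Finset.mem_filter.1 ha
      refine Finset.mem_filter.2 ⟨ha1, ?_⟩
      have h3 := norm_sub_le_norm_sub_add_norm_sub (udir c.x (dcen (K - 1) a))
        (udir c.x (dcen K p)) ν
      linarith [(Finset.mem_filter.1 hp).2]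
    · exact mul_le_mul_of_nonneg_left ((c.bM_le_bmu K).trans
        (le_add_of_nonneg_left (c.bmu_nonneg _))) (by positivity)
  have hmn : 0 ≤ min G ((qq ^ (2 * K))⁻¹ * M) :=
    le_min (c.gFar_nonneg _ _ _) (mul_nonneg (by positivity) hM0)
  rcases eq_or_lt_of_le hmu0 with h0 | h0
  · exfalso
    have hb : M ≤ mu := by
      simp only [hM, hmu, mu2]
      linarith [c.bM_le_bmu K, c.bmu_nonneg (K - 1)]
    rw [← h0, mul_zero] at hbig
    linarith
  rw [mul_right_comm, ← div_eq_mul_inv, le_div_iff₀ (mul_pos (pow_pos hq _) h0)]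
  nlinarith [mul_le_mul_of_nonneg_right hbig.le hmn, mul_le_mul_of_nonneg_right hn.le hmn]

/-- The deep positive mass is below the corrected cone component. -/
theorem gDeep_le {l : ℕ} (hl : 1 ≤ l) (hlN : l ≤ c.N) :
    gDeep c.e c.f c.x c.r l ≤ c.D l + (1 + cC d) * bmu c.e c.f c.N l := by
  classical
  have hw := c.w_test hl
  set Dp := deep c.x c.r l with hDp
  set Bd := band c.x c.r l with hBd
  have hsubD : Dp ⊆ dbox d 8 l := Finset.filter_subset _ _
  have hdl := dl_pos l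
  have hd0 : 0 ≤ (d:ℝ) * dl l := mul_nonneg (Nat.cast_nonneg d) hdl.le
  have hdisj : Disjoint Dp Bd := by
    refine Finset.disjoint_left.2 fun k hk hk' => ?_
    have h1 := (Finset.mem_filter.1 hk).2
    have h2 : |‖dcen l k - c.x‖ - c.r| ≤ bw d l := (mem_band.1 hk').2
    linarith [(abs_le.1 h2).1]
  have hzero : ∀ k ∈ dbox d 8 l, k ∉ Dp ∪ Bd → c.Ec l k (c.w l) = 0 := by
    intro k hk hn
    have hI : c.Ic l k (c.w l) = 0 := by
      refine setIntegral_eq_zero_of_forall_eq_zero fun y hy => ?_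
      have h1 : ¬(‖dcen l k - c.x‖ + bw d l < c.r) := fun h =>
        hn (Finset.mem_union_left _ (Finset.mem_filter.2 ⟨hk, h⟩))
      have h2 : ¬(|‖dcen l k - c.x‖ - c.r| ≤ bw d l) := fun h =>
        hn (Finset.mem_union_right _ (mem_band.2 ⟨hk, h⟩))
      have h3 := (abs_le.1 (abs_norm_sub_dcen_le c.x hy)).1
      push Not at h1 h2
      have h4 : bw d l < ‖dcen l k - c.x‖ - c.r := by
        rcases lt_abs.1 h2 with h | h
        · exact h
        · linarith
      have : c.w l ‖y - c.x‖ = 0 := wIn_of_ge hdl (by unfold bw at h4; linarith)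
      rw [this, zero_smul]
    simp [Ec, hI]
  have hEg : c.Eg l = ∑ k ∈ Dp, c.Ec l k (c.w l) + ∑ k ∈ Bd, c.Ec l k (c.w l) := by
    rw [← Finset.sum_union hdisj, Eg, c.Iv_eq_sum hw l, inner_sum]
    exact (Finset.sum_subset (Finset.union_subset hsubD (c.band_subset l))
      fun k hk hn => hzero k hk hn).symm
  have hdeep : gDeep c.e c.f c.x c.r l ≤
      ∑ k ∈ Dp, c.Ec l k (c.w l) + bmu c.e c.f c.N l := by
    have hterm : ∀ k ∈ Dp, gpos c.e c.f l k ≤ c.Ec l k (c.w l) + bwt c.e c.f c.N l k := by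
      intro k hk
      have h1 := (Finset.mem_filter.1 hk).2
      have hI : c.Ic l k (c.w l) = dint c.f l k := by
        rw [Ic, dint, cint]
        refine setIntegral_congr_fun (measurableSet_cube _ _) fun y hy => ?_
        have h3 := (abs_le.1 (abs_norm_sub_dcen_le c.x hy)).2
        have : c.w l ‖y - c.x‖ = 1 := wIn_of_le c.hd
          (by linarith [c.hr1, dl_le_half hl]) hdl (by unfold bw at h1; linarith)
        simp [this]
      rw [Ec, hI]
      have h2 := inner_ge_neg_bad (τ := c.e) (fun _ h => c.good_e h) (dint c.f l k)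
      have h3 : bad (etaC d) c.e (dint c.f l k) ≤ bwt c.e c.f c.N l k := by
        refine le_trans (le_of_eq ?_) (Finset.single_le_sum (fun s _ => mul_nonneg (by positivity)
          (Finset.sum_nonneg fun _ _ => bad_nonneg _ _ _)) (Finset.mem_Icc.2 ⟨le_rfl, hlN⟩))
        have hself : desc l l k = {k} := by ext k'; simp [mem_desc, funext_iff]
        simp [hself]
      have h4 := mul_le_mul_of_nonneg_right c.he (bad_nonneg (etaC d) c.e (dint c.f l k))
      have h5 := bad_nonneg (etaC d) c.e (dint c.f l k)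
      unfold gpos
      exact max_le (by linarith) (by linarith)
    refine (Finset.sum_le_sum hterm).trans ?_
    rw [Finset.sum_add_distrib]
    exact add_le_add le_rfl (Finset.sum_le_sum_of_subset_of_nonneg hsubD
      fun _ _ _ => c.bwt_nonneg _ _)
  have hband : -(cC d * (bM c.e c.f c.N c.x c.r l + rC d * c.rem0)) ≤
      ∑ k ∈ Bd, c.Ec l k (c.w l) := by
    refine le_trans (neg_le_neg (mul_le_mul_of_nonneg_left (c.sum_band_bR' l) (cC_pos d).le)) ?_
    rw [Finset.mul_sum, ← Finset.sum_neg_distrib]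
    exact Finset.sum_le_sum fun k hk => c.Ec_ge hlN (c.band_subset l hk) hw
  have hbm := c.bM_le_bmu l
  have hc := cC_pos d
  have hb : rC d * c.rem0 ≤ c.Bt l := by
    have h1 : rC d * c.rem0 * 1 ≤ rC d * c.rem0 * l :=
      mul_le_mul_of_nonneg_left (by exact_mod_cast hl) (mul_nonneg (rC_nonneg d) c.rem0_nonneg)
    have := c.bS_nonneg l
    unfold Bt; linarith
  have := mul_le_mul_of_nonneg_left hbm hc.le
  have := mul_le_mul_of_nonneg_left hb hc.le
  have := mul_nonneg hc.le ((mul_nonneg (rC_nonneg d) c.rem0_nonneg).trans hb)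
  rw [c.Eg_eq] at hEg
  linarith

end Ctx

end Vale.Agent.P137.Centred
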