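import Vale.Agent.P137.Centred.Core.Bands

/-!
P137, centred operator: averaging over translations and dilations, and the terms of the pointwise
estimate as functions of the centre.
-/

open MeasureTheory Metric Set Filter
open scoped ENNReal Topology RealInnerProductSpace

noncomputable section

namespace Vale.Agent.P137.Centred

variable {d : ℕ}

/-! ### Averaging -/

lemma lintegral_eq_translates (w : X d) {g : X d → ℝ≥0∞} (hg : Measurable g) :
    ∫⁻ x, g x = ∫⁻ z, ∫⁻ t in Icc (0:ℝ) 1, g (z + t • w) := by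
  rw [lintegral_lintegral_swap]
  · simp only [lintegral_add_right_eq_self (fun x => g x)]
    simp
  · exact (hg.comp (by fun_prop)).aemeasurable

lemma lintegral_le_dilates (p : X d) {g : X d → ℝ≥0∞} (hg : Measurable g) :
    ∫⁻ x, g x ≤ ENNReal.ofReal (2 ^ d) * ∫⁻ z, ∫⁻ t in Icc (1:ℝ) 2, g (p + t • z) := by
  rw [lintegral_lintegral_swap]
  · have h : ∀ t ∈ Icc (1:ℝ) 2,
        ∫⁻ x, g x ≤ ENNReal.ofReal (2 ^ d) * ∫⁻ z, g (p + t • z) := by
      intro t ht
      have ht0 : (0:ℝ) < t := by linarith [ht.1]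
      have e : ∫⁻ z, g (p + t • z) = ENNReal.ofReal (|(t ^ d)⁻¹|) * ∫⁻ x, g x := by
        rw [← lintegral_map (f := fun y => g (p + y)) (g := fun z : X d => t • z)
          (hg.comp (by fun_prop)) (by fun_prop), Measure.map_addHaar_smul volume ht0.ne',
          lintegral_smul_measure, lintegral_add_left_eq_self (fun x => g x) p,
          finrank_euclideanSpace_fin, smul_eq_mul]
      rw [e, ← mul_assoc, ← ENNReal.ofReal_mul (by positivity)]
      refine le_mul_of_one_le_left zero_le (ENNReal.one_le_ofReal.2 ?_)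
      rw [abs_of_pos (by positivity), ← div_eq_mul_inv, one_le_div (by positivity)]
      exact pow_le_pow_left₀ ht0.le ht.2 _
    rw [← lintegral_const_mul' _ _ ENNReal.ofReal_ne_top]
    calc ∫⁻ x, g x = ∫⁻ _t in Icc (1:ℝ) 2, ∫⁻ x, g x := by simp; norm_num
      _ ≤ _ := setLIntegral_mono' measurableSet_Icc h
  · exact (hg.comp (by fun_prop)).aemeasurable

lemma volume_le_of_close {A : Set ℝ} {w : ℝ} (h : ∀ s ∈ A, ∀ t ∈ A, s ≤ t → t - s ≤ w) :
    volume A ≤ ENNReal.ofReal (2 * w) := by
  rcases A.eq_empty_or_nonempty with h0 | ⟨a, ha⟩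
  · simp [h0]
  · have hsub : A ⊆ Icc (a - w) (a + w) := fun t ht => by
      have hw : 0 ≤ w := by simpa using h a ha a ha le_rfl
      rcases le_total a t with hat | hat
      · constructor <;> linarith [h a ha t ht hat]
      · constructor <;> linarith [h t ht a ha hat]
    refine (measure_mono hsub).trans (le_of_eq ?_)
    rw [Real.volume_Icc]; ring_nf

lemma volume_le_translates {S : Set (X d)} (hS : MeasurableSet S) {R : ℝ}
    (hSR : ∀ x ∈ S, ‖x‖ ≤ R) {v : X d} (hv : ‖v‖ ≤ 1) {w : ℝ}
    (h : ∀ z : X d, ∀ s t : ℝ, s ≤ t → z + s • v ∈ S → z + t • v ∈ S → t - s ≤ w) :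
    volume S ≤ ENNReal.ofReal (2 * w) * volume (closedBall (0 : X d) (R + 1)) := by
  rw [← lintegral_indicator_one hS, lintegral_eq_translates v (measurable_one.indicator hS)]
  refine le_trans (lintegral_mono fun z => ?_) (le_of_eq (lintegral_indicator_const
    (measurableSet_closedBall (x := (0 : X d)) (ε := R + 1)) (ENNReal.ofReal (2 * w))))
  by_cases hz : z ∈ closedBall (0 : X d) (R + 1)
  · rw [indicator_of_mem hz]
    have hA : MeasurableSet {t : ℝ | z + t • v ∈ S} := (by fun_prop : Measurable fun t : ℝ => z + t • v) hS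
    calc ∫⁻ t in Icc (0:ℝ) 1, S.indicator 1 (z + t • v)
        ≤ ∫⁻ t : ℝ, S.indicator 1 (z + t • v) := setLIntegral_le_lintegral _ _
      _ = volume {t : ℝ | z + t • v ∈ S} := by
          rw [← lintegral_indicator_one hA]; rfl
      _ ≤ _ := volume_le_of_close fun s hs t ht hst => h z s t hst hs ht
  · rw [indicator_of_notMem hz]
    refine le_of_eq ((setLIntegral_congr_fun measurableSet_Icc fun t ht => ?_).trans lintegral_zero)
    refine indicator_of_notMem (fun hm => hz ?_) _
    rw [mem_closedBall_zero_iff]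
    have h1 := hSR _ hm
    have h2 : ‖t • v‖ ≤ 1 := by
      rw [norm_smul, Real.norm_of_nonneg ht.1]
      exact mul_le_one₀ ht.2 (norm_nonneg _) hv
    have h3 := norm_sub_le (z + t • v) (t • v)
    rw [add_sub_cancel_right] at h3
    linarith

/-! ### Nonnegativity -/

lemma bwt_nn (e : X d) (f : X d → ℝ) (N j : ℕ) (k : Fin d → ℤ) : 0 ≤ bwt e f N j k :=
  Finset.sum_nonneg fun _ _ => mul_nonneg (by positivity)
    (Finset.sum_nonneg fun _ _ => bad_nonneg _ _ _)

lemma bmu_nn (e : X d) (f : X d → ℝ) (N j : ℕ) : 0 ≤ bmu e f N j :=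
  Finset.sum_nonneg fun _ _ => bwt_nn _ _ _ _ _

lemma mu2_nn (e : X d) (f : X d → ℝ) (N K : ℕ) : 0 ≤ mu2 e f N K :=
  add_nonneg (bmu_nn _ _ _ _) (bmu_nn _ _ _ _)

lemma gpos_nn (e : X d) (f : X d → ℝ) (j : ℕ) (k : Fin d → ℤ) : 0 ≤ gpos e f j k := le_max_right _ _

lemma qqG_pos : 0 < qq := by unfold qq; positivity

lemma qqG_lt_one : qq < 1 := Real.rpow_lt_one (by norm_num) (by norm_num) (by norm_num)

lemma qqG_pow_hundred : qq ^ 100 = 1 / 2 := by
  unfold qq
  rw [← Real.rpow_natCast, ← Real.rpow_mul (by norm_num)]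
  norm_num

lemma dlG_eq_qq (j : ℕ) : dl j = qq ^ (100 * j) := by
  rw [pow_mul, qqG_pow_hundred, dl, one_div, inv_pow]

lemma bw_pos (d j : ℕ) : 0 < bw d j := by
  have := dl_pos j; unfold bw; positivity

/-! ### The terms as functions of the centre -/

variable {e : X d} {f : X d → ℝ} {N : ℕ} {ρ : X d → ℝ}

lemma measurable_udir (y : X d) : Measurable fun x => udir x y := by
  unfold udir; fun_prop

lemma measurable_udir_dist (p q : X d) : Measurable fun x => ‖udir x p - udir x q‖ :=
  ((measurable_udir p).sub (measurable_udir q)).norm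

lemma measurableSet_inBand (hρ : Measurable ρ) (j : ℕ) (k : Fin d → ℤ) :
    MeasurableSet {x | inBand x (ρ x) j k} :=
  measurableSet_le (((measurable_id.const_sub _).norm.sub hρ).abs) measurable_const

open Classical in
lemma measurable_band_sum (hρ : Measurable ρ) (j : ℕ) {G : (Fin d → ℤ) → X d → ℝ}
    (hG : ∀ k, Measurable (G k)) : Measurable fun x => ∑ k ∈ band x (ρ x) j, G k x := by
  simp only [band, Finset.sum_filter]
  exact Finset.measurable_fun_sum _ fun k _ =>
    Measurable.ite (measurableSet_inBand hρ j k) (hG k) measurable_const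

lemma measurable_pairs (hρ : Measurable ρ) (j l : ℕ) :
    Measurable fun x => pairs e f N x (ρ x) j l := by
  unfold pairs
  exact measurable_band_sum hρ j fun k => measurable_band_sum hρ l fun k' =>
    (measurable_udir_dist _ _).const_mul _

lemma measurable_gDeep (hρ : Measurable ρ) (j : ℕ) :
    Measurable fun x => gDeep e f x (ρ x) j := by
  classical
  simp only [gDeep, deep, Finset.sum_filter]
  exact Finset.measurable_fun_sum _ fun k _ => Measurable.ite
    (measurableSet_lt ((measurable_id.const_sub _).norm.add_const _) hρ) measurable_const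
    measurable_const

lemma measurable_gFar (hρ : Measurable ρ) (j : ℕ) (th : ℝ) (p : X d) :
    Measurable fun x => gFar e f x (ρ x) j th (udir x p) := by
  classical
  simp only [gFar, Finset.sum_filter]
  exact measurable_band_sum hρ j fun k => Measurable.ite
    (measurableSet_lt measurable_const (measurable_udir_dist _ _)) measurable_const
    measurable_const

lemma measurable_rayTerm (hρ : Measurable ρ) (K : ℕ) :
    Measurable fun x => rayTerm e f N x (ρ x) K := by
  unfold rayTerm
  refine Measurable.ite (measurableSet_le (measurable_gDeep hρ _) measurable_const) ?_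
    measurable_const
  exact measurable_band_sum hρ K fun k =>
    ((measurable_gFar hρ _ _ _).min measurable_const).const_mul _

lemma measurable_pairTerm (hρ : Measurable ρ) (K : ℕ) :
    Measurable fun x => pairTerm e f N x (ρ x) K := by
  unfold pairTerm
  exact Finset.measurable_fun_sum _ fun j _ => Finset.measurable_fun_sum _ fun l _ =>
    (measurable_pairs hρ j l).sqrt

lemma measurable_sweepTerm {edge : X d → ℝ} (he : Measurable edge) :
    Measurable fun x => sweepTerm e f N x (edge x) := by
  classical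
  simp only [sweepTerm, Finset.sum_filter]
  exact Finset.measurable_fun_sum _ fun j _ => Finset.measurable_fun_sum _ fun k _ =>
    Measurable.ite (measurableSet_le (((measurable_id.const_sub _).norm.sub he).abs)
      measurable_const) measurable_const measurable_const

lemma pairs_nn (x : X d) (r : ℝ) (j l : ℕ) : 0 ≤ pairs e f N x r j l :=
  Finset.sum_nonneg fun _ _ => Finset.sum_nonneg fun _ _ =>
    mul_nonneg (mul_nonneg (bwt_nn _ _ _ _ _) (bwt_nn _ _ _ _ _)) (norm_nonneg _)

lemma pairs_comm (x : X d) (r : ℝ) (j l : ℕ) :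
    pairs e f N x r j l = pairs e f N x r l j := by
  unfold pairs
  rw [Finset.sum_comm]
  refine Finset.sum_congr rfl fun a _ => Finset.sum_congr rfl fun b _ => ?_
  rw [norm_sub_rev]; ring

lemma pairs_le (x : X d) (r : ℝ) (j l : ℕ) :
    pairs e f N x r j l ≤ 2 * (bmu e f N j * bmu e f N l) := by
  classical
  unfold pairs bmu
  rw [Finset.sum_mul_sum, Finset.mul_sum]
  refine le_trans (Finset.sum_le_sum_of_subset_of_nonneg (Finset.filter_subset _ _)
    fun _ _ _ => Finset.sum_nonneg fun _ _ =>
      mul_nonneg (mul_nonneg (bwt_nn _ _ _ _ _) (bwt_nn _ _ _ _ _)) (norm_nonneg _))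
    (Finset.sum_le_sum fun k _ => ?_)
  rw [Finset.mul_sum]
  refine le_trans (Finset.sum_le_sum_of_subset_of_nonneg (Finset.filter_subset _ _)
    fun _ _ _ => mul_nonneg (mul_nonneg (bwt_nn _ _ _ _ _) (bwt_nn _ _ _ _ _)) (norm_nonneg _))
    (Finset.sum_le_sum fun k' _ => ?_)
  rw [mul_comm (2:ℝ)]
  refine mul_le_mul_of_nonneg_left ?_ (mul_nonneg (bwt_nn _ _ _ _ _) (bwt_nn _ _ _ _ _))
  linarith [norm_sub_le (udir x (dcen j k)) (udir x (dcen l k')), udir_norm_le x (dcen j k),
    udir_norm_le x (dcen l k')]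

end Vale.Agent.P137.Centred
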