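import Vale.Agent.P137.Centred.Core.Block

/-!
P137, centred operator: the changes of direction and the first level.
-/

open MeasureTheory Metric Set Filter
open scoped ENNReal Topology RealInnerProductSpace

noncomputable section

namespace Vale.Agent.P137.Centred

variable {d : ℕ}

namespace Ctx

variable (c : Ctx d)

lemma Fl_le_om {m : ℕ} (hm : 1 ≤ m) (hp : c.Fl (wp d c.r m) ≤ 0) :
    c.Fl (c.w m) ≤ -c.Fl (c.om m) := by
  have h := c.Fl_split (wp d c.r m) (c.w m) (c.wp_test hm) (c.w_test hm)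
  have e : c.Fl (c.om m) = c.Fl (fun s => wp d c.r m s - c.w m s) := rfl
  linarith

/-- A change of direction at a fine level. -/
theorem jump_far {A : ℝ} (hA : 1 + cC d ≤ A) {K i : ℕ}
    (hK : c.Dom A K (i - 1)) (hi : c.Dom A i (i - 1))
    {νK νi : X d} (hνK : c.IsDir K νK) (hνi : c.IsDir i νi)
    (hDK : c.D (i - 1) ≤ (A - (1 + cC d)) * ((qq ^ K)⁻¹ * bM c.e c.f c.N c.x c.r K))
    (hDi : c.D (i - 1) ≤ (A - (1 + cC d)) * ((qq ^ i)⁻¹ * bM c.e c.f c.N c.x c.r i))
    (hw : 0 ≤ c.Fl (c.w (i - 1))) (hp : c.Fl (wp d c.r (i - 1)) ≤ 0) :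
    ‖νK - νi‖ * c.Fl (c.w (i - 1)) ≤
      fC d * (A + 2 * (farC d + 10)) * (c.errK K + c.errK i) := by
  classical
  set m := i - 1 with hm_def
  have hm : 1 ≤ m := by have := hi.large.two; omega
  have hmN : m ≤ c.N := hK.hiN
  have hq := qq_pos'
  have hA0 : 0 ≤ A := by linarith [cC_pos d]
  have hf := fC_pos d
  have hKm : K - 1 ≤ m := hK.hi
  set F := c.Fl (c.w m) with hF
  set E := ∑ k ∈ band c.x c.r m, c.Ep m k (c.om m) with hE
  have hEn : ∀ k ∈ band c.x c.r m, 0 ≤ c.Ep m k (c.om m) := fun k hk =>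
    c.Ep_nonneg hmN (c.band_subset m hk) (c.om_test hm)
  have hE0 : 0 ≤ E := Finset.sum_nonneg hEn
  have hFE : F ≤ fC d * E := by
    refine (c.Fl_le_om hm hp).trans ((neg_le_abs _).trans ?_)
    rw [c.Fl_band (c.om_test hm) (fun t => c.om_supp hm), hE, Finset.mul_sum]
    exact (Finset.abs_sum_le_sum_abs _ _).trans (Finset.sum_le_sum fun k hk =>
      c.abs_Fc_le hmN (c.band_subset m hk) (c.om_test hm))
  have hFD : F ≤ fC d * c.D m :=
    (le_abs_self _).trans (c.norm_Iv_le hm (by omega) (hm.trans hmN)).2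
  have hD0 : 0 ≤ c.D m := c.D_nonneg hm (by omega) (hm.trans hmN)
  set XK := ∑ k ∈ c.farSet m (qq ^ (3 * K)) νK, c.Ep m k (c.om m) with hXK
  set Xi := ∑ k ∈ c.farSet m (qq ^ (3 * i)) νi, c.Ep m k (c.om m) with hXi
  have hXK0 : 0 ≤ XK := Finset.sum_nonneg fun k hk => hEn k (Finset.mem_filter.1 hk).1
  have hXi0 : 0 ≤ Xi := Finset.sum_nonneg fun k hk => hEn k (Finset.mem_filter.1 hk).1
  have hXKE : XK ≤ E := Finset.sum_le_sum_of_subset_of_nonneg (Finset.filter_subset _ _)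
    fun k hk _ => hEn k hk
  have hXiE : Xi ≤ E := Finset.sum_le_sum_of_subset_of_nonneg (Finset.filter_subset _ _)
    fun k hk _ => hEn k hk
  have hdev : ∀ (ν : X d), ‖ν‖ = 1 → ∀ (th : ℝ), 0 ≤ th →
      ∑ k ∈ band c.x c.r m, ‖udir c.x (dcen m k) - ν‖ * c.Ep m k (c.om m) ≤
        th * E + 2 * ∑ k ∈ c.farSet m th ν, c.Ep m k (c.om m) := by
    intro ν hν th hth
    exact c.split_le m th ν _ (fun k => c.Ep m k (c.om m)) hEn
      (fun k hk h => mul_le_mul_of_nonneg_right h (hEn k hk))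
      (fun k hk => mul_le_mul_of_nonneg_right
        ((norm_sub_le _ _).trans (by linarith [udir_norm_le c.x (dcen m k)])) (hEn k hk)) hth
  have hΔ : ‖νK - νi‖ * E ≤ qq ^ (3 * K) * E + 2 * XK + (qq ^ (3 * i) * E + 2 * Xi) := by
    refine le_trans ?_ (add_le_add (hdev νK hνK.1 _ (by positivity)) (hdev νi hνi.1 _ (by positivity)))
    rw [hE, Finset.mul_sum, ← Finset.sum_add_distrib]
    refine Finset.sum_le_sum fun k hk => ?_
    rw [← add_mul]
    refine mul_le_mul_of_nonneg_right ?_ (hEn k hk)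
    rw [norm_sub_rev (udir c.x (dcen m k)) νK]
    exact norm_sub_le_norm_sub_add_norm_sub _ _ _
  rcases eq_or_lt_of_le hE0 with h0 | h0
  · have : F = 0 := le_antisymm (by rw [← h0, mul_zero] at hFE; exact hFE) hw
    rw [this, mul_zero]
    have := c.errK_nonneg K; have := c.errK_nonneg i; have := farC_pos d
    positivity
  set ρ := F / E with hρ
  have hρ0 : 0 ≤ ρ := div_nonneg hw hE0
  have hρf : ρ ≤ fC d := by rw [hρ, div_le_iff₀ h0]; exact hFE
  have hρE : ρ * E = F := by rw [hρ]; field_simp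
  have e : ‖νK - νi‖ * F = ρ * (‖νK - νi‖ * E) := by rw [← hρE]; ring
  have h1 : ‖νK - νi‖ * F ≤
      qq ^ (3 * K) * F + 2 * (ρ * XK) + (qq ^ (3 * i) * F + 2 * (ρ * Xi)) := by
    rw [e]
    refine (mul_le_mul_of_nonneg_left hΔ hρ0).trans (le_of_eq ?_)
    rw [← hρE]; ring
  have hcap : ∀ J, c.D m ≤ (A - (1 + cC d)) * ((qq ^ J)⁻¹ * bM c.e c.f c.N c.x c.r J) →
      c.D m ≤ A * ((qq ^ J)⁻¹ * bM c.e c.f c.N c.x c.r J) := fun J h => h.trans
    (mul_le_mul_of_nonneg_right (by linarith [cC_pos d])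
      (mul_nonneg (by positivity) (c.bM_nonneg J)))
  have hth : ∀ J, c.D m ≤ (A - (1 + cC d)) * ((qq ^ J)⁻¹ * bM c.e c.f c.N c.x c.r J) →
      qq ^ (3 * J) * F ≤ fC d * A * c.errK J := fun J h => by
    calc qq ^ (3 * J) * F ≤ qq ^ (3 * J) * (fC d * (A * ((qq ^ J)⁻¹ * bM c.e c.f c.N c.x c.r J))) :=
          mul_le_mul_of_nonneg_left (hFD.trans (mul_le_mul_of_nonneg_left (hcap J h) hf.le))
            (by positivity)
      _ = fC d * A * (qq ^ (2 * J) * bM c.e c.f c.N c.x c.r J) := by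
          rw [show 3 * J = J + 2 * J by omega, pow_add]; field_simp
      _ ≤ fC d * A * (qq ^ J * mu2 c.e c.f c.N J) :=
          mul_le_mul_of_nonneg_left (mul_le_mul (pow_le_pow_of_le_one hq.le qq_lt_one.le (by omega))
            ((c.bM_le_bmu J).trans (le_add_of_nonneg_left (c.bmu_nonneg _))) (c.bM_nonneg J)
            (by positivity)) (by positivity)
      _ ≤ _ := mul_le_mul_of_nonneg_left (c.errK_ge J).1 (by positivity)
  have hT : ∀ J (_ : c.Dom A J m) (ν : X d), c.IsDir J ν →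
      c.D m ≤ (A - (1 + cC d)) * ((qq ^ J)⁻¹ * bM c.e c.f c.N c.x c.r J) →
      (∑ k ∈ c.farSet m (qq ^ (3 * J)) ν, c.Ep m k (c.om m)) ≤ E →
      ρ * (∑ k ∈ c.farSet m (qq ^ (3 * J)) ν, c.Ep m k (c.om m)) ≤
        fC d * ((farC d + 10) * c.errK J) := by
    intro J hJ ν hν hD hle
    have hX0 : 0 ≤ ∑ k ∈ c.farSet m (qq ^ (3 * J)) ν, c.Ep m k (c.om m) :=
      Finset.sum_nonneg fun k hk => hEn k (Finset.mem_filter.1 hk).1
    rw [← div_le_iff₀' hf]
    refine c.far_bound hA hJ ((c.D_mono (by have := hJ.large.two; omega) hJ.hi (by omega)).trans hD)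
      hν ?_ ?_
    · refine le_trans ?_ (le_add_of_nonneg_left (Finset.sum_nonneg fun j hj =>
        Finset.sum_nonneg fun k hk => ?_))
      · rw [div_le_iff₀ hf, mul_comm _ (fC d)]
        exact mul_le_mul_of_nonneg_right hρf hX0
      · rw [Finset.mem_Ico] at hj
        exact c.Ep_nonneg (by omega) (c.band_subset j (Finset.mem_filter.1 hk).1)
          (c.chi_test (by have := hJ.large.two; omega))
    · rw [div_le_iff₀ hf]
      calc ρ * ∑ k ∈ c.farSet m (qq ^ (3 * J)) ν, c.Ep m k (c.om m) ≤ ρ * E :=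
            mul_le_mul_of_nonneg_left hle hρ0
        _ = F := hρE
        _ ≤ fC d * (A * ((qq ^ J)⁻¹ * bM c.e c.f c.N c.x c.r J)) :=
            hFD.trans (mul_le_mul_of_nonneg_left (hcap J hD) hf.le)
        _ = _ := by ring
  have a1 := hT K hK νK hνK hDK hXKE
  have a2 := hT i hi νi hνi hDi hXiE
  have a3 := hth K hDK
  have a4 := hth i hDi
  linarith

/-- A change of direction between close levels. -/
theorem jump_close {A : ℝ} (hA : 0 ≤ A) {K i : ℕ} (hKi : K < i) (hi3 : i ≤ 3 * K) (hiN : i ≤ c.N)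
    (hMK : 0 < bM c.e c.f c.N c.x c.r K) (hMi : 0 < bM c.e c.f c.N c.x c.r i)
    {νK νi : X d} (hνK : c.IsDir K νK) (hνi : c.IsDir i νi) {F : ℝ}
    (hFK : F ≤ A * ((qq ^ K)⁻¹ * bM c.e c.f c.N c.x c.r K))
    (hFi : F ≤ A * ((qq ^ i)⁻¹ * bM c.e c.f c.N c.x c.r i)) :
    ‖νK - νi‖ * F ≤ 8 * A * c.errK K := by
  have hq := qq_pos'
  set MK := bM c.e c.f c.N c.x c.r K with hMKd
  set Mi := bM c.e c.f c.N c.x c.r i with hMid
  set P := pairs c.e c.f c.N c.x c.r K i with hP
  set SK := spread c.e c.f c.N c.x c.r K νK with hSK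
  set Si := spread c.e c.f c.N c.x c.r i νi with hSi
  set T := pairTerm c.e c.f c.N c.x c.r K with hT
  set Δ := ‖νK - νi‖ with hΔ
  have hΔ0 : 0 ≤ Δ := norm_nonneg _
  have hP0 : 0 ≤ P := c.pairs_nonneg _ _
  have hpair : MK * Mi * Δ ≤ P + Mi * SK + MK * Si := by
    rw [hMKd, hMid, hP, hSK, hSi, bM, bM, spread, spread, pairs]
    rw [Finset.sum_mul_sum, Finset.sum_mul_sum, Finset.sum_mul_sum, Finset.sum_mul,
      Finset.sum_comm (s := band c.x c.r i) (t := band c.x c.r K), ← Finset.sum_add_distrib,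
      ← Finset.sum_add_distrib]
    refine Finset.sum_le_sum fun k _ => ?_
    rw [Finset.sum_mul, ← Finset.sum_add_distrib, ← Finset.sum_add_distrib]
    refine Finset.sum_le_sum fun k' _ => ?_
    have h1 := norm_sub_le_norm_sub_add_norm_sub νK (udir c.x (dcen K k)) νi
    have h2 := norm_sub_le_norm_sub_add_norm_sub (udir c.x (dcen K k)) (udir c.x (dcen i k')) νi
    rw [norm_sub_rev νK (udir c.x (dcen K k))] at h1
    have := mul_le_mul_of_nonneg_left (h1.trans (add_le_add le_rfl h2))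
      (mul_nonneg (c.bwt_nonneg K k) (c.bwt_nonneg i k'))
    rw [hΔ]; linarith
  obtain ⟨p1, p2, p3⟩ := c.sqrt_pairs_le (K := K) (j := i) (by omega) (by omega) (by omega) hiN
  have pKK := (c.sqrt_pairs_le (K := K) (j := K) (by omega) (by omega) (by omega) (by omega)).1
  have h2 : Real.sqrt 2 ≤ 2 := Real.sqrt_le_iff.2 ⟨by norm_num, by norm_num⟩
  have hSK2 : SK ≤ 2 * T := by
    refine hνK.2.trans ?_
    rw [Real.sqrt_mul zero_le_two]
    exact mul_le_mul h2 pKK (Real.sqrt_nonneg _) zero_le_two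
  have hSi2 : Si ≤ 2 * T := by
    refine hνi.2.trans ?_
    rw [Real.sqrt_mul zero_le_two]
    exact mul_le_mul h2 p3 (Real.sqrt_nonneg _) zero_le_two
  have hPT : Real.sqrt (2 * P) ≤ 2 * T := by
    rw [Real.sqrt_mul zero_le_two]
    exact mul_le_mul h2 p2 (Real.sqrt_nonneg _) zero_le_two
  have hSK0 := c.spread_nonneg K νK
  have hSi0 := c.spread_nonneg i νi
  have hm : min MK Mi * Δ ≤ 6 * T := by
    have hP2 : P ≤ 2 * MK * Mi := c.pairs_le K i
    have hsP := Real.sq_sqrt (show 0 ≤ 2 * P by positivity)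
    have hsP0 := Real.sqrt_nonneg (2 * P)
    rcases le_total MK Mi with h | h
    · rw [min_eq_left h]
      have h4 : P ≤ Mi * Real.sqrt (2 * P) := by
        have : P * P ≤ (Mi * Real.sqrt (2 * P)) ^ 2 := by
          rw [mul_pow, hsP]; nlinarith [mul_le_mul_of_nonneg_right h hMi.le]
        exact le_of_pow_le_pow_left₀ two_ne_zero (mul_nonneg hMi.le hsP0) (by rw [sq]; exact this)
      have h5 : MK * Si ≤ Mi * Si := mul_le_mul_of_nonneg_right h hSi0
      have : Mi * (MK * Δ) ≤ Mi * (Real.sqrt (2 * P) + SK + Si) := by linarith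
      linarith [le_of_mul_le_mul_left this hMi]
    · rw [min_eq_right h]
      have h4 : P ≤ MK * Real.sqrt (2 * P) := by
        have : P * P ≤ (MK * Real.sqrt (2 * P)) ^ 2 := by
          rw [mul_pow, hsP]; nlinarith [mul_le_mul_of_nonneg_left h hMK.le]
        exact le_of_pow_le_pow_left₀ two_ne_zero (mul_nonneg hMK.le hsP0) (by rw [sq]; exact this)
      have h5 : Mi * SK ≤ MK * SK := mul_le_mul_of_nonneg_right h hSK0
      have : MK * (Mi * Δ) ≤ MK * (Real.sqrt (2 * P) + SK + Si) := by linarith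
      linarith [le_of_mul_le_mul_left this hMK]
  have hqi : (qq ^ K)⁻¹ ≤ (qq ^ i)⁻¹ := qq_inv_pow_mono hKi.le
  have hq5 : (qq ^ i)⁻¹ ≤ (qq ^ (5 * K))⁻¹ := qq_inv_pow_mono (by omega)
  have hmin : F ≤ A * (qq ^ i)⁻¹ * min MK Mi := by
    rcases le_total MK Mi with h | h
    · rw [min_eq_left h]
      refine hFK.trans ?_
      rw [← mul_assoc]
      exact mul_le_mul_of_nonneg_right (mul_le_mul_of_nonneg_left hqi hA) hMK.le
    · rw [min_eq_right h]; linarith
  have hT0 : 0 ≤ T := c.pairTerm_nonneg K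
  calc Δ * F ≤ Δ * (A * (qq ^ i)⁻¹ * min MK Mi) := mul_le_mul_of_nonneg_left hmin hΔ0
    _ = A * (qq ^ i)⁻¹ * (min MK Mi * Δ) := by ring
    _ ≤ A * (qq ^ (5 * K))⁻¹ * (6 * T) :=
        mul_le_mul (mul_le_mul_of_nonneg_left hq5 hA) hm
          (mul_nonneg (le_min hMK.le hMi.le) hΔ0) (by positivity)
    _ = 6 * A * ((qq ^ (5 * K))⁻¹ * T) := by ring
    _ ≤ 6 * A * c.errK K := mul_le_mul_of_nonneg_left (c.errK_ge K).2.1 (by positivity)
    _ ≤ _ := mul_le_mul_of_nonneg_right (by linarith) (c.errK_nonneg K)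

/-- The cone constant of the core. -/
def coneC (d : ℕ) : ℝ := 8 * (2 + fC d)

/-- The restart threshold. -/
def epsC (d : ℕ) : ℝ := 1 / (256 * cC d * (1 + fC d))

lemma epsC_pos (d : ℕ) : 0 < epsC d := by
  have := cC_pos d; have := fC_pos d; unfold epsC; positivity

/-- When the flux at the first level is large, the cone component there is an error term. -/
theorem prefix_flux {A : ℝ} (hA : 1 + cC d ≤ A) {K : ℕ} (h : c.Dom A K (K - 1))
    {ν : X d} (hν : c.IsDir K ν)
    (hD : c.D (K - 1) ≤ (A - (1 + cC d)) * ((qq ^ K)⁻¹ * bM c.e c.f c.N c.x c.r K))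
    (hS : bS c.e c.f c.N c.x c.r K ≤ 2 * epsC d * c.D (K - 1))
    (hw : 0 ≤ c.Fl (c.w (K - 1))) (hp : c.Fl (wp d c.r (K - 1)) ≤ 0)
    (hcase : c.D (K - 1) / 2 < c.Fl (c.w (K - 1)) * ⟪c.e, ν⟫) :
    c.D (K - 1) ≤ (8 * fC d * (farC d + 10) + 16 * cC d * rC d) * c.errK K := by
  classical
  set m := K - 1 with hm_def
  have hm : 1 ≤ m := by have := h.large.two; omega
  have hmN : m ≤ c.N := h.hiN
  have hK1 : m + 1 = K := by have := h.large.two; omega
  have hc := cC_pos d
  have hf := fC_pos d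
  set F := c.Fl (c.w m) with hF
  set D := c.D m with hDdef
  set R := (c.N + 1 : ℝ) * c.rem0 with hR
  have hR0 : 0 ≤ R := mul_nonneg (by positivity) c.rem0_nonneg
  have hD0 : 0 ≤ D := c.D_nonneg hm (by omega) (hm.trans hmN)
  have hFD : F ≤ fC d * D :=
    (le_abs_self _).trans (c.norm_Iv_le hm (by omega) (hm.trans hmN)).2
  have hSs : bS c.e c.f c.N c.x c.r m + bM c.e c.f c.N c.x c.r m ≤ 2 * epsC d * D := by
    rw [← c.bS_succ hm, hK1]; exact hS
  have hνe1 : ⟪c.e, ν⟫ ≤ 1 := ((abs_le.1 (abs_real_inner_le_norm _ _)).2).trans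
    (mul_le_one₀ c.he (norm_nonneg _) hν.1.le)
  have hFlarge : D / 2 < F := lt_of_lt_of_le hcase (mul_le_of_le_one_right hw hνe1)
  have hσ : sigC d ≤ ⟪ν, c.e⟫ := by
    rw [real_inner_comm]
    by_contra hlt
    push Not at hlt
    have h1 : F * ⟪c.e, ν⟫ ≤ F * sigC d := mul_le_mul_of_nonneg_left hlt.le hw
    have h2 : F * sigC d ≤ fC d * D * sigC d := mul_le_mul_of_nonneg_right hFD (sigC_pos d).le
    have h3 : fC d * D * sigC d = D / 16 := by unfold sigC; field_simp
    linarith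
  have hq := qq_pos'
  set th := qq ^ (3 * K) with hth
  set Xf := ∑ k ∈ c.farSet m th ν, c.Ep m k (c.om m) with hXf
  have hEn : ∀ k ∈ band c.x c.r m, 0 ≤ c.Ep m k (c.om m) := fun k hk =>
    c.Ep_nonneg hmN (c.band_subset m hk) (c.om_test hm)
  have hXf0 : 0 ≤ Xf := Finset.sum_nonneg fun k hk => hEn k (Finset.mem_filter.1 hk).1
  have hFX : F ≤ 2 * cC d * (bM c.e c.f c.N c.x c.r m + rC d * c.rem0) + fC d * Xf := by
    refine (c.Fl_le_om hm hp).trans ?_
    rw [c.Fl_band (c.om_test hm) (fun t => c.om_supp hm), ← Finset.sum_neg_distrib,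
      ← Finset.sum_filter_add_sum_filter_not (band c.x c.r m)
        (fun k => th < ‖udir c.x (dcen m k) - ν‖), add_comm]
    refine add_le_add ?_ ?_
    · refine le_trans (Finset.sum_le_sum (g := fun k => 2 * cC d * c.bR m k) fun k hk => ?_) ?_
      · obtain ⟨hkb, hkn⟩ := Finset.mem_filter.1 hk
        refine c.neg_Fc_le hmN hkb (c.om_test hm) hν.1 hσ ?_
        refine (mul_le_mul_of_nonneg_left (c.hdev_le le_rfl h.large k ν (not_lt.1 hkn))
          (by positivity)).trans ?_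
        refine le_trans (le_of_eq ?_) h.large.cone
        ring
      · rw [← Finset.mul_sum]
        refine mul_le_mul_of_nonneg_left ((Finset.sum_le_sum_of_subset_of_nonneg
          (Finset.filter_subset _ _) fun k _ _ => c.bR_nonneg m k).trans (c.sum_band_bR' m))
          (by positivity)
    · rw [hXf, Finset.mul_sum]
      exact Finset.sum_le_sum fun k hk => (neg_le_abs _).trans
        (c.abs_Fc_le hmN (c.band_subset m (Finset.mem_filter.1 hk).1) (c.om_test hm))
  have hsm : 2 * cC d * bM c.e c.f c.N c.x c.r m ≤ D / 32 := by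
    have h1 : bM c.e c.f c.N c.x c.r m ≤ 2 * epsC d * D := by linarith [c.bS_nonneg m]
    have h3 : 2 * cC d * (2 * epsC d) ≤ 1 / 32 := by
      unfold epsC
      rw [show 2 * cC d * (2 * (1 / (256 * cC d * (1 + fC d)))) = 1 / (64 * (1 + fC d)) by
        field_simp; norm_num]
      exact one_div_le_one_div_of_le (by norm_num) (by linarith)
    nlinarith [mul_le_mul_of_nonneg_left h1 (by positivity : (0:ℝ) ≤ 2 * cC d),
      mul_le_mul_of_nonneg_right h3 hD0]
  have hr0 : c.rem0 ≤ R := by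
    have : c.rem0 * 1 ≤ c.rem0 * (c.N + 1 : ℝ) :=
      mul_le_mul_of_nonneg_left (by linarith [Nat.cast_nonneg (α := ℝ) c.N]) c.rem0_nonneg
    rw [hR]; linarith
  have hRe : R ≤ c.errK K := (c.errK_ge K).2.2.2
  have hDsum : D ≤ 4 * fC d * Xf + 8 * cC d * rC d * c.errK K := by
    have h1 := mul_le_mul_of_nonneg_left (hr0.trans hRe)
      (mul_nonneg (mul_nonneg zero_le_two hc.le) (rC_nonneg d))
    have h2 : 0 ≤ fC d * Xf := mul_nonneg hf.le hXf0
    linarith
  have hT : min Xf D ≤ (farC d + 10) * c.errK K := by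
    refine c.far_bound hA h hD hν ?_ ?_
    · rw [Finset.Ico_self, Finset.sum_empty, zero_add]; exact min_le_left _ _
    · refine (min_le_right _ _).trans (hD.trans (mul_le_mul_of_nonneg_right (by linarith) ?_))
      exact mul_nonneg (by positivity) (c.bM_nonneg K)
  have he := c.errK_nonneg K
  have hrC := rC_nonneg d
  rcases le_total Xf D with hh | hh
  · rw [min_eq_left hh] at hT
    nlinarith [mul_nonneg hf.le (mul_nonneg (show 0 ≤ farC d + 10 by linarith [farC_pos d]) he)]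
  · rw [min_eq_right hh] at hT
    have hf1 : 1 ≤ 8 * fC d := by unfold fC; nlinarith [Nat.cast_nonneg (α := ℝ) d]
    nlinarith [mul_le_mul_of_nonneg_right hf1
      (mul_nonneg (show 0 ≤ farC d + 10 by linarith [farC_pos d]) he),
      mul_nonneg (mul_nonneg (by norm_num : (0:ℝ) ≤ 16) hc.le) (mul_nonneg hrC he)]

/-- The prefix below the first significant level. -/
theorem prefix_le {A : ℝ} (hA : 1 + cC d ≤ A) {K : ℕ} (h : c.Dom A K (K - 1))
    {ν : X d} (hν : c.IsDir K ν)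
    (hD : c.D (K - 1) ≤ (A - (1 + cC d)) * ((qq ^ K)⁻¹ * bM c.e c.f c.N c.x c.r K))
    (hS : bS c.e c.f c.N c.x c.r K ≤ 2 * epsC d * c.D (K - 1))
    (hw : 0 ≤ c.Fl (c.w (K - 1))) (hp : c.Fl (wp d c.r (K - 1)) ≤ 0) :
    ‖c.Iv (c.w (K - 1)) - c.Fl (c.w (K - 1)) • ν‖ -
        coneC d * ⟪c.e, c.Iv (c.w (K - 1)) - c.Fl (c.w (K - 1)) • ν⟫ ≤
      (1 + coneC d) * (2 + fC d) * (8 * fC d * (farC d + 10) + 16 * cC d * rC d) * c.errK K +
        coneC d * (4 * cC d * rC d) * ((c.N + 1 : ℝ) * c.rem0) := by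
  classical
  set m := K - 1 with hm_def
  have hm : 1 ≤ m := by have := h.large.two; omega
  have hmN : m ≤ c.N := h.hiN
  have hK1 : m + 1 = K := by have := h.large.two; omega
  have hc := cC_pos d
  have hf := fC_pos d
  have hC : 0 < coneC d := by unfold coneC; positivity
  set F := c.Fl (c.w m) with hF
  set D := c.D m with hDdef
  set R := (c.N + 1 : ℝ) * c.rem0 with hR
  have hR0 : 0 ≤ R := mul_nonneg (by positivity) c.rem0_nonneg
  have hD0 : 0 ≤ D := c.D_nonneg hm (by omega) (hm.trans hmN)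
  obtain ⟨hI, hFa⟩ := c.norm_Iv_le hm (by omega) (hm.trans hmN)
  have hFD : F ≤ fC d * D := (le_abs_self _).trans hFa
  set u := c.Iv (c.w m) - F • ν with hu
  have hnu : ‖u‖ ≤ (2 + fC d) * D := by
    refine (norm_sub_le _ _).trans ?_
    rw [norm_smul, hν.1, mul_one, Real.norm_of_nonneg hw]
    linarith
  have hSs : bS c.e c.f c.N c.x c.r m + bM c.e c.f c.N c.x c.r m ≤ 2 * epsC d * D := by
    rw [← c.bS_succ hm, hK1]; exact hS
  have hBt : 4 * cC d * c.Bt m ≤ D / 32 + 4 * cC d * rC d * R := by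
    have h1 : c.Bt m ≤ 2 * epsC d * D + rC d * R := by
      have h2 : rC d * m * c.rem0 ≤ rC d * R := by
        rw [mul_assoc]
        refine mul_le_mul_of_nonneg_left ?_ (rC_nonneg d)
        refine mul_le_mul_of_nonneg_right ?_ c.rem0_nonneg
        have : (m:ℝ) ≤ c.N := by exact_mod_cast hmN
        linarith
      have := c.bM_nonneg m
      unfold Bt; linarith
    have h3 : 4 * cC d * (2 * epsC d) ≤ 1 / 32 := by
      unfold epsC
      rw [show 4 * cC d * (2 * (1 / (256 * cC d * (1 + fC d)))) = 1 / (32 * (1 + fC d)) by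
        field_simp; norm_num]
      exact one_div_le_one_div_of_le (by norm_num) (by linarith)
    linarith [mul_le_mul_of_nonneg_left h1 (by positivity : (0:ℝ) ≤ 4 * cC d),
      mul_le_mul_of_nonneg_right h3 hD0]
  have hEg : D - D / 32 - 4 * cC d * rC d * R ≤ c.Eg m := by rw [c.Eg_eq]; linarith
  have heu : ⟪c.e, u⟫ = c.Eg m - F * ⟪c.e, ν⟫ := by
    rw [hu, inner_sub_right, real_inner_smul_right]; rfl
  have hRR : 0 ≤ 4 * cC d * rC d * R := by have := rC_nonneg d; positivity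
  have hE0 : 0 ≤ (1 + coneC d) * (2 + fC d) * (8 * fC d * (farC d + 10) + 16 * cC d * rC d) *
      c.errK K := by
    have := farC_pos d; have := rC_nonneg d; have := c.errK_nonneg K; positivity
  by_cases hcase : F * ⟪c.e, ν⟫ ≤ D / 2
  · have h1 : D / 3 - 4 * cC d * rC d * R ≤ ⟪c.e, u⟫ := by rw [heu]; linarith
    have h2 := mul_le_mul_of_nonneg_left h1 hC.le
    have h3 : (2 + fC d) * D ≤ coneC d * (D / 3) := by
      unfold coneC
      have : 0 ≤ (2 + fC d) * D := mul_nonneg (by linarith) hD0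
      linarith
    linarith
  push Not at hcase
  have hDb := c.prefix_flux hA h hν hD hS hw hp hcase
  have h1 : -(‖u‖) ≤ ⟪c.e, u⟫ := by
    have := (abs_le.1 (abs_real_inner_le_norm c.e u)).1
    linarith [mul_le_mul_of_nonneg_right c.he (norm_nonneg u)]
  have h2 := mul_le_mul_of_nonneg_left h1 hC.le
  have h3 : (1 + coneC d) * ‖u‖ ≤
      (1 + coneC d) * ((2 + fC d) * ((8 * fC d * (farC d + 10) + 16 * cC d * rC d) * c.errK K)) :=
    mul_le_mul_of_nonneg_left (hnu.trans (mul_le_mul_of_nonneg_left hDb (by linarith))) (by linarith)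
  linarith [mul_nonneg hC.le hRR]

end Ctx

end Vale.Agent.P137.Centred
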