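import Vale.Agent.P137.Centred.Core.Local

/-!
P137, centred operator: the nested tests and their corrected cone components.
-/

open MeasureTheory Metric Set Filter
open scoped ENNReal Topology RealInnerProductSpace

noncomputable section

namespace Vale.Agent.P137.Centred

variable {d : ℕ}

namespace Ctx

variable (c : Ctx d)

lemma dl_le_half {j : ℕ} (hj : 1 ≤ j) : dl j ≤ 1 / 2 := by
  refine (dl_antitone hj).trans (le_of_eq ?_); norm_num [dl]

/-- The inner test. -/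
def w (j : ℕ) : ℝ → ℝ := wj d c.r j

/-- The inner layer. -/
def chi (j : ℕ) (s : ℝ) : ℝ := wj d c.r (j + 1) s - wj d c.r j s

/-- The outer layer. -/
def chip (j : ℕ) (s : ℝ) : ℝ := wp d c.r j s - wp d c.r (j + 1) s

/-- The two-sided layer. -/
def om (j : ℕ) (s : ℝ) : ℝ := wp d c.r j s - wj d c.r j s

include c in
lemma lip_wIn {j : ℕ} (hj : 1 ≤ j) {ρ : ℝ} (h1 : 1 ≤ ρ) (h2 : ρ ≤ 3) (s t : ℝ) :
    |wIn d ρ (dl j) s - wIn d ρ (dl j) t| ≤ d * 6 ^ (d + 1) * 2 ^ j * |s - t| := by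
  refine (abs_wIn_sub c.hd (by linarith [dl_le_half hj]) (dl_pos j) h2 s t).trans (le_of_eq ?_)
  unfold dl; rw [div_inv_eq_mul]

lemma w_test {j : ℕ} (hj : 1 ≤ j) : Test d j (c.w j) := by
  have h1 := c.hr1; have h2 := c.hr2; have h3 := dl_le_half hj; have h4 := dl_pos j
  refine ⟨continuous_wIn (by linarith), fun t => wIn_mem c.hd (by linarith) h4 t,
    fun s t => ?_, fun t ht => wIn_of_ge h4 (by linarith)⟩
  refine (c.lip_wIn hj h1 (by linarith) s t).trans ?_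
  unfold lA
  have : (0:ℝ) ≤ d * 6 ^ (d + 1) * 2 ^ j * |s - t| := by positivity
  nlinarith

lemma chi_test {j : ℕ} (hj : 1 ≤ j) : Test d j (c.chi j) := by
  have h1 := c.hr1; have h2 := c.hr2; have h4 := dl_pos j; have h4' := dl_pos (j + 1)
  have h3 := dl_le_half hj; have h5 : dl (j + 1) ≤ dl j := dl_antitone (by omega)
  refine ⟨(continuous_wIn (by linarith)).sub (continuous_wIn (by linarith)),
    fun t => ⟨sub_nonneg.2 (wIn_le_wIn c.hd (by linarith) h4' h5 t), ?_⟩, fun s t => ?_,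
    fun t ht => ?_⟩
  · have a := (wIn_mem c.hd (r := c.r) (h := dl (j + 1)) (by linarith) h4' t).2
    have b := (wIn_mem c.hd (r := c.r) (h := dl j) (by linarith) h4 t).1
    unfold chi wj; linarith
  · have a := c.lip_wIn (j := j + 1) (by omega) h1 (by linarith) s t
    have b := c.lip_wIn hj h1 (by linarith) s t
    rw [abs_le] at a b
    unfold chi wj lA
    rw [abs_le]
    have e : (2:ℝ) ^ (j + 1) = 2 * 2 ^ j := by rw [pow_succ]; ring
    rw [e] at a
    have : (0:ℝ) ≤ d * 6 ^ (d + 1) * 2 ^ j * |s - t| := by positivity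
    constructor <;> nlinarith
  · unfold chi wj
    rw [wIn_of_ge h4' (by linarith), wIn_of_ge h4 (by linarith), sub_zero]

lemma chip_test {j : ℕ} (hj : 1 ≤ j) : Test d j (c.chip j) := by
  have h1 := c.hr1; have h2 := c.hr2; have h4 := dl_pos j; have h4' := dl_pos (j + 1)
  have h3 := dl_le_half hj; have h5 : dl (j + 1) ≤ dl j := dl_antitone (by omega)
  refine ⟨(continuous_wIn (by linarith)).sub (continuous_wIn (by linarith)),
    fun t => ⟨sub_nonneg.2 (wIn_outer_le c.hd (by linarith) h4' h5 t), ?_⟩, fun s t => ?_,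
    fun t ht => ?_⟩
  · have a := (wIn_mem c.hd (r := c.r + dl j) (h := dl j) (by linarith) h4 t).2
    have b := (wIn_mem c.hd (r := c.r + dl (j + 1)) (h := dl (j + 1)) (by linarith) h4' t).1
    unfold chip wp; linarith
  · have a := c.lip_wIn (j := j + 1) (by omega) (ρ := c.r + dl (j + 1)) (by linarith) (by linarith) s t
    have b := c.lip_wIn hj (ρ := c.r + dl j) (by linarith) (by linarith) s t
    rw [abs_le] at a b
    unfold chip wp lA
    rw [abs_le]
    have e : (2:ℝ) ^ (j + 1) = 2 * 2 ^ j := by rw [pow_succ]; ring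
    rw [e] at a
    have : (0:ℝ) ≤ d * 6 ^ (d + 1) * 2 ^ j * |s - t| := by positivity
    constructor <;> nlinarith
  · unfold chip wp
    rw [wIn_of_ge h4' (by linarith), wIn_of_ge h4 (by linarith), sub_zero]

lemma om_test {j : ℕ} (hj : 1 ≤ j) : Test d j (c.om j) := by
  have h1 := c.hr1; have h2 := c.hr2; have h4 := dl_pos j; have h3 := dl_le_half hj
  refine ⟨(continuous_wIn (by linarith)).sub (continuous_wIn (by linarith)),
    fun t => ⟨sub_nonneg.2 (wIn_le_outer c.hd (by linarith) h4 h4 t), ?_⟩, fun s t => ?_,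
    fun t ht => ?_⟩
  · have a := (wIn_mem c.hd (r := c.r + dl j) (h := dl j) (by linarith) h4 t).2
    have b := (wIn_mem c.hd (r := c.r) (h := dl j) (by linarith) h4 t).1
    unfold om wp wj; linarith
  · have a := c.lip_wIn hj (ρ := c.r + dl j) (by linarith) (by linarith) s t
    have b := c.lip_wIn hj h1 (by linarith) s t
    rw [abs_le] at a b
    unfold om wp wj lA
    rw [abs_le]
    have : (0:ℝ) ≤ d * 6 ^ (d + 1) * 2 ^ j * |s - t| := by positivity
    constructor <;> nlinarith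
  · unfold om wp wj
    rw [wIn_of_ge h4 (by linarith), wIn_of_ge h4 (by linarith), sub_zero]

lemma chi_supp {j : ℕ} (hj : 1 ≤ j) {t : ℝ} (ht : 2 * dl j < |t - c.r|) : c.chi j t = 0 := by
  have h1 := c.hr1; have h4 := dl_pos j; have h4' := dl_pos (j + 1)
  have h3 := dl_le_half hj; have h5 : dl (j + 1) ≤ dl j := dl_antitone (by omega)
  unfold chi wj
  rcases lt_abs.1 ht with h | h
  · rw [wIn_of_ge h4' (by linarith), wIn_of_ge h4 (by linarith), sub_zero]
  · rw [wIn_of_le c.hd (by linarith) h4' (by linarith),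
      wIn_of_le c.hd (by linarith) h4 (by linarith), sub_self]

lemma chip_supp {j : ℕ} (hj : 1 ≤ j) {t : ℝ} (ht : 2 * dl j < |t - c.r|) : c.chip j t = 0 := by
  have h1 := c.hr1; have h4 := dl_pos j; have h4' := dl_pos (j + 1)
  have h3 := dl_le_half hj; have h5 : dl (j + 1) ≤ dl j := dl_antitone (by omega)
  unfold chip wp
  rcases lt_abs.1 ht with h | h
  · rw [wIn_of_ge h4' (by linarith), wIn_of_ge h4 (by linarith), sub_zero]
  · rw [wIn_of_le c.hd (by linarith) h4' (by linarith),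
      wIn_of_le c.hd (by linarith) h4 (by linarith), sub_self]

lemma om_supp {j : ℕ} (hj : 1 ≤ j) {t : ℝ} (ht : 2 * dl j < |t - c.r|) : c.om j t = 0 := by
  have h1 := c.hr1; have h4 := dl_pos j; have h3 := dl_le_half hj
  unfold om wp wj
  rcases lt_abs.1 ht with h | h
  · rw [wIn_of_ge h4 (by linarith), wIn_of_ge h4 (by linarith), sub_zero]
  · rw [wIn_of_le c.hd (by linarith) h4 (by linarith),
      wIn_of_le c.hd (by linarith) h4 (by linarith), sub_self]

/-- The integral of the gradient against a radial weight. -/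
def Iv (ψ : ℝ → ℝ) : X d := ∫ y, ψ ‖y - c.x‖ • vgrad c.f y

/-- The flux against a radial weight. -/
def Fl (ψ : ℝ → ℝ) : ℝ := flux c.f c.x c.r ψ

/-- The bilinear integral. -/
def Kv (ν : X d) (ψ : ℝ → ℝ) : X d :=
  ∫ y, ψ ‖y - c.x‖ • Kvec ν (ν - c.r⁻¹ • (y - c.x)) (vgrad c.f y)

lemma near_of_ne {ψ : ℝ → ℝ} {j : ℕ} (hψ : Test d j ψ) {y : X d} (h : ψ ‖y - c.x‖ ≠ 0) :
    ‖y - c.x‖ ≤ 6 := by
  by_contra hn
  exact h (hψ.2.2.2 _ (by linarith [not_le.1 hn]))

lemma Iv_eq_sum {ψ : ℝ → ℝ} {j : ℕ} (hψ : Test d j ψ) (l : ℕ) :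
    c.Iv ψ = ∑ k ∈ dbox d 8 l, c.Ic l k ψ :=
  integral_eq_sum_box c.hx l (hψ.rweight.integrable (continuous_vgrad c.hf) c.x) fun y hy =>
    c.near_of_ne hψ fun h => hy (by simp [h])

lemma Fl_eq_sum {ψ : ℝ → ℝ} {j : ℕ} (hψ : Test d j ψ) (l : ℕ) :
    c.Fl ψ = ∑ k ∈ dbox d 8 l, c.Fc l k ψ := by
  refine integral_eq_sum_box c.hx l ?_ fun y hy => c.near_of_ne hψ fun h => hy (by simp [h])
  have := hψ.rweight.integrable (E := ℝ) (g := fun y : X d => ⟪c.r⁻¹ • (y - c.x), vgrad c.f y⟫)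
    ((by fun_prop : Continuous fun y : X d => c.r⁻¹ • (y - c.x)).inner (continuous_vgrad c.hf)) c.x
  simpa using this

lemma continuous_Kvec (ν : X d) :
    Continuous fun y => Kvec ν (ν - c.r⁻¹ • (y - c.x)) (vgrad c.f y) := by
  have ha : Continuous fun y : X d => ν - c.r⁻¹ • (y - c.x) := by fun_prop
  have hv := continuous_vgrad c.hf
  unfold Kvec
  exact (((Continuous.inner (𝕜 := ℝ) ha hv).smul continuous_const).add
    ((Continuous.inner (𝕜 := ℝ) continuous_const ha).smul hv)).sub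
    ((Continuous.inner (𝕜 := ℝ) continuous_const hv).smul ha)

lemma Kv_eq_sum {ψ : ℝ → ℝ} {j : ℕ} (hψ : Test d j ψ) (ν : X d) (l : ℕ) :
    c.Kv ν ψ = ∑ k ∈ dbox d 8 l, ∫ y in cube (dcorner l k) (dl l),
      ψ ‖y - c.x‖ • Kvec ν (ν - c.r⁻¹ • (y - c.x)) (vgrad c.f y) :=
  integral_eq_sum_box c.hx l (hψ.rweight.integrable (c.continuous_Kvec ν) c.x) fun y hy =>
    c.near_of_ne hψ fun h => hy (by simp [h])

lemma band_subset (j : ℕ) : band c.x c.r j ⊆ dbox d 8 j := fun _ hk => (mem_band.1 hk).1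

lemma Iv_band {ψ : ℝ → ℝ} {j : ℕ} (hψ : Test d j ψ)
    (hs : ∀ t, 2 * dl j < |t - c.r| → ψ t = 0) :
    c.Iv ψ = ∑ k ∈ band c.x c.r j, c.Ic j k ψ := by
  rw [c.Iv_eq_sum hψ j]
  refine (Finset.sum_subset (c.band_subset j) fun k hk hb => ?_).symm
  exact setIntegral_eq_zero_of_forall_eq_zero fun y hy => by
    rw [c.zero_of_not_band hk hb hs hy, zero_smul]

lemma Fl_band {ψ : ℝ → ℝ} {j : ℕ} (hψ : Test d j ψ)
    (hs : ∀ t, 2 * dl j < |t - c.r| → ψ t = 0) :
    c.Fl ψ = ∑ k ∈ band c.x c.r j, c.Fc j k ψ := by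
  rw [c.Fl_eq_sum hψ j]
  refine (Finset.sum_subset (c.band_subset j) fun k hk hb => ?_).symm
  exact setIntegral_eq_zero_of_forall_eq_zero fun y hy => by
    rw [c.zero_of_not_band hk hb hs hy, zero_mul]

lemma Kv_band {ψ : ℝ → ℝ} {j : ℕ} (hψ : Test d j ψ)
    (hs : ∀ t, 2 * dl j < |t - c.r| → ψ t = 0) (ν : X d) :
    c.Kv ν ψ = ∑ k ∈ band c.x c.r j, ∫ y in cube (dcorner j k) (dl j),
      ψ ‖y - c.x‖ • Kvec ν (ν - c.r⁻¹ • (y - c.x)) (vgrad c.f y) := by
  rw [c.Kv_eq_sum hψ ν j]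
  refine (Finset.sum_subset (c.band_subset j) fun k hk hb => ?_).symm
  exact setIntegral_eq_zero_of_forall_eq_zero fun y hy => by
    rw [c.zero_of_not_band hk hb hs hy, zero_smul]

lemma Iv_split (ψ φ : ℝ → ℝ) {i j : ℕ} (hψ : Test d i ψ) (hφ : Test d j φ) :
    c.Iv (fun s => ψ s - φ s) = c.Iv ψ - c.Iv φ := by
  rw [Iv, Iv, Iv, ← integral_sub (hψ.rweight.integrable (continuous_vgrad c.hf) c.x)
    (hφ.rweight.integrable (continuous_vgrad c.hf) c.x)]
  exact integral_congr_ae (Eventually.of_forall fun y => sub_smul _ _ _)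

lemma Fl_split (ψ φ : ℝ → ℝ) {i j : ℕ} (hψ : Test d i ψ) (hφ : Test d j φ) :
    c.Fl (fun s => ψ s - φ s) = c.Fl ψ - c.Fl φ := by
  have hg : Continuous fun y : X d => ⟪c.r⁻¹ • (y - c.x), vgrad c.f y⟫ :=
    (by fun_prop : Continuous fun y : X d => c.r⁻¹ • (y - c.x)).inner (continuous_vgrad c.hf)
  have h1 := hψ.rweight.integrable (E := ℝ) hg c.x
  have h2 := hφ.rweight.integrable (E := ℝ) hg c.x
  simp only [smul_eq_mul] at h1 h2
  rw [Fl, Fl, Fl, flux, flux, flux, ← integral_sub h1 h2]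
  exact integral_congr_ae (Eventually.of_forall fun y => sub_mul _ _ _)

/-- The cone component of an inner test. -/
def Eg (j : ℕ) : ℝ := ⟪c.e, c.Iv (c.w j)⟫

/-- The remainder constant. -/
def rC (d : ℕ) : ℝ := bandC d + 2 * 16 ^ d

lemma rC_nonneg (d : ℕ) : 0 ≤ rC d := add_nonneg (bandC_nonneg d) (by positivity)

/-- The cumulative bad mass with remainders. -/
def Bt (j : ℕ) : ℝ := bS c.e c.f c.N c.x c.r j + rC d * j * c.rem0

/-- The corrected cone component. -/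
def D (j : ℕ) : ℝ := c.Eg j + 4 * cC d * c.Bt j

lemma bmu_nonneg (j : ℕ) : 0 ≤ bmu c.e c.f c.N j := Finset.sum_nonneg fun _ _ => c.bwt_nonneg _ _

lemma bM_nonneg (j : ℕ) : 0 ≤ bM c.e c.f c.N c.x c.r j :=
  Finset.sum_nonneg fun _ _ => c.bwt_nonneg _ _

lemma bS_nonneg (j : ℕ) : 0 ≤ bS c.e c.f c.N c.x c.r j :=
  add_nonneg (c.bmu_nonneg 1) (Finset.sum_nonneg fun _ _ => c.bM_nonneg _)

lemma bS_le_Bt (j : ℕ) : bS c.e c.f c.N c.x c.r j ≤ c.Bt j :=
  le_add_of_nonneg_right (mul_nonneg (mul_nonneg (rC_nonneg d) (Nat.cast_nonneg j)) c.rem0_nonneg)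

lemma bS_succ {j : ℕ} (hj : 1 ≤ j) : bS c.e c.f c.N c.x c.r (j + 1) =
    bS c.e c.f c.N c.x c.r j + bM c.e c.f c.N c.x c.r j := by
  rw [bS, bS, Finset.sum_Ico_succ_top hj, add_assoc]

lemma Bt_succ {j : ℕ} (hj : 1 ≤ j) :
    c.Bt (j + 1) = c.Bt j + bM c.e c.f c.N c.x c.r j + rC d * c.rem0 := by
  unfold Bt; rw [c.bS_succ hj]; push_cast; ring

lemma sum_Ep (j : ℕ) (s : Finset (Fin d → ℤ)) (ψ : ℝ → ℝ) :
    ∑ k ∈ s, c.Ep j k ψ = ⟪c.e, ∑ k ∈ s, c.Ic j k ψ⟫ + 2 * cC d * ∑ k ∈ s, c.bR j k := by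
  rw [inner_sum, Finset.mul_sum, ← Finset.sum_add_distrib]; rfl

lemma sum_band_bR' (j : ℕ) :
    ∑ k ∈ band c.x c.r j, c.bR j k ≤ bM c.e c.f c.N c.x c.r j + rC d * c.rem0 := by
  refine (c.sum_band_bR j).trans (add_le_add le_rfl (mul_le_mul_of_nonneg_right ?_ c.rem0_nonneg))
  unfold rC
  linarith [show (0:ℝ) ≤ 2 * 16 ^ d by positivity]

lemma sum_box_bR : ∑ k ∈ dbox d 8 1, c.bR 1 k ≤ c.Bt 1 := by
  have hS : bS c.e c.f c.N c.x c.r 1 = bmu c.e c.f c.N 1 := by simp [bS]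
  rw [Bt, hS]
  simp only [bR, Finset.sum_add_distrib, Finset.sum_const, nsmul_eq_mul]
  refine add_le_add le_rfl ?_
  have hc : ((dbox d 8 1).card : ℝ) = 32 ^ d := by
    simp [dbox, Fintype.card_piFinset, Int.card_Ico]
  have hdl : dl 1 = 1 / 2 := by norm_num [dl]
  rw [hc, hdl]
  have h := bandC_nonneg d
  have h0 := c.rem0_nonneg
  calc (32:ℝ) ^ d * (dl c.N * 2 ^ 1 * (1 / 2) ^ d * c.V0)
      = 2 * ((32:ℝ) * (1 / 2)) ^ d * c.rem0 := by rw [mul_pow]; unfold rem0; ring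
    _ = 2 * 16 ^ d * c.rem0 := by norm_num
    _ ≤ _ := by
        refine mul_le_mul_of_nonneg_right ?_ h0
        unfold rC; push_cast; linarith

lemma D_one_ge (hN : 1 ≤ c.N) :
    ∑ k ∈ dbox d 8 1, c.Ep 1 k (c.w 1) + 2 * cC d * c.Bt 1 ≤ c.D 1 := by
  rw [sum_Ep, ← c.Iv_eq_sum (c.w_test le_rfl) 1]
  have := mul_le_mul_of_nonneg_left c.sum_box_bR (mul_nonneg zero_le_two (cC_pos d).le)
  unfold D Eg; linarith

lemma Iv_chi {j : ℕ} (hj : 1 ≤ j) : c.Iv (c.chi j) = c.Iv (c.w (j + 1)) - c.Iv (c.w j) :=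
  c.Iv_split (c.w (j + 1)) (c.w j) (c.w_test (by omega)) (c.w_test hj)

lemma Fl_chi {j : ℕ} (hj : 1 ≤ j) : c.Fl (c.chi j) = c.Fl (c.w (j + 1)) - c.Fl (c.w j) :=
  c.Fl_split (c.w (j + 1)) (c.w j) (c.w_test (by omega)) (c.w_test hj)

lemma D_step {j : ℕ} (hj : 1 ≤ j) :
    ∑ k ∈ band c.x c.r j, c.Ep j k (c.chi j) +
      2 * cC d * (c.Bt (j + 1) - c.Bt j) ≤ c.D (j + 1) - c.D j := by
  rw [sum_Ep, ← c.Iv_band (c.chi_test hj) (fun t => c.chi_supp hj), c.Iv_chi hj, inner_sub_right]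
  have := mul_le_mul_of_nonneg_left (c.sum_band_bR' j) (mul_nonneg zero_le_two (cC_pos d).le)
  unfold D Eg
  rw [c.Bt_succ hj]
  linarith

lemma sum_Ep_nonneg {j : ℕ} (hj : j ≤ c.N) {s : Finset (Fin d → ℤ)} (hs : s ⊆ dbox d 8 j)
    {ψ : ℝ → ℝ} (hψ : Test d j ψ) : 0 ≤ ∑ k ∈ s, c.Ep j k ψ :=
  Finset.sum_nonneg fun _ hk => c.Ep_nonneg hj (hs hk) hψ

lemma sum_band_chi_le {j : ℕ} (hj : 1 ≤ j) (hjN : j ≤ c.N) :
    ∑ k ∈ band c.x c.r j, c.Ep j k (c.chi j) ≤ c.D (j + 1) - c.D j := by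
  have h0 : 0 ≤ c.Bt (j + 1) - c.Bt j := by
    rw [c.Bt_succ hj]
    have := c.bM_nonneg j; have := mul_nonneg (rC_nonneg d) c.rem0_nonneg
    linarith
  have := mul_nonneg (mul_nonneg zero_le_two (cC_pos d).le) h0
  linarith [c.D_step hj]

lemma D_le_succ {j : ℕ} (hj : 1 ≤ j) (hjN : j ≤ c.N) : c.D j ≤ c.D (j + 1) := by
  have h1 := c.sum_Ep_nonneg hjN (c.band_subset j) (c.chi_test hj)
  linarith [c.sum_band_chi_le hj hjN]

lemma D_mono {i j : ℕ} (hi : 1 ≤ i) (hij : i ≤ j) (hj : j ≤ c.N + 1) : c.D i ≤ c.D j := by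
  induction j, hij using Nat.le_induction with
  | base => exact le_rfl
  | succ j hle ih => exact (ih (by omega)).trans (c.D_le_succ (by omega) (by omega))

lemma Bt_le_D {j : ℕ} (hj : 1 ≤ j) (hjN : j ≤ c.N + 1) (hN : 1 ≤ c.N) :
    2 * cC d * c.Bt j ≤ c.D j := by
  induction j, hj using Nat.le_induction with
  | base =>
    linarith [c.D_one_ge hN, c.sum_Ep_nonneg hN (subset_refl _) (c.w_test le_rfl)]
  | succ j hle ih =>
    have h1 := c.sum_Ep_nonneg (show j ≤ c.N by omega) (c.band_subset j) (c.chi_test hle)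
    nlinarith [ih (by omega), c.D_step hle]

lemma D_nonneg {j : ℕ} (hj : 1 ≤ j) (hjN : j ≤ c.N + 1) (hN : 1 ≤ c.N) : 0 ≤ c.D j :=
  le_trans (mul_nonneg (mul_nonneg zero_le_two (cC_pos d).le)
    ((c.bS_nonneg j).trans (c.bS_le_Bt j))) (c.Bt_le_D hj hjN hN)

lemma norm_Iv_le {j : ℕ} (hj : 1 ≤ j) (hjN : j ≤ c.N + 1) (hN : 1 ≤ c.N) :
    ‖c.Iv (c.w j)‖ ≤ 2 * c.D j ∧ |c.Fl (c.w j)| ≤ fC d * c.D j := by
  have hB : 0 ≤ 2 * cC d * c.Bt 1 :=
    mul_nonneg (mul_nonneg zero_le_two (cC_pos d).le) ((c.bS_nonneg 1).trans (c.bS_le_Bt 1))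
  have hb := c.D_one_ge hN
  induction j, hj using Nat.le_induction with
  | base =>
    have h1 : ∑ k ∈ dbox d 8 1, c.Ep 1 k (c.w 1) ≤ c.D 1 := by linarith
    constructor
    · rw [c.Iv_eq_sum (c.w_test le_rfl) 1]
      refine (norm_sum_le _ _).trans ((Finset.sum_le_sum fun k hk =>
        c.norm_Ic_le hN hk (c.w_test le_rfl)).trans ?_)
      rw [← Finset.mul_sum]; linarith
    · rw [c.Fl_eq_sum (c.w_test le_rfl) 1]
      refine (Finset.abs_sum_le_sum_abs _ _).trans ((Finset.sum_le_sum fun k hk =>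
        c.abs_Fc_le hN hk (c.w_test le_rfl)).trans ?_)
      rw [← Finset.mul_sum]; exact mul_le_mul_of_nonneg_left h1 (fC_pos d).le
  | succ j hle ih =>
    obtain ⟨i1, i2⟩ := ih (by omega)
    have hjN' : j ≤ c.N := by omega
    have hs := c.sum_band_chi_le hle hjN'
    constructor
    · have h2 : ‖c.Iv (c.chi j)‖ ≤ 2 * (c.D (j + 1) - c.D j) := by
        rw [c.Iv_band (c.chi_test hle) (fun t => c.chi_supp hle)]
        refine (norm_sum_le _ _).trans ((Finset.sum_le_sum fun k hk =>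
          c.norm_Ic_le hjN' (c.band_subset j hk) (c.chi_test hle)).trans ?_)
        rw [← Finset.mul_sum]; linarith
      have e : c.Iv (c.w (j + 1)) = c.Iv (c.w j) + c.Iv (c.chi j) := by rw [c.Iv_chi hle]; abel
      rw [e]
      exact (norm_add_le _ _).trans (by linarith)
    · have h2 : |c.Fl (c.chi j)| ≤ fC d * (c.D (j + 1) - c.D j) := by
        rw [c.Fl_band (c.chi_test hle) (fun t => c.chi_supp hle)]
        refine (Finset.abs_sum_le_sum_abs _ _).trans ((Finset.sum_le_sum fun k hk =>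
          c.abs_Fc_le hjN' (c.band_subset j hk) (c.chi_test hle)).trans ?_)
        rw [← Finset.mul_sum]; exact mul_le_mul_of_nonneg_left hs (fC_pos d).le
      rw [c.Fl_chi hle] at h2
      rw [abs_le] at i2 h2 ⊢
      constructor <;> linarith [i2.1, i2.2, h2.1, h2.2]

lemma Eg_eq (j : ℕ) : c.Eg j = c.D j - 4 * cC d * c.Bt j := by unfold D; ring

/-- The ball. -/
def ballW (s : ℝ) : ℝ := if s < c.r then 1 else 0

lemma shell_le {g : X d → ℝ} (hg : ∀ y ∈ closedBall c.x 3, |g y| ≤ 3 * c.V0) {j : ℕ} (hj : 1 ≤ j) :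
    |∫ y, (c.ballW ‖y - c.x‖ - c.w j ‖y - c.x‖) * g y| ≤ 3 * bandC d * (dl j * c.V0) := by
  have h1 := c.hr1; have h2 := c.hr2; have h3 := dl_le_half hj; have h4 := dl_pos j
  set A := closedBall c.x (c.r + dl j) \ ball c.x (max (c.r - dl j) 0) with hA
  have hAfin : volume A < ⊤ := (measure_mono sdiff_subset).trans_lt measure_closedBall_lt_top
  have hmem : ∀ y, y ∉ A → c.ballW ‖y - c.x‖ - c.w j ‖y - c.x‖ = 0 := by
    intro y hy
    unfold ballW w wj
    by_cases hb : ‖y - c.x‖ < c.r - dl j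
    · rw [if_pos (by linarith), wIn_of_le c.hd (by linarith) h4 hb.le, sub_self]
    · have : c.r + dl j < ‖y - c.x‖ := by
        by_contra hn
        exact hy ⟨by simpa [mem_closedBall, dist_eq_norm] using not_lt.1 hn,
          by simpa [mem_ball, dist_eq_norm, max_eq_left (show (0:ℝ) ≤ c.r - dl j by linarith)] using hb⟩
      rw [if_neg (by linarith), wIn_of_ge h4 (by linarith), sub_zero]
  rw [← setIntegral_eq_integral_of_forall_compl_eq_zero (s := A)
    (fun y hy => by rw [hmem y hy, zero_mul])]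
  rw [← Real.norm_eq_abs]
  refine (norm_setIntegral_le_of_norm_le_const (C := 3 * c.V0) hAfin fun y hy => ?_).trans ?_
  · rw [Real.norm_eq_abs, abs_mul]
    refine (mul_le_of_le_one_left (abs_nonneg _) ?_).trans
      (hg y (closedBall_subset_closedBall (by linarith) hy.1))
    have := (c.w_test hj).2.1 ‖y - c.x‖
    unfold ballW
    rw [abs_le]; split <;> constructor <;> linarith [this.1, this.2]
  · have hv := volume_annulus c.hd c.x (r := c.r) (a := dl j) (by linarith) h4.le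
    rw [← hA] at hv
    have hb : 2 * dl j * d * (c.r + dl j) ^ (d - 1) * volume.real (ball (0 : X d) 1) ≤
        bandC d * dl j := by
      unfold bandC
      have hd0 := Nat.cast_nonneg (α := ℝ) d
      have e : (c.r + dl j) ^ (d - 1) ≤ (5 * (d:ℝ) + 8) ^ (d - 1) :=
        pow_le_pow_left₀ (by linarith) (by linarith) _
      have e2 : 2 * dl j * d ≤ 2 * (5 * (d:ℝ) + 5) * d * dl j := by
        nlinarith [mul_nonneg (mul_nonneg h4.le hd0) hd0, mul_nonneg h4.le hd0]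
      calc 2 * dl j * d * (c.r + dl j) ^ (d - 1) * volume.real (ball (0 : X d) 1)
          ≤ 2 * (5 * (d:ℝ) + 5) * d * dl j * (5 * (d:ℝ) + 8) ^ (d - 1) *
            volume.real (ball (0 : X d) 1) :=
            mul_le_mul_of_nonneg_right (mul_le_mul e2 e (by positivity) (by positivity))
              measureReal_nonneg
        _ = _ := by ring
    calc 3 * c.V0 * volume.real A ≤ 3 * c.V0 * (bandC d * dl j) :=
          mul_le_mul_of_nonneg_left (hv.trans hb) (by linarith [c.V0_nonneg])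
      _ = _ := by ring

lemma V0_bound {y : X d} (hy : y ∈ closedBall c.x 3) : ‖vgrad c.f y‖ ≤ c.V0 := by
  refine c.hV y ?_
  rw [mem_closedBall, dist_eq_norm] at hy
  rw [mem_closedBall, dist_zero_right]
  have h2 : ‖c.x‖ ≤ (d:ℝ) + 1 := by
    have := dist_cube_le zero_le_one c.hx (show (0 : X d) ∈ cube (0 : X d) 1 from fun i => by simp)
    simpa using this
  have := norm_sub_norm_le y c.x
  linarith [Nat.cast_nonneg (α := ℝ) d]

lemma Fl_ball_sub {j : ℕ} (hj : 1 ≤ j) :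
    |c.Fl c.ballW - c.Fl (c.w j)| ≤ 3 * bandC d * (dl j * c.V0) := by
  have hg : Continuous fun y : X d => ⟪c.r⁻¹ • (y - c.x), vgrad c.f y⟫ :=
    (by fun_prop : Continuous fun y : X d => c.r⁻¹ • (y - c.x)).inner (continuous_vgrad c.hf)
  have hB : RWeight c.ballW := rweight_ball (by linarith [c.hr2])
  have h1 := hB.integrable (E := ℝ) hg c.x
  have h2 := (c.w_test hj).rweight.integrable (E := ℝ) hg c.x
  simp only [smul_eq_mul] at h1 h2
  rw [Fl, Fl, flux, flux, ← integral_sub h1 h2]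
  simp only [← sub_mul]
  refine c.shell_le (fun y hy => ?_) hj
  refine (abs_real_inner_le_norm _ _).trans ?_
  have hn : ‖c.r⁻¹ • (y - c.x)‖ ≤ 3 := by
    rw [norm_smul, norm_inv, Real.norm_of_nonneg (by linarith [c.hr1])]
    rw [mem_closedBall, dist_eq_norm] at hy
    exact (mul_le_of_le_one_left (norm_nonneg _) (inv_le_one_of_one_le₀ c.hr1)).trans hy
  nlinarith [c.V0_bound hy, norm_nonneg (vgrad c.f y), c.V0_nonneg]

end Ctx

end Vale.Agent.P137.Centred
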