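import Vale.Agent.P137.Centred.Core.Bands

/-!
P137, centred operator: estimates of radial tests on single cubes.
-/

open MeasureTheory Metric Set Filter
open scoped ENNReal Topology RealInnerProductSpace

noncomputable section

namespace Vale.Agent.P137.Centred

variable {d : ℕ}

/-- The data of a point and a radius in the core. -/
structure Ctx (d : ℕ) where
  f : X d → ℝ
  e : X d
  N : ℕ
  x : X d
  r : ℝ
  V0 : ℝ
  hd : 1 ≤ d
  hf : ContDiff ℝ 1 f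
  he : ‖e‖ ≤ 1
  hx : x ∈ cube (0 : X d) 1
  hr1 : 1 ≤ r
  hr2 : r ≤ 2
  hV : ∀ y ∈ closedBall (0 : X d) (16 * (d:ℝ) + 16), ‖vgrad f y‖ ≤ V0

/-- The Lipschitz constant of tests. -/
def lA (d : ℕ) : ℝ := 4 * d * 6 ^ (d + 1)

lemma lA_nonneg (d : ℕ) : 0 ≤ lA d := by unfold lA; positivity

/-- A test of level `j`. -/
def Test (d j : ℕ) (ψ : ℝ → ℝ) : Prop :=
  Continuous ψ ∧ (∀ t, 0 ≤ ψ t ∧ ψ t ≤ 1) ∧ (∀ s t, |ψ s - ψ t| ≤ lA d * 2 ^ j * |s - t|) ∧
    ∀ t, 4 < t → ψ t = 0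

lemma Test.rweight {j : ℕ} {ψ : ℝ → ℝ} (h : Test d j ψ) : RWeight ψ :=
  ⟨h.1.measurable, fun t => abs_le.2 ⟨by linarith [(h.2.1 t).1], (h.2.1 t).2⟩, h.2.2.2⟩

/-- The constant of the cube test. -/
def cpC (d : ℕ) : ℝ := Classical.choose (cellPos d)

lemma cpC_spec (d : ℕ) : 0 ≤ cpC d ∧ ∀ (f : X d → ℝ), ContDiff ℝ 1 f →
    ∀ (e : X d) (N j : ℕ) (k : Fin d → ℤ),
    j ≤ N → ∀ (V0 : ℝ), (∀ y ∈ cube (dcorner j k) (dl j), ‖vgrad f y‖ ≤ V0) →
    ∀ (τ : X d), (∀ X, bad (etaC d) e X = 0 → 0 ≤ ⟪τ, X⟫) →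
    ∀ (α : X d → ℝ) (H L : ℝ), (∀ y ∈ cube (dcorner j k) (dl j), 0 ≤ α y ∧ α y ≤ H) → 0 ≤ L →
      (∀ y ∈ cube (dcorner j k) (dl j), ∀ z ∈ cube (dcorner j k) (dl j),
        |α y - α z| ≤ L * 2 ^ j * ‖y - z‖) →
      -(cpC d * ‖τ‖ * (H + L) * (bwt e f N j k + dl N * 2 ^ j * dl j ^ d * V0)) ≤
        ⟪τ, ∫ y in cube (dcorner j k) (dl j), α y • vgrad f y⟫ :=
  Classical.choose_spec (cellPos d)

/-- The constant of the local estimates. -/
def cC (d : ℕ) : ℝ := 4 * cpC d * (lA d + 3) + 1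

lemma cC_pos (d : ℕ) : 0 < cC d := by
  have := (cpC_spec d).1; have := lA_nonneg d; unfold cC; positivity

lemma etaC_pos (d : ℕ) : 0 < etaC d := by unfold etaC; positivity

lemma etaC_le (d : ℕ) : etaC d ≤ 1 / 4 := by
  unfold etaC
  rw [div_le_div_iff₀ (by positivity) (by norm_num)]
  have : (1:ℝ) ≤ ((d:ℝ) + 1) ^ 8 := one_le_pow₀ (by linarith [Nat.cast_nonneg (α := ℝ) d])
  nlinarith

lemma good_of_bad_eq_zero {e X : X d} (h : bad (etaC d) e X = 0) :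
    (1 - etaC d) * ‖X‖ ≤ ⟪e, X⟫ := by
  unfold bad at h
  split at h
  · rw [norm_eq_zero] at h; simp [h]
  · rename_i hne
    push Not at hne
    unfold excess at hne
    linarith

lemma mem_band {x : X d} {r : ℝ} {j : ℕ} {k : Fin d → ℤ} :
    k ∈ band x r j ↔ k ∈ dbox d 8 j ∧ inBand x r j k := by
  classical
  simp [band]

namespace Ctx

variable (c : Ctx d)

/-- The remainder unit. -/
def rem0 : ℝ := dl c.N * c.V0

/-- The cube `k` of level `j`. -/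
def cell (_c : Ctx d) (j : ℕ) (k : Fin d → ℤ) : Set (X d) := cube (dcorner j k) (dl j)

/-- The test integral on a cube. -/
def Ic (j : ℕ) (k : Fin d → ℤ) (ψ : ℝ → ℝ) : X d :=
  ∫ y in cube (dcorner j k) (dl j), ψ ‖y - c.x‖ • vgrad c.f y

/-- The bad mass of a cube with its remainder. -/
def bR (j : ℕ) (k : Fin d → ℤ) : ℝ := bwt c.e c.f c.N j k + dl c.N * 2 ^ j * dl j ^ d * c.V0

/-- The component along the cone. -/
def Ec (j : ℕ) (k : Fin d → ℤ) (ψ : ℝ → ℝ) : ℝ := ⟪c.e, c.Ic j k ψ⟫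

/-- The corrected component along the cone. -/
def Ep (j : ℕ) (k : Fin d → ℤ) (ψ : ℝ → ℝ) : ℝ := c.Ec j k ψ + 2 * cC d * c.bR j k

lemma V0_nonneg : 0 ≤ c.V0 :=
  (norm_nonneg _).trans (c.hV 0 (mem_closedBall_self (by positivity)))

lemma rem0_nonneg : 0 ≤ c.rem0 := mul_nonneg (dl_pos _).le c.V0_nonneg

lemma bwt_nonneg (j : ℕ) (k : Fin d → ℤ) : 0 ≤ bwt c.e c.f c.N j k :=
  Finset.sum_nonneg fun _ _ => mul_nonneg (by positivity)
    (Finset.sum_nonneg fun _ _ => bad_nonneg _ _ _)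

lemma bR_nonneg (j : ℕ) (k : Fin d → ℤ) : 0 ≤ c.bR j k :=
  add_nonneg (c.bwt_nonneg j k) (by
    have := dl_pos c.N; have := dl_pos j; have := c.V0_nonneg; positivity)

lemma integrableOn_test {ψ : ℝ → ℝ} (hψ : Continuous ψ) (j : ℕ) (k : Fin d → ℤ)
    {a : X d → ℝ} (ha : Continuous a) :
    IntegrableOn (fun y => (ψ ‖y - c.x‖ * a y) • vgrad c.f y) (cube (dcorner j k) (dl j)) :=
  integrableOn_cube (v := fun y => (ψ ‖y - c.x‖ * a y) • vgrad c.f y)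
    (((hψ.comp (by fun_prop)).mul ha).smul (continuous_vgrad c.hf)) j k

lemma test_bound {j : ℕ} (hj : j ≤ c.N) {k : Fin d → ℤ} (hk : k ∈ dbox d 8 j) {τ : X d}
    (hτ : ∀ X, bad (etaC d) c.e X = 0 → 0 ≤ ⟪τ, X⟫) (hτn : ‖τ‖ ≤ 4) {α : X d → ℝ}
    (hα : ∀ y ∈ cube (dcorner j k) (dl j), 0 ≤ α y ∧ α y ≤ 1)
    (hL : ∀ y ∈ cube (dcorner j k) (dl j), ∀ z ∈ cube (dcorner j k) (dl j),
      |α y - α z| ≤ (lA d + 2) * 2 ^ j * ‖y - z‖) :
    -(cC d * c.bR j k) ≤ ⟪τ, ∫ y in cube (dcorner j k) (dl j), α y • vgrad c.f y⟫ := by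
  have hV : ∀ y ∈ cube (dcorner j k) (dl j), ‖vgrad c.f y‖ ≤ c.V0 := fun y hy =>
    c.hV y (by rw [mem_closedBall, dist_zero_right]; exact norm_le_of_box hk hy)
  refine le_trans (neg_le_neg ?_) ((cpC_spec d).2 c.f c.hf c.e c.N j k hj c.V0 hV τ hτ α 1
    (lA d + 2) hα (by linarith [lA_nonneg d]) hL)
  have h1 := (cpC_spec d).1
  have h2 := lA_nonneg d
  calc cpC d * ‖τ‖ * (1 + (lA d + 2)) * c.bR j k ≤ cpC d * 4 * (1 + (lA d + 2)) * c.bR j k :=
        mul_le_mul_of_nonneg_right (mul_le_mul_of_nonneg_right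
          (mul_le_mul_of_nonneg_left hτn h1) (by linarith)) (c.bR_nonneg j k)
    _ ≤ cC d * c.bR j k := mul_le_mul_of_nonneg_right (by unfold cC; linarith) (c.bR_nonneg j k)

lemma test_lip {j : ℕ} {ψ : ℝ → ℝ} (hψ : Test d j ψ) (y z : X d) :
    |ψ ‖y - c.x‖ - ψ ‖z - c.x‖| ≤ (lA d + 2) * 2 ^ j * ‖y - z‖ := by
  refine (hψ.2.2.1 _ _).trans ?_
  have h := abs_norm_sub_norm_le (y - c.x) (z - c.x)
  rw [sub_sub_sub_cancel_right] at h
  have := lA_nonneg d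
  have hp : (0:ℝ) < 2 ^ j := by positivity
  calc lA d * 2 ^ j * |‖y - c.x‖ - ‖z - c.x‖| ≤ lA d * 2 ^ j * ‖y - z‖ :=
        mul_le_mul_of_nonneg_left h (by positivity)
    _ ≤ _ := mul_le_mul_of_nonneg_right (mul_le_mul_of_nonneg_right (by linarith) hp.le)
        (norm_nonneg _)

lemma good_e {X : X d} (h : bad (etaC d) c.e X = 0) : 0 ≤ ⟪c.e, X⟫ :=
  le_trans (mul_nonneg (by linarith [etaC_le d]) (norm_nonneg _)) (good_of_bad_eq_zero h)

lemma Ec_ge {j : ℕ} (hj : j ≤ c.N) {k : Fin d → ℤ} (hk : k ∈ dbox d 8 j) {ψ : ℝ → ℝ}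
    (hψ : Test d j ψ) : -(cC d * c.bR j k) ≤ c.Ec j k ψ :=
  c.test_bound hj hk (fun _ h => c.good_e h) (by linarith [c.he]) (fun _ _ => hψ.2.1 _)
    fun y _ z _ => c.test_lip hψ y z

lemma Ep_ge {j : ℕ} (hj : j ≤ c.N) {k : Fin d → ℤ} (hk : k ∈ dbox d 8 j) {ψ : ℝ → ℝ}
    (hψ : Test d j ψ) : cC d * c.bR j k ≤ c.Ep j k ψ := by
  have := c.Ec_ge hj hk hψ
  unfold Ep; linarith

lemma Ep_nonneg {j : ℕ} (hj : j ≤ c.N) {k : Fin d → ℤ} (hk : k ∈ dbox d 8 j) {ψ : ℝ → ℝ}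
    (hψ : Test d j ψ) : 0 ≤ c.Ep j k ψ :=
  (mul_nonneg (cC_pos d).le (c.bR_nonneg j k)).trans (c.Ep_ge hj hk hψ)

lemma norm_test_le {j : ℕ} (hj : j ≤ c.N) {k : Fin d → ℤ} (hk : k ∈ dbox d 8 j) {α : X d → ℝ}
    (hα : ∀ y ∈ cube (dcorner j k) (dl j), 0 ≤ α y ∧ α y ≤ 1)
    (hL : ∀ y ∈ cube (dcorner j k) (dl j), ∀ z ∈ cube (dcorner j k) (dl j),
      |α y - α z| ≤ (lA d + 2) * 2 ^ j * ‖y - z‖) :
    ‖∫ y in cube (dcorner j k) (dl j), α y • vgrad c.f y‖ ≤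
      2 * ⟪c.e, ∫ y in cube (dcorner j k) (dl j), α y • vgrad c.f y⟫ + cC d * c.bR j k := by
  set I := ∫ y in cube (dcorner j k) (dl j), α y • vgrad c.f y with hI
  have hu : ‖‖I‖⁻¹ • I‖ ≤ 1 := by
    rw [norm_smul, norm_inv, norm_norm]; exact inv_mul_le_one
  have hτ : ∀ X, bad (etaC d) c.e X = 0 → 0 ≤ ⟪(2:ℝ) • c.e - ‖I‖⁻¹ • I, X⟫ := by
    intro X hX
    rw [inner_sub_left, real_inner_smul_left]
    have h1 := good_of_bad_eq_zero hX
    have h2 := (abs_le.1 (abs_real_inner_le_norm (‖I‖⁻¹ • I) X)).2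
    have h3 := mul_le_mul_of_nonneg_right hu (norm_nonneg X)
    have h4 := mul_le_mul_of_nonneg_right (etaC_le d) (norm_nonneg X)
    nlinarith [norm_nonneg X]
  have hn : ‖(2:ℝ) • c.e - ‖I‖⁻¹ • I‖ ≤ 4 := by
    refine (norm_sub_le _ _).trans ?_
    rw [norm_smul, Real.norm_of_nonneg (by norm_num : (0:ℝ) ≤ 2)]
    linarith [c.he]
  have h := c.test_bound hj hk hτ hn hα hL
  rw [← hI, inner_sub_left, real_inner_smul_left, real_inner_smul_left,
    real_inner_self_eq_norm_sq] at h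
  have e : ‖I‖⁻¹ * ‖I‖ ^ 2 = ‖I‖ := by
    rcases eq_or_ne ‖I‖ 0 with h0 | h0
    · simp [h0]
    · field_simp
  linarith

lemma norm_Ic_le {j : ℕ} (hj : j ≤ c.N) {k : Fin d → ℤ} (hk : k ∈ dbox d 8 j) {ψ : ℝ → ℝ}
    (hψ : Test d j ψ) : ‖c.Ic j k ψ‖ ≤ 2 * c.Ep j k ψ := by
  have := c.norm_test_le hj hk (α := fun y => ψ ‖y - c.x‖) (fun _ _ => hψ.2.1 _)
    (fun y _ z _ => c.test_lip hψ y z)
  have h2 := mul_nonneg (cC_pos d).le (c.bR_nonneg j k)
  unfold Ep Ec Ic at *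
  linarith

/-- Multiplying a test by a small affine function. -/
lemma moment_le {j : ℕ} (hj : j ≤ c.N) {k : Fin d → ℤ} (hk : k ∈ dbox d 8 j) {ψ : ℝ → ℝ}
    (hψ : Test d j ψ) {a : X d → ℝ} (hac : Continuous a) {h : ℝ} (hh : dl j ≤ h)
    (ha : ∀ y ∈ cube (dcorner j k) (dl j), |a y| ≤ h)
    (hal : ∀ y z, |a y - a z| ≤ ‖y - z‖) :
    ‖∫ y in cube (dcorner j k) (dl j), (ψ ‖y - c.x‖ * a y) • vgrad c.f y‖ ≤
      7 * h * c.Ep j k ψ := by
  have h0 : 0 < h := (dl_pos j).trans_le hh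
  set Q := cube (dcorner j k) (dl j) with hQ
  have key : ∀ σ : ℝ, |σ| = 1 →
      (∀ y ∈ Q, 0 ≤ ψ ‖y - c.x‖ * ((h + σ * a y) / (2 * h)) ∧
        ψ ‖y - c.x‖ * ((h + σ * a y) / (2 * h)) ≤ 1) ∧
      (∀ y ∈ Q, ∀ z ∈ Q, |ψ ‖y - c.x‖ * ((h + σ * a y) / (2 * h)) -
        ψ ‖z - c.x‖ * ((h + σ * a z) / (2 * h))| ≤ (lA d + 2) * 2 ^ j * ‖y - z‖) := by
    intro σ hσ
    have hb : ∀ y ∈ Q, 0 ≤ (h + σ * a y) / (2 * h) ∧ (h + σ * a y) / (2 * h) ≤ 1 := by
      intro y hy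
      have h2 := abs_le.1 (show |σ * a y| ≤ h by rw [abs_mul, hσ, one_mul]; exact ha y hy)
      refine ⟨div_nonneg (by linarith [h2.1]) (by linarith), ?_⟩
      rw [div_le_one (by linarith)]; linarith [h2.2]
    refine ⟨fun y hy => ⟨mul_nonneg (hψ.2.1 _).1 (hb y hy).1,
      mul_le_one₀ (hψ.2.1 _).2 (hb y hy).1 (hb y hy).2⟩, fun y hy z hz => ?_⟩
    have e : ψ ‖y - c.x‖ * ((h + σ * a y) / (2 * h)) - ψ ‖z - c.x‖ * ((h + σ * a z) / (2 * h)) =
        (ψ ‖y - c.x‖ - ψ ‖z - c.x‖) * ((h + σ * a y) / (2 * h)) +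
          ψ ‖z - c.x‖ * (σ * (a y - a z) / (2 * h)) := by ring
    rw [e]
    refine (abs_add_le _ _).trans ?_
    rw [abs_mul, abs_mul, abs_of_nonneg (hb y hy).1, abs_of_nonneg (hψ.2.1 _).1, abs_div, abs_mul,
      hσ, one_mul, abs_of_pos (by linarith : (0:ℝ) < 2 * h)]
    have hp : (0:ℝ) < 2 ^ j := by positivity
    have h1 : |ψ ‖y - c.x‖ - ψ ‖z - c.x‖| * ((h + σ * a y) / (2 * h)) ≤
        lA d * 2 ^ j * ‖y - z‖ := by
      refine (mul_le_of_le_one_right (abs_nonneg _) (hb y hy).2).trans ((hψ.2.2.1 _ _).trans ?_)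
      have h3 := abs_norm_sub_norm_le (y - c.x) (z - c.x)
      rw [sub_sub_sub_cancel_right] at h3
      exact mul_le_mul_of_nonneg_left h3 (by have := lA_nonneg d; positivity)
    have h2 : ψ ‖z - c.x‖ * (|a y - a z| / (2 * h)) ≤ 2 * 2 ^ j * ‖y - z‖ := by
      refine (mul_le_of_le_one_left (div_nonneg (abs_nonneg _) (by linarith))
        (hψ.2.1 _).2).trans ?_
      rw [div_le_iff₀ (by linarith)]
      have : 1 ≤ 2 ^ j * h := by
        have := mul_le_mul_of_nonneg_left hh hp.le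
        rwa [dl, mul_inv_cancel₀ hp.ne'] at this
      nlinarith [hal y z, norm_nonneg (y - z), abs_nonneg (a y - a z)]
    linarith
  obtain ⟨k1, k1'⟩ := key 1 abs_one
  obtain ⟨k2, k2'⟩ := key (-1) (by norm_num)
  have n1 := c.norm_test_le hj hk k1 k1'
  have n2 := c.test_bound hj hk (fun _ hX => c.good_e hX) (by linarith [c.he]) k2 k2'
  rw [← hQ] at n1 n2
  set P := ∫ y in Q, (ψ ‖y - c.x‖ * ((h + 1 * a y) / (2 * h))) • vgrad c.f y with hP
  set M := ∫ y in Q, (ψ ‖y - c.x‖ * ((h + -1 * a y) / (2 * h))) • vgrad c.f y with hM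
  have iP := c.integrableOn_test hψ.1 j k (a := fun y => (h + 1 * a y) / (2 * h)) (by fun_prop)
  have iM := c.integrableOn_test hψ.1 j k (a := fun y => (h + -1 * a y) / (2 * h)) (by fun_prop)
  have hsum : P + M = c.Ic j k ψ := by
    rw [hP, hM, ← integral_add iP iM, Ic]
    refine setIntegral_congr_fun (measurableSet_cube _ _) fun y _ => ?_
    rw [← add_smul]; congr 1; field_simp; ring
  have hmain : ∫ y in Q, (ψ ‖y - c.x‖ * a y) • vgrad c.f y = (2 * h) • P - h • c.Ic j k ψ := by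
    rw [hP, Ic, ← integral_smul, ← integral_smul, ← integral_sub (iP.fun_smul _)]
    · refine setIntegral_congr_fun (measurableSet_cube _ _) fun y _ => ?_
      rw [smul_smul, smul_smul, ← sub_smul]; congr 1; field_simp; ring
    · have := c.integrableOn_test hψ.1 j k (a := fun _ => 1) continuous_const
      simpa using this.fun_smul h
  have hI := c.norm_Ic_le hj hk hψ
  have hE : ⟪c.e, P⟫ + ⟪c.e, M⟫ = c.Ec j k ψ := by rw [← inner_add_right, hsum]; rfl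
  have hb0 := mul_nonneg (cC_pos d).le (c.bR_nonneg j k)
  rw [hmain]
  refine (norm_sub_le _ _).trans ?_
  rw [norm_smul, norm_smul, Real.norm_of_nonneg h0.le, Real.norm_of_nonneg (by linarith : 0 ≤ 2 * h)]
  have hE' := c.Ep_ge hj hk hψ
  have : 2 * ‖P‖ + ‖c.Ic j k ψ‖ ≤ 7 * c.Ep j k ψ := by unfold Ep at *; linarith
  have := mul_le_mul_of_nonneg_left this h0.le
  linarith

lemma coord_integral {j : ℕ} (k : Fin d → ℤ) {ψ : ℝ → ℝ} (hψ : Test d j ψ) {a : X d → X d}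
    (ha : Continuous a) :
    ∫ y in cube (dcorner j k) (dl j), ψ ‖y - c.x‖ * ⟪a y, vgrad c.f y⟫ =
      ∑ i, (∫ y in cube (dcorner j k) (dl j), (ψ ‖y - c.x‖ * a y i) • vgrad c.f y) i := by
  have e : ∀ i : Fin d,
      (∫ y in cube (dcorner j k) (dl j), (ψ ‖y - c.x‖ * a y i) • vgrad c.f y) i =
      ∫ y in cube (dcorner j k) (dl j), ψ ‖y - c.x‖ * a y i * vgrad c.f y i := by
    intro i
    have hi := c.integrableOn_test hψ.1 j k (a := fun y => a y i) (by fun_prop)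
    have := (EuclideanSpace.proj i : X d →L[ℝ] ℝ).integral_comp_comm hi
    simpa using this.symm
  simp only [e]
  rw [← integral_finsetSum _ fun i _ => ?_]
  · refine setIntegral_congr_fun (measurableSet_cube _ _) fun y _ => ?_
    rw [PiLp.inner_apply, Finset.mul_sum]
    refine Finset.sum_congr rfl fun i _ => ?_
    simp; ring
  · have hi := c.integrableOn_test hψ.1 j k (a := fun y => a y i) (by fun_prop)
    have := (EuclideanSpace.proj i : X d →L[ℝ] ℝ).integrable_comp hi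
    simpa [IntegrableOn] using this

lemma inner_moment_le {j : ℕ} (hj : j ≤ c.N) {k : Fin d → ℤ} (hk : k ∈ dbox d 8 j) {ψ : ℝ → ℝ}
    (hψ : Test d j ψ) {a : X d → X d} (hac : Continuous a) {h : ℝ} (hh : dl j ≤ h)
    (ha : ∀ y ∈ cube (dcorner j k) (dl j), ‖a y‖ ≤ h)
    (hal : ∀ y z, ‖a y - a z‖ ≤ ‖y - z‖) :
    |∫ y in cube (dcorner j k) (dl j), ψ ‖y - c.x‖ * ⟪a y, vgrad c.f y⟫| ≤
      7 * d * h * c.Ep j k ψ := by
  rw [c.coord_integral k hψ hac]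
  refine (Finset.abs_sum_le_sum_abs _ _).trans
    ((Finset.sum_le_sum fun i _ => (abs_coord_le _ i).trans
      (c.moment_le hj hk hψ (a := fun y => a y i) (by fun_prop) hh
        (fun y hy => (abs_coord_le _ i).trans (ha y hy))
        (fun y z => ?_))).trans (le_of_eq (by simp; ring)))
  have := abs_coord_le (a y - a z) i
  rw [PiLp.sub_apply] at this
  exact this.trans (hal y z)

/-- The deviation from a direction on a cube. -/
def hdev (j : ℕ) (k : Fin d → ℤ) (ν : X d) : ℝ :=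
  ‖udir c.x (dcen j k) - ν‖ + (5 * (d:ℝ) + 5) * dl j

lemma radial_lip (y z : X d) :
    ‖c.r⁻¹ • (y - c.x) - c.r⁻¹ • (z - c.x)‖ ≤ ‖y - z‖ := by
  rw [← smul_sub, sub_sub_sub_cancel_right, norm_smul, norm_inv,
    Real.norm_of_nonneg (by linarith [c.hr1])]
  exact mul_le_of_le_one_left (norm_nonneg _) (inv_le_one_of_one_le₀ c.hr1)

lemma dl_le_hdev (j : ℕ) (k : Fin d → ℤ) (ν : X d) : dl j ≤ c.hdev j k ν := by
  unfold hdev
  have h1 := dl_pos j
  have h2 := norm_nonneg (udir c.x (dcen j k) - ν)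
  nlinarith [mul_nonneg (Nat.cast_nonneg (α := ℝ) d) h1.le]

lemma norm_dev_le {j : ℕ} {k : Fin d → ℤ} (hk : k ∈ band c.x c.r j) (ν : X d) {y : X d}
    (hy : y ∈ cube (dcorner j k) (dl j)) : ‖ν - c.r⁻¹ • (y - c.x)‖ ≤ c.hdev j k ν := by
  have h1 := norm_radial_sub_udir c.hr1 (mem_band.1 hk).2 hy
  have h2 := norm_sub_le_norm_sub_add_norm_sub ν (udir c.x (dcen j k)) (c.r⁻¹ • (y - c.x))
  rw [norm_sub_rev ν (udir c.x (dcen j k)),
    norm_sub_rev (udir c.x (dcen j k)) (c.r⁻¹ • (y - c.x))] at h2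
  unfold hdev; linarith

/-- The bilinear expression is small where the directions agree. -/
lemma Kvec_le {j : ℕ} (hj : j ≤ c.N) {k : Fin d → ℤ} (hk : k ∈ band c.x c.r j) {ψ : ℝ → ℝ}
    (hψ : Test d j ψ) {ν : X d} (hν : ‖ν‖ = 1) :
    ‖∫ y in cube (dcorner j k) (dl j),
      ψ ‖y - c.x‖ • Kvec ν (ν - c.r⁻¹ • (y - c.x)) (vgrad c.f y)‖ ≤
      21 * d * c.hdev j k ν * c.Ep j k ψ := by
  have hkb : k ∈ dbox d 8 j := (mem_band.1 hk).1
  set Q := cube (dcorner j k) (dl j) with hQ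
  set h := c.hdev j k ν with hh
  set a : X d → X d := fun y => ν - c.r⁻¹ • (y - c.x) with ha
  have hac : Continuous a := by rw [ha]; fun_prop
  have hb : ∀ y ∈ Q, ‖a y‖ ≤ h := fun y hy => c.norm_dev_le hk ν hy
  have hal : ∀ y z, ‖a y - a z‖ ≤ ‖y - z‖ := fun y z => by
    simp only [ha]; rw [sub_sub_sub_cancel_left, norm_sub_rev y z]; exact c.radial_lip z y
  have hal' : ∀ y z, |⟪ν, a y⟫ - ⟪ν, a z⟫| ≤ ‖y - z‖ := fun y z => by
    rw [← inner_sub_right]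
    refine (abs_real_inner_le_norm _ _).trans ?_
    rw [hν, one_mul]; exact hal y z
  have hdl := c.dl_le_hdev j k ν
  have hv := continuous_vgrad c.hf
  have hψc : Continuous fun y : X d => ψ ‖y - c.x‖ := hψ.1.comp (by fun_prop)
  have i1 : IntegrableOn (fun y => (ψ ‖y - c.x‖ * ⟪a y, vgrad c.f y⟫) • ν) Q :=
    integrableOn_cube (v := fun y => (ψ ‖y - c.x‖ * ⟪a y, vgrad c.f y⟫) • ν)
      ((hψc.mul (hac.inner hv)).smul continuous_const) j k
  have i2 : IntegrableOn (fun y => (ψ ‖y - c.x‖ * ⟪ν, a y⟫) • vgrad c.f y) Q :=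
    integrableOn_cube (v := fun y => (ψ ‖y - c.x‖ * ⟪ν, a y⟫) • vgrad c.f y)
      ((hψc.mul (continuous_const.inner hac)).smul hv) j k
  have i3 : IntegrableOn (fun y => (ψ ‖y - c.x‖ * ⟪ν, vgrad c.f y⟫) • a y) Q :=
    integrableOn_cube (v := fun y => (ψ ‖y - c.x‖ * ⟪ν, vgrad c.f y⟫) • a y)
      ((hψc.mul (continuous_const.inner hv)).smul hac) j k
  have e : ∫ y in Q, ψ ‖y - c.x‖ • Kvec ν (a y) (vgrad c.f y) =
      (∫ y in Q, (ψ ‖y - c.x‖ * ⟪a y, vgrad c.f y⟫) • ν) +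
      (∫ y in Q, (ψ ‖y - c.x‖ * ⟪ν, a y⟫) • vgrad c.f y) -
      ∫ y in Q, (ψ ‖y - c.x‖ * ⟪ν, vgrad c.f y⟫) • a y := by
    rw [← integral_add i1 i2]
    erw [← integral_sub (i1.add i2) i3]
    refine setIntegral_congr_fun (measurableSet_cube _ _) fun y _ => ?_
    simp only [Kvec, Pi.add_apply]; module
  rw [e]
  refine (norm_sub_le _ _).trans ((add_le_add (norm_add_le _ _) le_rfl).trans ?_)
  have t1 : ‖∫ y in Q, (ψ ‖y - c.x‖ * ⟪a y, vgrad c.f y⟫) • ν‖ ≤ 7 * d * h * c.Ep j k ψ := by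
    rw [integral_smul_const, norm_smul, hν, mul_one]
    exact c.inner_moment_le hj hkb hψ hac hdl hb hal
  have t2 : ‖∫ y in Q, (ψ ‖y - c.x‖ * ⟪ν, a y⟫) • vgrad c.f y‖ ≤ 7 * d * h * c.Ep j k ψ := by
    refine (c.moment_le hj hkb hψ (a := fun y => ⟪ν, a y⟫) (by fun_prop) hdl
      (fun y hy => (abs_real_inner_le_norm _ _).trans (by rw [hν, one_mul]; exact hb y hy))
      hal').trans ?_
    have h0 : 0 ≤ h * c.Ep j k ψ :=
      mul_nonneg ((dl_pos j).le.trans hdl) (c.Ep_nonneg hj hkb hψ)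
    have : (1:ℝ) ≤ d := by exact_mod_cast c.hd
    nlinarith
  have t3 : ‖∫ y in Q, (ψ ‖y - c.x‖ * ⟪ν, vgrad c.f y⟫) • a y‖ ≤ 7 * d * h * c.Ep j k ψ := by
    have hc : ∀ i : Fin d, |(∫ y in Q, (ψ ‖y - c.x‖ * ⟪ν, vgrad c.f y⟫) • a y) i| ≤
        7 * h * c.Ep j k ψ := by
      intro i
      have h1 := (EuclideanSpace.proj i : X d →L[ℝ] ℝ).integral_comp_comm i3
      have hi := c.integrableOn_test hψ.1 j k (a := fun y => a y i) (by fun_prop)
      have h3 : ∫ y in Q, ⟪ν, (ψ ‖y - c.x‖ * a y i) • vgrad c.f y⟫ =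
          (∫ y in Q, (ψ ‖y - c.x‖ * ⟪ν, vgrad c.f y⟫) • a y) i := by
        refine Eq.trans ?_ (by simpa using h1)
        refine setIntegral_congr_fun (measurableSet_cube _ _) fun y _ => ?_
        simp [real_inner_smul_right]; ring
      rw [← h3, integral_inner hi]
      refine (abs_real_inner_le_norm _ _).trans ?_
      rw [hν, one_mul]
      refine c.moment_le hj hkb hψ (a := fun y => a y i) (by fun_prop) hdl
        (fun y hy => (abs_coord_le _ i).trans (hb y hy)) fun y z => ?_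
      have := abs_coord_le (a y - a z) i
      rw [PiLp.sub_apply] at this
      exact this.trans (hal y z)
    have h0 : 0 ≤ h * c.Ep j k ψ :=
      mul_nonneg ((dl_pos j).le.trans hdl) (c.Ep_nonneg hj hkb hψ)
    refine (norm_le_sqrt_mul (c := 7 * h * c.Ep j k ψ) (by linarith) hc).trans ?_
    have : Real.sqrt d ≤ d := by
      rw [Real.sqrt_le_iff]
      have : (1:ℝ) ≤ d := by exact_mod_cast c.hd
      constructor <;> nlinarith
    nlinarith
  linarith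

/-- The cone constant. -/
def fC (d : ℕ) : ℝ := 126 * ((d:ℝ) + 1) ^ 2

lemma radial_norm_le {j : ℕ} {k : Fin d → ℤ} (hk : k ∈ dbox d 8 j) {y : X d}
    (hy : y ∈ cube (dcorner j k) (dl j)) : ‖c.r⁻¹ • (y - c.x)‖ ≤ 18 * ((d:ℝ) + 1) := by
  rw [norm_smul, norm_inv, Real.norm_of_nonneg (by linarith [c.hr1])]
  refine (mul_le_of_le_one_left (norm_nonneg _) (inv_le_one_of_one_le₀ c.hr1)).trans ?_
  have h1 := norm_le_of_box hk hy
  have h2 : ‖c.x‖ ≤ (d:ℝ) + 1 := by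
    have := dist_cube_le zero_le_one c.hx (show (0 : X d) ∈ cube (0 : X d) 1 from fun i => by simp)
    simpa using this
  have := norm_sub_le y c.x
  have := Nat.cast_nonneg (α := ℝ) d
  linarith

/-- The radial flux on a cube. -/
def Fc (j : ℕ) (k : Fin d → ℤ) (ψ : ℝ → ℝ) : ℝ :=
  ∫ y in cube (dcorner j k) (dl j), ψ ‖y - c.x‖ * ⟪c.r⁻¹ • (y - c.x), vgrad c.f y⟫

lemma abs_Fc_le {j : ℕ} (hj : j ≤ c.N) {k : Fin d → ℤ} (hk : k ∈ dbox d 8 j) {ψ : ℝ → ℝ}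
    (hψ : Test d j ψ) : |c.Fc j k ψ| ≤ fC d * c.Ep j k ψ := by
  have h18 : dl j ≤ 18 * ((d:ℝ) + 1) := by
    have := dl_le_one j; have := Nat.cast_nonneg (α := ℝ) d; linarith
  refine (c.inner_moment_le hj hk hψ (a := fun y => c.r⁻¹ • (y - c.x)) (by fun_prop) h18
    (fun y hy => c.radial_norm_le hk hy) c.radial_lip).trans ?_
  refine mul_le_mul_of_nonneg_right ?_ (c.Ep_nonneg hj hk hψ)
  have := Nat.cast_nonneg (α := ℝ) d
  unfold fC; nlinarith

/-- The threshold for the cone. -/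
def sigC (d : ℕ) : ℝ := 1 / (16 * fC d)

lemma fC_pos (d : ℕ) : 0 < fC d := by unfold fC; positivity

lemma sigC_pos (d : ℕ) : 0 < sigC d := by have := fC_pos d; unfold sigC; positivity

/-- Near a direction inside the cone the flux has a sign. -/
lemma neg_Fc_le {j : ℕ} (hj : j ≤ c.N) {k : Fin d → ℤ} (hk : k ∈ band c.x c.r j) {ψ : ℝ → ℝ}
    (hψ : Test d j ψ) {ν : X d} (hν : ‖ν‖ = 1) (hσ : sigC d ≤ ⟪ν, c.e⟫)
    (hh : 14 * d * c.hdev j k ν ≤ sigC d) :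
    -c.Fc j k ψ ≤ 2 * cC d * c.bR j k := by
  have hkb : k ∈ dbox d 8 j := (mem_band.1 hk).1
  set h := c.hdev j k ν with hhdef
  have hdl := c.dl_le_hdev j k ν
  have hh0 : 0 ≤ h := (dl_pos j).le.trans hdl
  have hm := c.inner_moment_le hj hkb hψ (a := fun y => ν - c.r⁻¹ • (y - c.x)) (by fun_prop) hdl
    (fun y hy => c.norm_dev_le hk ν hy) (fun y z => by
      rw [sub_sub_sub_cancel_left, norm_sub_rev y z]; exact c.radial_lip z y)
  set κ := 7 * (d:ℝ) * h with hκ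
  have hκ0 : 0 ≤ κ := by positivity
  have hκ1 : 2 * κ ≤ sigC d := by rw [hκ]; linarith
  have hs1 : sigC d ≤ 1 := by
    unfold sigC
    have hf1 : (1:ℝ) ≤ fC d := by unfold fC; nlinarith [Nat.cast_nonneg (α := ℝ) d]
    rw [div_le_one (by linarith)]; linarith
  have hτ : ∀ X, bad (etaC d) c.e X = 0 → 0 ≤ ⟪ν - κ • c.e, X⟫ := by
    intro X hX
    rw [inner_sub_left, real_inner_smul_left]
    have h1 := good_of_bad_eq_zero hX
    have h2 : ⟪c.e, X⟫ ≤ ‖X‖ :=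
      ((abs_le.1 (abs_real_inner_le_norm _ _)).2).trans
        (mul_le_of_le_one_left (norm_nonneg _) c.he)
    have h3 : ‖X - ‖X‖ • c.e‖ ≤ Real.sqrt (2 * etaC d) * ‖X‖ := by
      rw [← Real.sqrt_sq (norm_nonneg X), ← Real.sqrt_mul (by have := etaC_pos d; positivity)]
      refine Real.le_sqrt_of_sq_le ?_
      rw [norm_sub_sq_real, real_inner_smul_right, norm_smul, Real.sqrt_sq (norm_nonneg X),
        Real.norm_of_nonneg (norm_nonneg _), real_inner_comm c.e X]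
      have he2 : ‖c.e‖ ^ 2 ≤ 1 := pow_le_one₀ (norm_nonneg _) c.he
      nlinarith [mul_le_mul_of_nonneg_left he2 (sq_nonneg ‖X‖),
        mul_le_mul_of_nonneg_left h1 (norm_nonneg X)]
    have h4 : ⟪ν, c.e⟫ * ‖X‖ - Real.sqrt (2 * etaC d) * ‖X‖ ≤ ⟪ν, X⟫ := by
      have := (abs_le.1 (abs_real_inner_le_norm ν (X - ‖X‖ • c.e))).1
      rw [hν, one_mul, inner_sub_right, real_inner_smul_right] at this
      linarith
    have h5 : Real.sqrt (2 * etaC d) ≤ sigC d / 2 := by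
      rw [Real.sqrt_le_iff]
      refine ⟨by linarith [sigC_pos d], ?_⟩
      have hd0 := Nat.cast_nonneg (α := ℝ) d
      unfold etaC sigC fC
      have hp : (1:ℝ) ≤ (d:ℝ) + 1 := by linarith
      set D := (d:ℝ) + 1
      rw [show (1 / (16 * (126 * D ^ 2)) / 2) ^ 2 = 1 / (4 * 2016 ^ 2 * D ^ 4) by
          field_simp; ring,
        mul_one_div, div_le_div_iff₀ (by positivity) (by positivity)]
      nlinarith [pow_le_pow_right₀ hp (show 4 ≤ 8 by norm_num), pow_pos (show 0 < D by linarith) 8,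
        pow_pos (show 0 < D by linarith) 4]
    nlinarith [mul_le_mul_of_nonneg_left h2 hκ0, mul_le_mul_of_nonneg_right h5 (norm_nonneg X),
      mul_le_mul_of_nonneg_right hσ (norm_nonneg X), mul_le_mul_of_nonneg_right hκ1 (norm_nonneg X)]
  have hn : ‖ν - κ • c.e‖ ≤ 4 := by
    refine (norm_sub_le _ _).trans ?_
    rw [hν, norm_smul, Real.norm_of_nonneg hκ0]
    nlinarith [mul_le_mul_of_nonneg_left c.he hκ0]
  have ht := c.test_bound hj hkb hτ hn (α := fun y => ψ ‖y - c.x‖) (fun _ _ => hψ.2.1 _)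
    (fun y _ z _ => c.test_lip hψ y z)
  rw [inner_sub_left, real_inner_smul_left] at ht
  have hint : IntegrableOn (fun y => ψ ‖y - c.x‖ • vgrad c.f y) (cube (dcorner j k) (dl j)) :=
    integrableOn_cube (v := fun y => ψ ‖y - c.x‖ • vgrad c.f y)
      ((hψ.1.comp (by fun_prop)).smul (continuous_vgrad c.hf)) j k
  have e : ∫ y in cube (dcorner j k) (dl j),
      ψ ‖y - c.x‖ * ⟪ν - c.r⁻¹ • (y - c.x), vgrad c.f y⟫ =
      ⟪ν, c.Ic j k ψ⟫ - c.Fc j k ψ := by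
    rw [Ic, ← integral_inner hint, Fc, ← integral_sub]
    · refine setIntegral_congr_fun (measurableSet_cube _ _) fun y _ => ?_
      simp only [inner_sub_left, real_inner_smul_right]; ring
    · exact (innerSL ℝ ν).integrable_comp hint
    · have := c.integrableOn_test hψ.1 j k (a := fun _ => 1) continuous_const
      refine ((hψ.1.comp (by fun_prop : Continuous fun y : X d => ‖y - c.x‖)).mul
        ((by fun_prop : Continuous fun y : X d => c.r⁻¹ • (y - c.x)).inner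
          (continuous_vgrad c.hf))).continuousOn.integrableOn_compact
        (isCompact_closedBall (dcorner j k) (((d:ℝ) + 1) * dl j)) |>.mono_set fun y hy => ?_
      rw [mem_closedBall, dist_eq_norm]
      exact dist_cube_le (dl_pos j).le hy fun i => ⟨le_rfl, by linarith [dl_pos j]⟩
  rw [e] at hm
  have hm' := (abs_le.1 hm).2
  have hE : ⟪c.e, c.Ic j k ψ⟫ = c.Ep j k ψ - 2 * cC d * c.bR j k := by
    simp [Ep, Ec]
  change -(cC d * c.bR j k) ≤ ⟪ν, c.Ic j k ψ⟫ - κ * ⟪c.e, c.Ic j k ψ⟫ at ht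
  rw [hE] at ht
  have hb0 := mul_nonneg (cC_pos d).le (c.bR_nonneg j k)
  nlinarith [mul_le_mul_of_nonneg_right (show 2 * κ ≤ 1 by linarith) hb0]

/-- The upper bound by the positive mass. -/
lemma Ec_le_gpos {j : ℕ} (hj : j ≤ c.N) {k : Fin d → ℤ} (hk : k ∈ dbox d 8 j) {ψ : ℝ → ℝ}
    (hψ : Test d j ψ) : c.Ec j k ψ ≤ gpos c.e c.f j k + cC d * c.bR j k := by
  have ht := c.test_bound hj hk (τ := c.e) (fun _ h => c.good_e h) (by linarith [c.he])
    (α := fun y => 1 - ψ ‖y - c.x‖)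
    (fun y _ => ⟨by linarith [(hψ.2.1 ‖y - c.x‖).2], by linarith [(hψ.2.1 ‖y - c.x‖).1]⟩)
    (fun y _ z _ => by
      rw [sub_sub_sub_cancel_left, abs_sub_comm]
      exact c.test_lip hψ y z)
  have e : ∫ y in cube (dcorner j k) (dl j), (1 - ψ ‖y - c.x‖) • vgrad c.f y =
      dint c.f j k - c.Ic j k ψ := by
    rw [dint, cint, ← show dl j = ((2:ℝ) ^ j)⁻¹ from rfl, Ic, ← integral_sub]
    · exact setIntegral_congr_fun (measurableSet_cube _ _) fun y _ => by simp [sub_smul]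
    · exact integrableOn_cube (continuous_vgrad c.hf) j k
    · exact integrableOn_cube (v := fun y => ψ ‖y - c.x‖ • vgrad c.f y)
        ((hψ.1.comp (by fun_prop)).smul (continuous_vgrad c.hf)) j k
  rw [e, inner_sub_right] at ht
  have : ⟪c.e, dint c.f j k⟫ ≤ gpos c.e c.f j k := le_max_left _ _
  unfold Ec
  linarith

/-- A test of a band vanishes off the band. -/
lemma zero_of_not_band {j : ℕ} {k : Fin d → ℤ} (hk : k ∈ dbox d 8 j) (hb : k ∉ band c.x c.r j)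
    {ψ : ℝ → ℝ} (hψ : ∀ t, 2 * dl j < |t - c.r| → ψ t = 0) {y : X d}
    (hy : y ∈ cube (dcorner j k) (dl j)) : ψ ‖y - c.x‖ = 0 := by
  refine hψ _ ?_
  have h1 := abs_norm_sub_dcen_le c.x hy
  have h2 : bw d j < |‖dcen j k - c.x‖ - c.r| := by
    by_contra h
    exact hb (mem_band.2 ⟨hk, not_lt.1 h⟩)
  have h3 := abs_sub_le ‖dcen j k - c.x‖ ‖y - c.x‖ c.r
  rw [abs_sub_comm ‖dcen j k - c.x‖ ‖y - c.x‖] at h3
  have h4 : 0 ≤ (d:ℝ) * dl j := mul_nonneg (Nat.cast_nonneg d) (dl_pos j).le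
  unfold bw at h2
  linarith [dl_pos j]

/-- The remainders of a band. -/
lemma sum_band_bR (j : ℕ) :
    ∑ k ∈ band c.x c.r j, c.bR j k ≤ bM c.e c.f c.N c.x c.r j + bandC d * c.rem0 := by
  simp only [bR, Finset.sum_add_distrib, Finset.sum_const, nsmul_eq_mul, bM]
  refine add_le_add le_rfl ?_
  have h := band_card c.hd c.x (show 0 ≤ c.r by linarith [c.hr1]) (by linarith [c.hr2]) j
  have h2 : dl j * 2 ^ j = 1 := by unfold dl; field_simp
  calc ((band c.x c.r j).card : ℝ) * (dl c.N * 2 ^ j * dl j ^ d * c.V0)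
      = ((band c.x c.r j).card : ℝ) * dl j ^ d * (2 ^ j * c.rem0) := by unfold rem0; ring
    _ ≤ bandC d * dl j * (2 ^ j * c.rem0) :=
        mul_le_mul_of_nonneg_right h (mul_nonneg (by positivity) c.rem0_nonneg)
    _ = bandC d * c.rem0 * (dl j * 2 ^ j) := by ring
    _ = bandC d * c.rem0 := by rw [h2, mul_one]

end Ctx

end Vale.Agent.P137.Centred
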