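import Vale.Agent.P137.Centred.Core.Chain

/-!
P137, centred operator: the gradient of an average at a maximising radius is in the cone, up to
error terms with gains.
-/

open MeasureTheory Metric Set Filter
open scoped ENNReal Topology RealInnerProductSpace

noncomputable section

namespace Vale.Agent.P137.Centred

variable {d : ℕ}

/-- The constant of the small bad mass case. -/
def goodC (d : ℕ) (Cq Bc : ℝ) : ℝ :=
  Ctx.coneC d * (4 * cC d * (2 * Bc + Ctx.rC d * Cq)) +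
    (2 + Ctx.coneC d) * (Ctx.rB d + 3 * bandC d) * Cq

/-- The constant of the main case. -/
def mainC (d : ℕ) (Cq Bc : ℝ) : ℝ :=
  chainC d * (4 + Cq + Bc + 3 * bandC d * Cq) + (1 + Ctx.coneC d) * Ctx.rB d * Cq

lemma goodC_nonneg {Cq Bc : ℝ} (h1 : 0 ≤ Cq) (h2 : 0 ≤ Bc) : 0 ≤ goodC d Cq Bc := by
  have := cC_pos d; have := Ctx.rC_nonneg d; have := bandC_nonneg d; have := Ctx.fC_pos d
  have : 0 < Ctx.coneC d := by unfold Ctx.coneC; positivity
  have : 0 ≤ Ctx.rB d := by unfold Ctx.rB; positivity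
  unfold goodC; positivity

lemma mainC_nonneg {Cq Bc : ℝ} (h1 : 0 ≤ Cq) (h2 : 0 ≤ Bc) : 0 ≤ mainC d Cq Bc := by
  have := chainC_nonneg d; have := bandC_nonneg d; have := Ctx.fC_pos d
  have : 0 < Ctx.coneC d := by unfold Ctx.coneC; positivity
  have : 0 ≤ Ctx.rB d := by unfold Ctx.rB; positivity
  unfold mainC; positivity

namespace Ctx

variable (c : Ctx d)

/-- The first level of the chain. -/
lemma exists_start {K0 : ℕ} (hN : K0 ≤ c.N) (lo up : ℝ) :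
    ∃ js, K0 ≤ js ∧ js ≤ c.N ∧ (∀ j, K0 ≤ j → j < js → ¬c.Inside lo up j) ∧
      (js < c.N → c.Inside lo up js) := by
  classical
  by_cases hex : ∃ j, K0 ≤ j ∧ j ≤ c.N ∧ c.Inside lo up j
  · refine ⟨Nat.find hex, (Nat.find_spec hex).1, (Nat.find_spec hex).2.1, fun j h1 h2 h3 =>
      Nat.find_min hex h2 ⟨h1, by have := (Nat.find_spec hex).2.1; omega, h3⟩,
      fun _ => (Nat.find_spec hex).2.2⟩
  · exact ⟨c.N, hN, le_rfl, fun j h1 h2 h3 => hex ⟨j, h1, h2.le, h3⟩,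
      fun h => absurd h (lt_irrefl _)⟩

/-- The restart level. -/
lemma exists_restart {js : ℕ} (hjs : js ≤ c.N) :
    ∃ i0, js ≤ i0 ∧ i0 ≤ c.N ∧
      (bS c.e c.f c.N c.x c.r (i0 + 1) ≤ epsC d * c.D i0 ∨ i0 = js) ∧
      ∀ l, i0 < l → l ≤ c.N → epsC d * c.D l < bS c.e c.f c.N c.x c.r (l + 1) := by
  classical
  set G := (Finset.Icc js c.N).filter
    (fun l => bS c.e c.f c.N c.x c.r (l + 1) ≤ epsC d * c.D l) ∪ {js} with hG
  have hGne : G.Nonempty := ⟨js, Finset.mem_union_right _ (Finset.mem_singleton_self _)⟩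
  refine ⟨G.max' hGne, G.le_max' js (Finset.mem_union_right _ (Finset.mem_singleton_self _)),
    ?_, ?_, fun l h1 h2 => ?_⟩
  · rcases Finset.mem_union.1 (G.max'_mem hGne) with h | h
    · exact (Finset.mem_Icc.1 (Finset.mem_filter.1 h).1).2
    · rw [Finset.mem_singleton.1 h]; exact hjs
  · rcases Finset.mem_union.1 (G.max'_mem hGne) with h | h
    · exact Or.inl (Finset.mem_filter.1 h).2
    · exact Or.inr (Finset.mem_singleton.1 h)
  · have hjl : js ≤ G.max' hGne :=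
      G.le_max' js (Finset.mem_union_right _ (Finset.mem_singleton_self _))
    by_contra hc'
    push Not at hc'
    have hl : l ∈ G := Finset.mem_union_left _
      (Finset.mem_filter.2 ⟨Finset.mem_Icc.2 ⟨by omega, h2⟩, hc'⟩)
    have := G.le_max' l hl
    omega

lemma good_bound (hN1 : 1 ≤ c.N) {Cq Bc ER B : ℝ} (h1 : 0 ≤ Cq) (h2 : 0 ≤ Bc) (hER : 0 ≤ ER)
    (hr : (c.N:ℝ) * c.rem0 ≤ Cq * ER) (hr' : c.rem0 ≤ Cq * ER)
    (hB : B ≤ 2 * Bc * ER) (h : bS c.e c.f c.N c.x c.r c.N ≤ 2 * epsC d * c.D c.N + B) :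
    ‖c.Iv c.ballW‖ + |c.Fl c.ballW| -
      coneC d * (⟪c.e, c.Iv c.ballW⟫ - lamC d * |c.Fl c.ballW|) ≤
      (goodC d Cq Bc + mainC d Cq Bc) * ER := by
  refine (c.good_case hN1 h).trans ?_
  have hc := cC_pos d
  have hf := fC_pos d
  have hC : 0 < coneC d := by unfold coneC; positivity
  have hb := bandC_nonneg d
  have hrB : 0 ≤ rB d := by unfold rB; positivity
  have a1 := mul_le_mul_of_nonneg_left hr (rC_nonneg d)
  have a2 := mul_le_mul_of_nonneg_left (add_le_add hB a1)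
    (show (0:ℝ) ≤ coneC d * (4 * cC d) by positivity)
  have a3 := mul_le_mul_of_nonneg_left hr'
    (show (0:ℝ) ≤ (2 + coneC d) * (rB d + 3 * bandC d) by positivity)
  have a4 : 0 ≤ mainC d Cq Bc * ER := mul_nonneg (mainC_nonneg h1 h2) hER
  unfold goodC
  linarith

lemma main_bound (hN1 : 1 ≤ c.N) {Cq Bc ER E : ℝ} (h1 : 0 ≤ Cq) (h2 : 0 ≤ Bc) (hER : 0 ≤ ER)
    (hr' : c.rem0 ≤ Cq * ER) (hE : E ≤ (4 + Cq) * ER) (hT : c.Fl c.ballW = 0)
    (h : ‖c.Iv (c.w c.N)‖ - coneC d * ⟪c.e, c.Iv (c.w c.N)⟫ ≤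
      chainC d * (E + Bc * ER + |c.Fl (c.w c.N)|)) :
    ‖c.Iv c.ballW‖ + |c.Fl c.ballW| -
      coneC d * (⟪c.e, c.Iv c.ballW⟫ - lamC d * |c.Fl c.ballW|) ≤
      (goodC d Cq Bc + mainC d Cq Bc) * ER := by
  have hf := fC_pos d
  have hC : 0 < coneC d := by unfold coneC; positivity
  have hbC := bandC_nonneg d
  have hFN : |c.Fl (c.w c.N)| ≤ 3 * bandC d * c.rem0 := by
    have h := c.Fl_ball_sub (j := c.N) hN1
    rw [show dl c.N * c.V0 = c.rem0 from rfl, hT, zero_sub, abs_neg] at h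
    exact h
  have hIJ := c.Iv_ball_sub hN1
  have hrB : 0 ≤ rB d := by unfold rB; positivity
  have a1 : ‖c.Iv c.ballW‖ ≤ ‖c.Iv (c.w c.N)‖ + rB d * c.rem0 := by
    have := norm_le_norm_add_norm_sub (c.Iv (c.w c.N)) (c.Iv c.ballW)
    rw [norm_sub_rev] at this
    linarith
  have a3 : ⟪c.e, c.Iv (c.w c.N)⟫ - rB d * c.rem0 ≤ ⟪c.e, c.Iv c.ballW⟫ := by
    have h4 := (abs_le.1 (abs_real_inner_le_norm c.e (c.Iv c.ballW - c.Iv (c.w c.N)))).1
    have h5 := mul_le_mul_of_nonneg_right c.he (norm_nonneg (c.Iv c.ballW - c.Iv (c.w c.N)))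
    rw [inner_sub_right] at h4
    linarith
  rw [hT, abs_zero, mul_zero, sub_zero, add_zero]
  have b1 := mul_le_mul_of_nonneg_left a3 hC.le
  have b2 := mul_le_mul_of_nonneg_left hr' (show (0:ℝ) ≤ (1 + coneC d) * rB d by positivity)
  have b4 := mul_le_mul_of_nonneg_left
    (add_le_add (add_le_add hE (le_refl (Bc * ER)))
      (hFN.trans (mul_le_mul_of_nonneg_left hr' (by positivity)))) (chainC_nonneg d)
  have b5 : 0 ≤ goodC d Cq Bc * ER := mul_nonneg (goodC_nonneg h1 h2) hER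
  unfold mainC
  linarith

/-- The inequality before normalisation. -/
theorem reduced {K0 : ℕ} (hK02 : 2 ≤ K0) (hL : ∀ K, K0 ≤ K → Large d (capA d) K) {Cq : ℝ}
    (hCq0 : 0 ≤ Cq) (hCq : ∀ n : ℕ, ((n:ℝ) + 1) ^ 2 * dl n ≤ Cq * qq ^ n) (hN : K0 ≤ c.N)
    {lo up : ℝ} (hlo : lo ≤ c.r) (hup : c.r ≤ up)
    (hmax : ∀ t, lo ≤ t → t ≤ up → cavg c.f (c.x, t) ≤ cavg c.f (c.x, c.r)) :
    ‖c.Iv c.ballW‖ + |c.Fl c.ballW| -
      coneC d * (⟪c.e, c.Iv c.ballW⟫ - lamC d * |c.Fl c.ballW|) ≤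
      (goodC d Cq (2 * (qq ^ K0)⁻¹) + mainC d Cq (2 * (qq ^ K0)⁻¹)) * c.err K0 lo up := by
  set Bc := 2 * (qq ^ K0)⁻¹ with hBc
  set ER := c.err K0 lo up with hER
  have hq := qq_pos'
  have hBc0 : 0 ≤ Bc := by rw [hBc]; positivity
  have hN1 : 1 ≤ c.N := by omega
  have heps := epsC_pos d
  have hER0 : 0 ≤ ER := (c.err_parts K0 lo up).2.2.2.2
  have hrem := c.rem_le_err hCq0 hCq K0 lo up
  have h3 : (c.N:ℝ) ≤ ((c.N:ℝ) + 1) ^ 2 ∧ (1:ℝ) ≤ ((c.N:ℝ) + 1) ^ 2 := by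
    have h2 : (0:ℝ) ≤ c.N := Nat.cast_nonneg _
    constructor <;> nlinarith
  have hr : (c.N:ℝ) * c.rem0 ≤ Cq * ER :=
    (mul_le_mul_of_nonneg_right h3.1 c.rem0_nonneg).trans hrem
  have hr' : c.rem0 ≤ Cq * ER := (le_mul_of_one_le_left c.rem0_nonneg h3.2).trans hrem
  have hBER : 0 ≤ Bc * ER := mul_nonneg hBc0 hER0
  obtain ⟨js, hjs1, hjs2, hjs3, hjs4⟩ := c.exists_start hN lo up
  have hZ : bS c.e c.f c.N c.x c.r (js + 1) ≤ Bc * ER :=
    c.bS_le_err hK02 hlo hup (by omega) hN1 fun j hj1 hj2 => by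
      rcases le_or_gt j K0 with h | h
      · exact Or.inl h
      · exact Or.inr (hjs3 (j - 1) (by omega) (by omega))
  have hmonoS : bS c.e c.f c.N c.x c.r c.N ≤ bS c.e c.f c.N c.x c.r (c.N + 1) := by
    rw [c.bS_succ hN1]; linarith [c.bM_nonneg c.N]
  have hDN := mul_nonneg heps.le (c.D_nonneg (j := c.N) hN1 (by omega) hN1)
  rcases eq_or_lt_of_le hjs2 with hedge | hlt
  · refine c.good_bound hN1 hCq0 hBc0 hER0 hr hr' (B := Bc * ER) (by linarith) ?_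
    rw [hedge] at hZ
    linarith
  obtain ⟨i0, hi0js, hi0N, hbase, hrule⟩ := c.exists_restart hjs2
  have hbase' : bS c.e c.f c.N c.x c.r (i0 + 1) ≤ epsC d * c.D i0 ∨
      bS c.e c.f c.N c.x c.r (i0 + 1) ≤ Bc * ER := by
    rcases hbase with h | h
    · exact Or.inl h
    · exact Or.inr (by rw [h]; exact hZ)
  have hins := hjs4 hlt
  have hF : ∀ j, i0 ≤ j → j ≤ c.N → 0 ≤ c.Fl (c.w j) ∧ c.Fl (wp d c.r j) ≤ 0 := by
    intro j h1 h2
    obtain ⟨i1, i2⟩ := Inside.mono c (show js ≤ j by omega) hins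
    have hdl := dl_pos j
    have hdl2 := dl_le_half (show 1 ≤ j by omega)
    exact ⟨flux_wIn_nonneg c.hd c.hf c.x (by linarith [c.hr1]) hdl (by linarith [c.hr1])
        (hmax _ i1 (by linarith)),
      flux_outer_nonpos c.hd c.hf c.x (by linarith [c.hr1]) hdl (by linarith [c.hr1])
        (hmax _ (by linarith) i2)⟩
  by_cases hex : ∃ K, c.Sig i0 K
  swap
  · refine c.good_bound hN1 hCq0 hBc0 hER0 hr hr' (B := 2 * (Bc * ER)) (by linarith) ?_
    have h1 : bS c.e c.f c.N c.x c.r (c.N + 1) ≤ 2 * bS c.e c.f c.N c.x c.r (i0 + 1) := by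
      rcases eq_or_lt_of_le hi0N with h | h
      · rw [h]; linarith [c.bS_nonneg (c.N + 1)]
      · refine c.growth (by omega) (hL (i0 + 1) (by omega)) fun s hs hs' => ?_
        exact c.insig (i0 := i0) (by omega) (by omega) fun hh => hex ⟨s, hh⟩
    have h2 := mul_le_mul_of_nonneg_left
      (c.D_mono (i := i0) (j := c.N) (by omega) hi0N (by omega)) heps.le
    rcases hbase' with hb | hb <;> linarith
  have hT : c.Fl c.ballW = 0 := by
    have hdl := dl_pos js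
    have hs := slopeA_eq_zero c.hf c.x (r := c.r) (lo := lo) (up := up)
      (by linarith [hins.1]) (by linarith [hins.2]) hmax
    rw [c.slope_eq (by linarith [c.hr1])] at hs
    rcases mul_eq_zero.1 hs with h | h
    · exact absurd h (mul_ne_zero (volc_pos d).ne'
        (inv_ne_zero (pow_ne_zero _ (by linarith [c.hr1]))))
    · exact h
  exact c.main_bound hN1 hCq0 hBc0 hER0 hr' (c.sum_errK_le hCq0 hCq hK02 lo up) hT
    (c.chain (K0 := K0) ⟨hL, by omega, hF, hrule⟩ hBER hbase' hex)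

end Ctx

open Ctx in
/-- **The pointwise core.** -/
theorem pointwise {d : ℕ} (hd : 1 ≤ d) : Pointwise d := by
  obtain ⟨K0, hK02, hL⟩ := exists_large d (capA d)
  obtain ⟨Cq, hCq0, hCq⟩ := exists_sq_dl_le
  set W := goodC d Cq (2 * (qq ^ K0)⁻¹) + mainC d Cq (2 * (qq ^ K0)⁻¹) with hW
  have hBc : (0:ℝ) ≤ 2 * (qq ^ K0)⁻¹ := by have := qq_pos'; positivity
  have hW0 : 0 ≤ W := add_nonneg (goodC_nonneg hCq0 hBc) (mainC_nonneg hCq0 hBc)
  refine ⟨coneC d, volc d * W, K0, ?_, mul_nonneg (volc_pos d).le hW0, hK02,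
    fun f hf' e he N hN x hx r lo up hr1 hr2 hlo hup hmax V0 hV => ?_⟩
  · have := fC_pos d
    unfold coneC; linarith
  let c : Ctx d := ⟨f, e, N, x, r, V0, hd, hf', he, hx, hr1, hr2, hV⟩
  have hred := c.reduced hK02 hL hCq0 hCq hN hlo hup hmax
  have hr : 0 < c.r := by change 0 < r; linarith
  have hER0 : 0 ≤ c.err K0 lo up := (c.err_parts K0 lo up).2.2.2.2
  change ‖gradA c.f c.x c.r‖ + |slopeA c.f c.x c.r| -
    coneC d * (⟪c.e, gradA c.f c.x c.r⟫ - lamC d * |slopeA c.f c.x c.r|) ≤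
    volc d * W * c.err K0 lo up
  rw [c.grad_eq hr, c.slope_eq hr]
  have hk0 : 0 ≤ volc d * (c.r ^ d)⁻¹ := mul_nonneg (volc_pos d).le (by positivity)
  have hk1 : volc d * (c.r ^ d)⁻¹ ≤ volc d :=
    mul_le_of_le_one_right (volc_pos d).le (inv_le_one_of_one_le₀ (one_le_pow₀ c.hr1))
  rw [norm_smul, Real.norm_of_nonneg hk0, abs_mul, abs_of_nonneg hk0, real_inner_smul_right]
  have h1 := mul_le_mul_of_nonneg_left hred hk0
  have h2 := mul_le_mul_of_nonneg_right hk1 (mul_nonneg hW0 hER0)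
  rw [← hW] at h1
  linarith

end Vale.Agent.P137.Centred
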