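import Vale.Agent.P137.Centred.Core.Sweep
import Vale.Agent.P137.Centred.Core.Local

/-!
P137, centred operator: along dilations around a bad item, positive mass in the band away from
the item becomes deep mass.
-/

open MeasureTheory Metric Set Filter
open scoped ENNReal Topology RealInnerProductSpace

noncomputable section

namespace Vale.Agent.P137.Centred

variable {d : ℕ}

/-- Moving in a direction at an angle from the position increases the norm by less than the
length of the move. -/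
lemma norm_add_smul_le_of_angle {y z : X d} {th s : ℝ} (hs : 0 ≤ s) (hsy : s * ‖z‖ ≤ ‖y‖)
    (hth : 0 ≤ th) (hth1 : th ≤ 1) (hy : 0 < ‖y‖) (hz : 0 < ‖z‖)
    (h : th < ‖‖y‖⁻¹ • y - ‖z‖⁻¹ • z‖) :
    ‖y + s • z‖ ≤ ‖y‖ + s * ‖z‖ * (1 - th ^ 2 / 4) := by
  have hc : 0 ≤ 1 - th ^ 2 / 4 := by nlinarith
  have hang : ⟪y, z⟫ ≤ ‖y‖ * ‖z‖ * (1 - th ^ 2 / 2) := by
    have h2 : th ^ 2 ≤ ‖‖y‖⁻¹ • y - ‖z‖⁻¹ • z‖ ^ 2 := pow_le_pow_left₀ hth h.le 2
    rw [norm_sub_sq_real, norm_smul, norm_smul, norm_inv, norm_inv, norm_norm, norm_norm,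
      inv_mul_cancel₀ hy.ne', inv_mul_cancel₀ hz.ne', real_inner_smul_left,
      real_inner_smul_right] at h2
    have e : ‖y‖⁻¹ * (‖z‖⁻¹ * ⟪y, z⟫) = ⟪y, z⟫ / (‖y‖ * ‖z‖) := by field_simp
    rw [e] at h2
    have h3 : ⟪y, z⟫ / (‖y‖ * ‖z‖) ≤ 1 - th ^ 2 / 2 := by linarith
    rw [div_le_iff₀ (by positivity)] at h3
    linarith
  refine pow_le_pow_iff_left₀ (norm_nonneg _) (by positivity) two_ne_zero |>.1 ?_
  rw [norm_add_sq_real, real_inner_smul_right, norm_smul, Real.norm_of_nonneg hs]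
  have h4 := mul_le_mul_of_nonneg_left hang hs
  have h5 : 0 ≤ s * ‖z‖ * (th ^ 2 / 2) * (‖y‖ - s * ‖z‖) :=
    mul_nonneg (by positivity) (by linarith)
  nlinarith [sq_nonneg (s * ‖z‖ * (th ^ 2 / 4))]

/-- The threshold of far directions. -/
def rayTh (K : ℕ) : ℝ := qq ^ (3 * K) / 4

/-- The delay after which a far cube of the band is deep. -/
def delay (d K : ℕ) : ℝ := 2048 * (4 * (d:ℝ) + 4) * qq ^ (94 * K)

lemma delay_pos (d K : ℕ) : 0 < delay d K := by
  have := qqG_pos; unfold delay; positivity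

lemma delay_mul (d K : ℕ) : delay d K * rayTh K ^ 2 = 128 * bw d K := by
  unfold delay rayTh bw
  rw [dlG_eq_qq, div_pow, ← pow_mul]
  have e : qq ^ (100 * K) = qq ^ (94 * K) * qq ^ (3 * K * 2) := by rw [← pow_add]; congr 1; ring
  rw [e]; ring

lemma rayTh_mem (K : ℕ) : 0 ≤ rayTh K ∧ rayTh K ≤ 1 := by
  have h := qqG_pos
  have : qq ^ (3 * K) ≤ 1 := pow_le_one₀ h.le qqG_lt_one.le
  unfold rayTh; constructor <;> [positivity; linarith]

lemma bw_pred {K : ℕ} (hK : 1 ≤ K) : bw d (K - 1) = 2 * bw d K := by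
  obtain ⟨m, rfl⟩ := Nat.exists_eq_add_of_le' hK
  rw [Nat.add_sub_cancel, bw, bw, dl_succ]; ring

lemma exists_delay_small (d : ℕ) : ∃ K0 : ℕ, 1 ≤ K0 ∧ ∀ K, K0 ≤ K → delay d K ≤ 1 / 8 := by
  have hc : (0:ℝ) < 2048 * (4 * (d:ℝ) + 4) := by positivity
  obtain ⟨n, hn⟩ := exists_pow_lt_of_lt_one (show (0:ℝ) < 1 / 8 / (2048 * (4 * (d:ℝ) + 4)) by
    positivity) qqG_lt_one
  refine ⟨n + 1, by omega, fun K hK => ?_⟩
  have h1 : qq ^ (94 * K) ≤ qq ^ n :=
    pow_le_pow_of_le_one qqG_pos.le qqG_lt_one.le (by omega)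
  rw [lt_div_iff₀ hc] at hn
  have h2 := mul_le_mul_of_nonneg_left h1 hc.le
  unfold delay
  linarith

/-- A far cube of the band is deep after the delay. -/
lemma deep_of_far {K : ℕ} (hK : 1 ≤ K) (hD : delay d K ≤ 1 / 8) (p q z : X d) {t t' r r' : ℝ}
    (ht : 1 ≤ t) (ht2 : t ≤ 2) (htt : t + delay d K ≤ t') (hr : 1 ≤ r) (hr2 : r ≤ 2)
    (hp : |‖p - (p + t • z)‖ - r| ≤ bw d K) (hq : |‖q - (p + t • z)‖ - r| ≤ bw d (K - 1))
    (hp' : |‖p - (p + t' • z)‖ - r'| ≤ bw d K)
    (hfar : rayTh K < ‖udir (p + t • z) q - udir (p + t • z) p‖) :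
    ‖q - (p + t' • z)‖ + bw d (K - 1) < r' := by
  obtain ⟨hth0, hth1⟩ := rayTh_mem K
  have hmul := delay_mul d K
  have hD0 := delay_pos d K
  have hb0 := bw_pos d K
  have hth2 : rayTh K ^ 2 ≤ 1 := pow_le_one₀ hth0 hth1
  have hb : bw d K ≤ 1 / 1024 := by
    have := mul_le_mul_of_nonneg_left hth2 hD0.le
    linarith
  rw [bw_pred hK] at hq ⊢
  rw [sub_add_cancel_left, norm_neg, norm_smul, Real.norm_of_nonneg (by linarith)] at hp hp'
  set y := p + t • z - q with hy
  have eqy : q - (p + t • z) = -y := by rw [hy]; abel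
  rw [eqy, norm_neg] at hq
  have a := abs_le.1 hp
  have a' := abs_le.1 hp'
  have b := abs_le.1 hq
  have hz : 2 / 5 ≤ ‖z‖ := by nlinarith [norm_nonneg z]
  have hz' : ‖z‖ ≤ 3 := by nlinarith [norm_nonneg z]
  have hyp : 0 < ‖y‖ := by linarith
  have hang : rayTh K < ‖‖y‖⁻¹ • y - ‖z‖⁻¹ • z‖ := by
    have e1 : udir (p + t • z) q = -(‖y‖⁻¹ • y) := by
      rw [udir, eqy, norm_neg, smul_neg]
    have e2 : udir (p + t • z) p = -(‖z‖⁻¹ • z) := by
      rw [udir, sub_add_cancel_left, norm_neg, norm_smul, Real.norm_of_nonneg (by linarith),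
        smul_neg, smul_smul]
      congr 2
      field_simp
    rwa [e1, e2, neg_sub_neg, norm_sub_rev] at hfar
  have hstep := norm_add_smul_le_of_angle hD0.le
    (by nlinarith : delay d K * ‖z‖ ≤ ‖y‖) hth0 hth1 hyp (by linarith) hang
  have e : q - (p + t' • z) = -((y + delay d K • z) + (t' - t - delay d K) • z) := by
    rw [hy]; module
  rw [e, norm_neg]
  have h6 := norm_add_le (y + delay d K • z) ((t' - t - delay d K) • z)
  rw [norm_smul (t' - t - delay d K), Real.norm_of_nonneg (by linarith)] at h6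
  have h7 : 128 * bw d K * (2 / 5) ≤ delay d K * rayTh K ^ 2 * ‖z‖ := by
    rw [hmul]; exact mul_le_mul_of_nonneg_left hz (by linarith)
  nlinarith

/-- The cap of the ray term. -/
def rayCap (e : X d) (f : X d → ℝ) (N K : ℕ) : ℝ := (qq ^ (2 * K))⁻¹ * mu2 e f N K

lemma rayCap_nn (e : X d) (f : X d → ℝ) (N K : ℕ) : 0 ≤ rayCap e f N K := by
  have := qqG_pos
  exact mul_nonneg (by positivity) (mu2_nn _ _ _ _)

/-- The centres at which an item is in its band while the deep mass is small. -/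
def raySet (e : X d) (f : X d → ℝ) (N K : ℕ) (ρ : X d → ℝ) (k : Fin d → ℤ) : Set (X d) :=
  cube (0 : X d) 1 ∩ ({x | 1 ≤ ρ x} ∩ ({x | ρ x ≤ 2} ∩ ({x | inBand x (ρ x) K k} ∩
    {x | gDeep e f x (ρ x) (K - 1) ≤ rayCap e f N K})))

lemma measurableSet_raySet {e : X d} {f : X d → ℝ} {N K : ℕ} {ρ : X d → ℝ} (hρ : Measurable ρ)
    (k : Fin d → ℤ) : MeasurableSet (raySet e f N K ρ k) :=
  (measurableSet_cube _ _).inter ((measurableSet_le measurable_const hρ).inter
    ((measurableSet_le hρ measurable_const).inter ((measurableSet_inBand hρ K k).inter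
      (measurableSet_le (measurable_gDeep hρ _) measurable_const))))

/-- The integral of one item along dilations. -/
lemma lintegral_ray_line {K : ℕ} (hK : 1 ≤ K) (hD : delay d K ≤ 1 / 8) (e : X d) (f : X d → ℝ)
    (N : ℕ) (ρ : X d → ℝ) (k : Fin d → ℤ) (z : X d) :
    ∫⁻ t in Icc (1:ℝ) 2, (raySet e f N K ρ k).indicator (fun x => ENNReal.ofReal
        (min (gFar e f x (ρ x) (K - 1) (rayTh K) (udir x (dcen K k))) (rayCap e f N K)))
        (dcen K k + t • z) ≤
      (closedBall (0 : X d) 6).indicator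
        (fun _ => ENNReal.ofReal (4 * delay d K * rayCap e f N K)) z := by
  classical
  set p := dcen K k with hp
  set S := raySet e f N K ρ k with hS
  set B := rayCap e f N K with hB
  set D := delay d K with hDd
  have hD0 : 0 < D := delay_pos d K
  have hB0 : 0 ≤ B := rayCap_nn e f N K
  set T := {t : ℝ | t ∈ Icc (1:ℝ) 2 ∧ p + t • z ∈ S} with hT
  rcases T.eq_empty_or_nonempty with h0 | hne
  · refine le_trans (le_of_eq ?_) zero_le
    refine (setLIntegral_congr_fun measurableSet_Icc fun t ht => ?_).trans lintegral_zero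
    refine indicator_of_notMem (fun hm => ?_) _
    exact (eq_empty_iff_forall_notMem.1 h0 t) ⟨ht, hm⟩
  have hbdd : BddAbove T := ⟨2, fun t ht => ht.1.2⟩
  obtain ⟨u, hu, hlt⟩ := exists_lt_of_lt_csSup hne (show sSup T - D < sSup T by linarith)
  obtain ⟨hu1, hu2, hu3, hu4, hu5, hu6⟩ := hu
  have hz : z ∈ closedBall (0 : X d) 6 := by
    rw [mem_closedBall_zero_iff]
    have h := abs_le.1 (show |‖p - (p + u • z)‖ - ρ (p + u • z)| ≤ bw d K from hu5)
    rw [sub_add_cancel_left, norm_neg, norm_smul, Real.norm_of_nonneg (by linarith [hu1.1])] at h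
    have h8 : 128 * bw d K ≤ D := by
      rw [← delay_mul d K]
      exact mul_le_of_le_one_right hD0.le (pow_le_one₀ (rayTh_mem K).1 (rayTh_mem K).2)
    have h4 : ρ (p + u • z) ≤ 2 := hu4
    have h9 : ‖z‖ ≤ u * ‖z‖ := le_mul_of_one_le_left (norm_nonneg z) hu1.1
    linarith [bw_pos d K]
  rw [indicator_of_mem hz]
  set P := fun (a : Fin d → ℤ) (t : ℝ) => t ∈ T ∧ t + D ≤ u ∧
    a ∈ band (p + t • z) (ρ (p + t • z)) (K - 1) ∧
    rayTh K < ‖udir (p + t • z) (dcen (K - 1) a) - udir (p + t • z) p‖ with hPdef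
  set J := fun a : Fin d → ℤ =>
    if h : ∃ t, P a t then Icc (h.choose - D) (h.choose + D) else (∅ : Set ℝ) with hJ
  have hJm : ∀ a, MeasurableSet (J a) := fun a => by
    simp only [hJ]; split
    · exact measurableSet_Icc
    · exact MeasurableSet.empty
  have hJv : ∀ a, volume (J a) ≤ ENNReal.ofReal (2 * D) := fun a => by
    simp only [hJ]; split
    · rw [Real.volume_Icc]; exact le_of_eq (by ring_nf)
    · simp
  have hdeep : ∀ a, ∀ s ∈ T, ∀ t ∈ T, s + D ≤ t →
      a ∈ band (p + s • z) (ρ (p + s • z)) (K - 1) →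
      rayTh K < ‖udir (p + s • z) (dcen (K - 1) a) - udir (p + s • z) p‖ →
      a ∈ deep (p + t • z) (ρ (p + t • z)) (K - 1) := by
    rintro a s ⟨hs1, -, hs3, hs4, hs5, -⟩ t ⟨-, -, -, -, ht5, -⟩ hst ha hfar
    exact Finset.mem_filter.2 ⟨(mem_band.1 ha).1, deep_of_far hK hD p (dcen (K - 1) a) z hs1.1
      hs1.2 hst hs3 hs4 hs5 (mem_band.1 ha).2 ht5 hfar⟩
  have hmem : ∀ a t, P a t → t ∈ J a := by
    intro a t ht
    have hex : ∃ t, P a t := ⟨t, ht⟩
    simp only [hJ, dif_pos hex]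
    have hc := hex.choose_spec
    have hno : ∀ s s', P a s → P a s' → s + D ≤ s' → False := by
      intro s s' hs hs' hle
      have h1 := (Finset.mem_filter.1 (hdeep a s hs.1 s' hs'.1 hle hs.2.2.1 hs.2.2.2)).2
      have h2 := abs_le.1 (mem_band.1 hs'.2.2.1).2
      linarith
    constructor
    · by_contra hh
      push Not at hh
      exact hno t _ ht hc (by linarith)
    · by_contra hh
      push Not at hh
      exact hno _ t hc ht (by linarith)
  set Dp := deep (p + u • z) (ρ (p + u • z)) (K - 1) with hDp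
  have hpt : ∀ t ∈ Icc (1:ℝ) 2, S.indicator (fun x => ENNReal.ofReal
        (min (gFar e f x (ρ x) (K - 1) (rayTh K) (udir x p)) B)) (p + t • z) ≤
      (Icc (u - D) (u + D)).indicator (fun _ => ENNReal.ofReal B) t +
        ∑ a ∈ Dp, (J a).indicator (fun _ => ENNReal.ofReal (gpos e f (K - 1) a)) t := by
    intro t ht
    by_cases hm : p + t • z ∈ S
    swap
    · rw [indicator_of_notMem hm]; exact zero_le
    rw [indicator_of_mem hm]
    have htT : t ∈ T := ⟨ht, hm⟩
    have htle : t ≤ u + D := by linarith [le_csSup hbdd htT]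
    by_cases hlast : u - D ≤ t
    · rw [indicator_of_mem (show t ∈ Icc (u - D) (u + D) from ⟨hlast, htle⟩)]
      exact le_add_right (ENNReal.ofReal_le_ofReal (min_le_right _ _))
    · push Not at hlast
      refine le_trans (ENNReal.ofReal_le_ofReal (min_le_left _ _)) (le_add_left ?_)
      rw [gFar, ENNReal.ofReal_sum_of_nonneg fun a _ => gpos_nn _ _ _ _]
      refine le_trans (Finset.sum_le_sum fun a ha => ?_)
        (Finset.sum_le_sum_of_subset_of_nonneg (fun a ha => hdeep a t htT u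
          ⟨hu1, hu2, hu3, hu4, hu5, hu6⟩ (by linarith) (Finset.mem_filter.1 ha).1
          (Finset.mem_filter.1 ha).2) fun _ _ _ => zero_le)
      obtain ⟨ha1, ha2⟩ := Finset.mem_filter.1 ha
      rw [indicator_of_mem (hmem a t ⟨htT, by linarith, ha1, ha2⟩)]
  refine (setLIntegral_mono' measurableSet_Icc hpt).trans ?_
  refine (setLIntegral_le_lintegral _ _).trans ?_
  rw [lintegral_add_left (measurable_const.indicator measurableSet_Icc),
    lintegral_finsetSum _ fun a _ => measurable_const.indicator (hJm a),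
    lintegral_indicator_const measurableSet_Icc, Real.volume_Icc]
  have hdeep_le : ∑ a ∈ Dp, gpos e f (K - 1) a ≤ B := hu6
  calc ENNReal.ofReal B * ENNReal.ofReal (u + D - (u - D)) +
        ∑ a ∈ Dp, ∫⁻ t, (J a).indicator (fun _ => ENNReal.ofReal (gpos e f (K - 1) a)) t
      ≤ ENNReal.ofReal B * ENNReal.ofReal (2 * D) +
        ∑ a ∈ Dp, ENNReal.ofReal (gpos e f (K - 1) a) * ENNReal.ofReal (2 * D) := by
        refine add_le_add (le_of_eq (by ring_nf)) (Finset.sum_le_sum fun a _ => ?_)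
        rw [lintegral_indicator_const (hJm a)]
        exact mul_le_mul_right (hJv a) _
    _ ≤ ENNReal.ofReal B * ENNReal.ofReal (2 * D) + ENNReal.ofReal B * ENNReal.ofReal (2 * D) := by
        rw [← Finset.sum_mul, ← ENNReal.ofReal_sum_of_nonneg fun a _ => gpos_nn _ _ _ _]
        exact add_le_add le_rfl (mul_le_mul_left (ENNReal.ofReal_le_ofReal hdeep_le) _)
    _ = _ := by
        rw [← ENNReal.ofReal_mul hB0, ← ENNReal.ofReal_add (by positivity) (by positivity)]
        ring_nf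

/-- The constant of the ray estimate. -/
def rayC (d : ℕ) : ℝ := 2 ^ d * dilC d * 4 * (2048 * (4 * (d:ℝ) + 4))

lemma rayC_nonneg (d : ℕ) : 0 ≤ rayC d := by
  have := dilC_nonneg d; unfold rayC; positivity

lemma rayC_eq (e : X d) (f : X d → ℝ) (N K : ℕ) :
    2 ^ d * (4 * delay d K * rayCap e f N K * dilC d) =
      rayC d * qq ^ (92 * K) * mu2 e f N K := by
  have h := qqG_pos
  have e2 : qq ^ (94 * K) = qq ^ (92 * K) * qq ^ (2 * K) := by rw [← pow_add]; congr 1; ring
  unfold rayC delay rayCap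
  rw [e2]
  field_simp

theorem rayEst (d : ℕ) : RayEst d := by
  classical
  obtain ⟨K0, hK0, hD⟩ := exists_delay_small d
  refine ⟨rayC d, K0, rayC_nonneg d, fun f _ e N K hK _ ρ hρ Ω hΩ hΩsub hρr => ?_⟩
  set g := fun k : Fin d → ℤ => (raySet e f N K ρ k).indicator fun x => ENNReal.ofReal
    (min (gFar e f x (ρ x) (K - 1) (rayTh K) (udir x (dcen K k))) (rayCap e f N K)) with hg
  have hgm : ∀ k, Measurable (g k) := fun k =>
    (((measurable_gFar hρ _ _ _).min measurable_const).ennreal_ofReal).indicator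
      (measurableSet_raySet hρ k)
  have hpt : ∀ x ∈ Ω, ENNReal.ofReal (rayTerm e f N x (ρ x) K) ≤
      ∑ k ∈ dbox d 8 K, ENNReal.ofReal (bwt e f N K k) * g k x := by
    intro x hx
    unfold rayTerm
    split
    · rename_i hP
      have hnn : ∀ k, 0 ≤ min (gFar e f x (ρ x) (K - 1) (qq ^ (3 * K) / 4) (udir x (dcen K k)))
          ((qq ^ (2 * K))⁻¹ * mu2 e f N K) := fun k =>
        le_min (Finset.sum_nonneg fun _ _ => gpos_nn _ _ _ _) (rayCap_nn _ _ _ _)
      rw [ENNReal.ofReal_sum_of_nonneg fun k _ => mul_nonneg (bwt_nn _ _ _ _ _) (hnn k)]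
      refine le_trans (Finset.sum_le_sum fun k hk => ?_)
        (Finset.sum_le_sum_of_subset_of_nonneg (Finset.filter_subset _ _) fun _ _ _ => zero_le)
      rw [ENNReal.ofReal_mul (bwt_nn _ _ _ _ _)]
      refine mul_le_mul_right (le_of_eq ?_) _
      have hmem : x ∈ raySet e f N K ρ k :=
        ⟨hΩsub hx, (hρr x hx).1, (hρr x hx).2, (mem_band.1 hk).2, hP⟩
      simp only [hg, indicator_of_mem hmem]
      rfl
    · simp
  refine (setLIntegral_mono' hΩ hpt).trans ((setLIntegral_le_lintegral _ _).trans ?_)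
  rw [lintegral_finsetSum _ fun k _ => (hgm k).const_mul _]
  rw [show rayC d * qq ^ (92 * K) * (bmu e f N K * mu2 e f N K) =
    ∑ k ∈ dbox d 8 K, bwt e f N K k * (rayC d * qq ^ (92 * K) * mu2 e f N K) by
      rw [← Finset.sum_mul, ← bmu]; ring]
  have hnn : 0 ≤ rayC d * qq ^ (92 * K) * mu2 e f N K :=
    mul_nonneg (mul_nonneg (rayC_nonneg d) (pow_nonneg qqG_pos.le _)) (mu2_nn _ _ _ _)
  rw [ENNReal.ofReal_sum_of_nonneg fun k _ => mul_nonneg (bwt_nn _ _ _ _ _) hnn]
  refine Finset.sum_le_sum fun k _ => ?_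
  rw [lintegral_const_mul _ (hgm k), ENNReal.ofReal_mul (bwt_nn _ _ _ _ _)]
  refine mul_le_mul_right ((lintegral_le_dilates (dcen K k) (hgm k)).trans ?_) _
  refine (mul_le_mul_right (lintegral_mono fun z =>
    lintegral_ray_line (hK0.trans hK) (hD K hK) e f N ρ k z) _).trans ?_
  rw [lintegral_indicator_const measurableSet_closedBall,
    ← ofReal_measureReal measure_closedBall_lt_top.ne,
    ← ENNReal.ofReal_mul (mul_nonneg (mul_nonneg (by norm_num) (delay_pos d K).le)
      (rayCap_nn _ _ _ _)), ← ENNReal.ofReal_mul (by positivity), ← dilC, rayC_eq]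

end Vale.Agent.P137.Centred
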