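import Vale.Agent.P137.Centred.Core.Pairs
import Vale.Agent.P137.Centred.Core.Pointwise
import Vale.Agent.P137.Centred.Core.Ray

/-!
P137, centred operator: the core estimate from the pointwise estimate and the geometry.
-/

open MeasureTheory Metric Set Filter
open scoped ENNReal Topology RealInnerProductSpace

noncomputable section

namespace Vale.Agent.P137.Centred

variable {d : ℕ} {e : X d} {f : X d → ℝ} {N : ℕ} {ρ : X d → ℝ} {Ω : Set (X d)}

lemma volume_le_one (hΩsub : Ω ⊆ cube (0 : X d) 1) : volume Ω ≤ 1 := by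
  refine (measure_mono hΩsub).trans (le_of_eq ?_)
  rw [volume_cube _ zero_le_one, one_pow, ENNReal.ofReal_one]

lemma setLIntegral_const_le (hΩsub : Ω ⊆ cube (0 : X d) 1) (a : ℝ≥0∞) :
    ∫⁻ _x in Ω, a ≤ a := by
  rw [setLIntegral_const]
  exact mul_le_of_le_one_right' (volume_le_one hΩsub)

lemma amgm_bound {C1 p b b' : ℝ} (hC1 : 0 ≤ C1) (hp : 0 < p) (hb : 0 ≤ b) (hb' : 0 ≤ b')
    (h : 0 < b + b') :
    0 ≤ 1 / (2 * (p * (b + b'))) ∧ 0 ≤ 1 / (2 * (p * (b + b'))) * (2 * C1 * p ^ 2 * (b * b')) ∧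
      0 ≤ p * (b + b') / 2 ∧
      1 / (2 * (p * (b + b'))) * (2 * C1 * p ^ 2 * (b * b')) + p * (b + b') / 2 ≤
        (2 * C1 + 1) * p * (b + b') := by
  refine ⟨by positivity, by positivity, by positivity, ?_⟩
  have e1 : 1 / (2 * (p * (b + b'))) * (2 * C1 * p ^ 2 * (b * b')) =
      C1 * p * (b * b' / (b + b')) := by field_simp
  have h3 : b * b' / (b + b') ≤ b + b' := by
    rw [div_le_iff₀ h]; nlinarith
  have h4 := mul_le_mul_of_nonneg_left h3 (mul_nonneg hC1 hp.le)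
  have h5 : 0 ≤ p * (b + b') := by positivity
  have h6 : 0 ≤ C1 * (p * (b + b')) := by positivity
  rw [e1]
  linarith

/-- The square root of a pair term is small on average. -/
lemma lintegral_sqrt_pairs_le {C1 : ℝ} (hC1 : 0 ≤ C1)
    (hpair : ∀ (f : X d → ℝ) (e : X d) (N j l : ℕ), 1 ≤ j → j ≤ l + 1 →
      ∀ (ρ : X d → ℝ), Measurable ρ → ∀ (Ω : Set (X d)), MeasurableSet Ω → Ω ⊆ cube 0 1 →
      (∀ x ∈ Ω, 1 ≤ ρ x ∧ ρ x ≤ 2) →
        ∫⁻ x in Ω, ENNReal.ofReal (pairs e f N x (ρ x) j l) ≤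
          ENNReal.ofReal (C1 * dl j * (bmu e f N j * bmu e f N l)))
    (hρ : Measurable ρ) (hΩ : MeasurableSet Ω) (hΩsub : Ω ⊆ cube (0 : X d) 1)
    (hρr : ∀ x ∈ Ω, 1 ≤ ρ x ∧ ρ x ≤ 2) {K j l : ℕ} (hK : 2 ≤ K) (hj : K - 1 ≤ j)
    (hl : K - 1 ≤ l) :
    ∫⁻ x in Ω, ENNReal.ofReal (Real.sqrt (pairs e f N x (ρ x) j l)) ≤
      ENNReal.ofReal ((2 * C1 + 1) * qq ^ (50 * K) * (bmu e f N j + bmu e f N l)) := by
  set b := bmu e f N j with hb
  set b' := bmu e f N l with hb'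
  have hb0 : 0 ≤ b := bmu_nn _ _ _ _
  have hb0' : 0 ≤ b' := bmu_nn _ _ _ _
  have hq := qqG_pos
  have hp50 : 0 < qq ^ (50 * K) := by positivity
  rcases eq_or_lt_of_le (add_nonneg hb0 hb0') with h0 | h0
  · have hz : b = 0 := le_antisymm (by linarith) hb0
    refine le_trans (le_of_eq ?_) zero_le
    refine (setLIntegral_congr_fun hΩ fun x _ => ?_).trans lintegral_zero
    have h1 := pairs_le (e := e) (f := f) (N := N) x (ρ x) j l
    rw [← hb, hz, zero_mul, mul_zero] at h1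
    rw [ENNReal.ofReal_eq_zero, le_antisymm h1 (pairs_nn _ _ _ _), Real.sqrt_zero]
  · have hdl : ∀ i, K - 1 ≤ i → dl i ≤ 2 * (qq ^ (50 * K)) ^ 2 := by
      intro i hi
      refine (dl_antitone hi).trans (le_of_eq ?_)
      obtain ⟨m, rfl⟩ := Nat.exists_eq_add_of_le' (show 1 ≤ K by omega)
      rw [Nat.add_sub_cancel, ← pow_mul, show 50 * (m + 1) * 2 = 100 * (m + 1) by ring,
        ← dlG_eq_qq, dl_succ]
      ring
    have hP : ∫⁻ x in Ω, ENNReal.ofReal (pairs e f N x (ρ x) j l) ≤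
        ENNReal.ofReal (2 * C1 * (qq ^ (50 * K)) ^ 2 * (b * b')) := by
      rcases le_total j (l + 1) with h | h
      · refine (hpair f e N j l (by omega) h ρ hρ Ω hΩ hΩsub hρr).trans
          (ENNReal.ofReal_le_ofReal ?_)
        calc C1 * dl j * (b * b') ≤ C1 * (2 * (qq ^ (50 * K)) ^ 2) * (b * b') := by
              gcongr; exact hdl j hj
          _ = _ := by ring
      · simp only [fun x => pairs_comm (e := e) (f := f) (N := N) x (ρ x) j l]
        refine (hpair f e N l j (by omega) (by omega) ρ hρ Ω hΩ hΩsub hρr).trans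
          (ENNReal.ofReal_le_ofReal ?_)
        calc C1 * dl l * (b' * b) ≤ C1 * (2 * (qq ^ (50 * K)) ^ 2) * (b' * b) := by
              gcongr; exact hdl l hl
          _ = _ := by ring
    set lm := qq ^ (50 * K) * (b + b') with hlm
    have hlm0 : 0 < lm := mul_pos hp50 h0
    have hpt : ∀ x, ENNReal.ofReal (Real.sqrt (pairs e f N x (ρ x) j l)) ≤
        ENNReal.ofReal (1 / (2 * lm)) * ENNReal.ofReal (pairs e f N x (ρ x) j l) +
          ENNReal.ofReal (lm / 2) := by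
      intro x
      have h1 := pairs_nn (e := e) (f := f) (N := N) x (ρ x) j l
      rw [← ENNReal.ofReal_mul (by positivity), ← ENNReal.ofReal_add (by positivity) (by positivity)]
      refine ENNReal.ofReal_le_ofReal ?_
      have h2 := sq_nonneg (Real.sqrt (pairs e f N x (ρ x) j l) - lm)
      rw [sub_sq, Real.sq_sqrt h1] at h2
      field_simp
      linarith
    refine (setLIntegral_mono' hΩ fun x _ => hpt x).trans ?_
    rw [lintegral_add_right _ measurable_const, lintegral_const_mul' _ _ ENNReal.ofReal_ne_top]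
    refine (add_le_add (mul_le_mul_right hP (ENNReal.ofReal (1 / (2 * lm))))
      (setLIntegral_const_le hΩsub (ENNReal.ofReal (lm / 2)))).trans ?_
    obtain ⟨n1, n2, n3, hle⟩ := amgm_bound hC1 hp50 hb0 hb0' h0
    rw [← ENNReal.ofReal_mul n1, ← ENNReal.ofReal_add n2 n3]
    exact ENNReal.ofReal_le_ofReal hle

/-- The pair terms of one level. -/
lemma lintegral_pairTerm_le {C1 : ℝ} (hC1 : 0 ≤ C1)
    (hpair : ∀ (f : X d → ℝ) (e : X d) (N j l : ℕ), 1 ≤ j → j ≤ l + 1 →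
      ∀ (ρ : X d → ℝ), Measurable ρ → ∀ (Ω : Set (X d)), MeasurableSet Ω → Ω ⊆ cube 0 1 →
      (∀ x ∈ Ω, 1 ≤ ρ x ∧ ρ x ≤ 2) →
        ∫⁻ x in Ω, ENNReal.ofReal (pairs e f N x (ρ x) j l) ≤
          ENNReal.ofReal (C1 * dl j * (bmu e f N j * bmu e f N l)))
    (hρ : Measurable ρ) (hΩ : MeasurableSet Ω) (hΩsub : Ω ⊆ cube (0 : X d) 1)
    (hρr : ∀ x ∈ Ω, 1 ≤ ρ x ∧ ρ x ≤ 2) {K : ℕ} (hK : 2 ≤ K) :
    ∫⁻ x in Ω, ENNReal.ofReal ((qq ^ (5 * K))⁻¹ * pairTerm e f N x (ρ x) K) ≤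
      ENNReal.ofReal (2 * (2 * C1 + 1) * ((3 * (K:ℝ) + 2) * qq ^ (41 * K)) *
        ∑ j ∈ Finset.Icc 1 N, qq ^ j * bmu e f N j) := by
  set I := Finset.Icc (K - 1) (min (3 * K + 1) N) with hI
  have hq := qqG_pos
  have hm : ∀ j l, Measurable fun x => ENNReal.ofReal (Real.sqrt (pairs e f N x (ρ x) j l)) :=
    fun j l => (measurable_pairs hρ j l).sqrt.ennreal_ofReal
  have hsplit : ∀ x, ENNReal.ofReal ((qq ^ (5 * K))⁻¹ * pairTerm e f N x (ρ x) K) =
      ENNReal.ofReal (qq ^ (5 * K))⁻¹ *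
        ∑ j ∈ I, ∑ l ∈ I, ENNReal.ofReal (Real.sqrt (pairs e f N x (ρ x) j l)) := by
    intro x
    rw [ENNReal.ofReal_mul (by positivity), pairTerm, ← hI, ENNReal.ofReal_sum_of_nonneg
      fun j _ => Finset.sum_nonneg fun l _ => Real.sqrt_nonneg _]
    congr 1
    exact Finset.sum_congr rfl fun j _ =>
      ENNReal.ofReal_sum_of_nonneg fun l _ => Real.sqrt_nonneg _
  simp only [hsplit]
  rw [lintegral_const_mul' _ _ ENNReal.ofReal_ne_top,
    lintegral_finsetSum _ fun j _ => Finset.measurable_fun_sum _ fun l _ => hm j l]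
  have hterm : ∀ j ∈ I, ∀ l ∈ I,
      ∫⁻ x in Ω, ENNReal.ofReal (Real.sqrt (pairs e f N x (ρ x) j l)) ≤
        ENNReal.ofReal ((2 * C1 + 1) * qq ^ (50 * K) * (bmu e f N j + bmu e f N l)) :=
    fun j hj l hl => lintegral_sqrt_pairs_le hC1 hpair hρ hΩ hΩsub hρr hK
      (Finset.mem_Icc.1 hj).1 (Finset.mem_Icc.1 hl).1
  have hnn : ∀ j l, 0 ≤ (2 * C1 + 1) * qq ^ (50 * K) * (bmu e f N j + bmu e f N l) :=
    fun j l => mul_nonneg (by positivity) (add_nonneg (bmu_nn _ _ _ _) (bmu_nn _ _ _ _))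
  have hle : ∑ j ∈ I, ∫⁻ x in Ω, ∑ l ∈ I,
        ENNReal.ofReal (Real.sqrt (pairs e f N x (ρ x) j l)) ≤
      ∑ j ∈ I, ENNReal.ofReal (∑ l ∈ I,
        (2 * C1 + 1) * qq ^ (50 * K) * (bmu e f N j + bmu e f N l)) := by
    refine Finset.sum_le_sum fun j hj => ?_
    rw [lintegral_finsetSum _ fun l _ => hm j l,
      ENNReal.ofReal_sum_of_nonneg fun l _ => hnn j l]
    exact Finset.sum_le_sum (hterm j hj)
  refine (mul_le_mul_right hle (ENNReal.ofReal (qq ^ (5 * K))⁻¹)).trans ?_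
  rw [← ENNReal.ofReal_sum_of_nonneg fun j _ => Finset.sum_nonneg fun l _ => hnn j l,
    ← ENNReal.ofReal_mul (by positivity)]
  refine ENNReal.ofReal_le_ofReal ?_
  have hcard : (I.card : ℝ) ≤ 3 * (K:ℝ) + 2 := by
    have : I.card ≤ 3 * K + 2 := by rw [hI, Nat.card_Icc]; omega
    exact_mod_cast this
  have hsum : qq ^ (4 * K) * ∑ j ∈ I, bmu e f N j ≤ ∑ j ∈ Finset.Icc 1 N, qq ^ j * bmu e f N j := by
    rw [Finset.mul_sum]
    refine le_trans (Finset.sum_le_sum fun j hj => ?_)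
      (Finset.sum_le_sum_of_subset_of_nonneg (fun j hj => ?_) fun j _ _ =>
        mul_nonneg (by positivity) (bmu_nn _ _ _ _))
    · have hj2 := (Finset.mem_Icc.1 hj).2
      exact mul_le_mul_of_nonneg_right
        (pow_le_pow_of_le_one hq.le qqG_lt_one.le (by omega)) (bmu_nn _ _ _ _)
    · have hj' := Finset.mem_Icc.1 hj
      exact Finset.mem_Icc.2 ⟨by omega, by omega⟩
  have hS0 : 0 ≤ ∑ j ∈ Finset.Icc 1 N, qq ^ j * bmu e f N j :=
    Finset.sum_nonneg fun j _ => mul_nonneg (by positivity) (bmu_nn _ _ _ _)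
  have heq : (qq ^ (5 * K))⁻¹ * ∑ j ∈ I, ∑ l ∈ I,
        (2 * C1 + 1) * qq ^ (50 * K) * (bmu e f N j + bmu e f N l) =
      2 * (2 * C1 + 1) * qq ^ (41 * K) * ((I.card : ℝ) * (qq ^ (4 * K) * ∑ j ∈ I, bmu e f N j)) := by
    have e50 : qq ^ (50 * K) = qq ^ (5 * K) * (qq ^ (41 * K) * qq ^ (4 * K)) := by
      rw [← pow_add, ← pow_add]; congr 1; ring
    simp only [mul_add, Finset.sum_add_distrib, Finset.sum_const, nsmul_eq_mul, ← Finset.mul_sum]
    rw [e50]
    field_simp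
    ring
  rw [heq]
  calc 2 * (2 * C1 + 1) * qq ^ (41 * K) * ((I.card : ℝ) * (qq ^ (4 * K) * ∑ j ∈ I, bmu e f N j))
      ≤ 2 * (2 * C1 + 1) * qq ^ (41 * K) *
        ((3 * (K:ℝ) + 2) * ∑ j ∈ Finset.Icc 1 N, qq ^ j * bmu e f N j) := by
        refine mul_le_mul_of_nonneg_left (mul_le_mul hcard hsum ?_ (by positivity)) (by positivity)
        exact mul_nonneg (by positivity) (Finset.sum_nonneg fun j _ => bmu_nn _ _ _ _)
    _ = _ := by ring

lemma rayTerm_le (x : X d) (r : ℝ) (K : ℕ) :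
    rayTerm e f N x r K ≤ (qq ^ (2 * K))⁻¹ * mu2 e f N K * bmu e f N K := by
  classical
  have hB : 0 ≤ (qq ^ (2 * K))⁻¹ * mu2 e f N K := rayCap_nn _ _ _ _
  unfold rayTerm
  split
  · rw [mul_comm _ (bmu e f N K), bmu, Finset.sum_mul]
    refine le_trans (Finset.sum_le_sum fun k _ =>
      mul_le_mul_of_nonneg_left (min_le_right _ _) (bwt_nn _ _ _ _ _)) ?_
    exact Finset.sum_le_sum_of_subset_of_nonneg (Finset.filter_subset _ _) fun k _ _ =>
      mul_nonneg (bwt_nn _ _ _ _ _) hB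
  · exact mul_nonneg hB (bmu_nn _ _ _ _)

lemma rayTerm_nn (x : X d) (r : ℝ) (K : ℕ) : 0 ≤ rayTerm e f N x r K := by
  classical
  unfold rayTerm
  split
  · exact Finset.sum_nonneg fun k _ => mul_nonneg (bwt_nn _ _ _ _ _)
      (le_min (Finset.sum_nonneg fun _ _ => gpos_nn _ _ _ _) (rayCap_nn _ _ _ _))
  · exact le_rfl

/-- The ray terms of one level. -/
lemma lintegral_rayTerm_le {C2 : ℝ} {K1 : ℕ} (hC2 : 0 ≤ C2)
    (hray : ∀ (f : X d → ℝ), ContDiff ℝ 1 f → ∀ (e : X d) (N K : ℕ), K1 ≤ K →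
      K ≤ N → ∀ (ρ : X d → ℝ), Measurable ρ → ∀ (Ω : Set (X d)), MeasurableSet Ω → Ω ⊆ cube 0 1 →
      (∀ x ∈ Ω, 1 ≤ ρ x ∧ ρ x ≤ 2) →
        ∫⁻ x in Ω, ENNReal.ofReal (rayTerm e f N x (ρ x) K) ≤
          ENNReal.ofReal (C2 * qq ^ (92 * K) * (bmu e f N K * mu2 e f N K)))
    (hf : ContDiff ℝ 1 f) (hρ : Measurable ρ) (hΩ : MeasurableSet Ω)
    (hΩsub : Ω ⊆ cube (0 : X d) 1) (hρr : ∀ x ∈ Ω, 1 ≤ ρ x ∧ ρ x ≤ 2) {K : ℕ} (hKN : K ≤ N) :
    ∫⁻ x in Ω, ENNReal.ofReal ((qq ^ (4 * K) * mu2 e f N K)⁻¹ * rayTerm e f N x (ρ x) K) ≤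
      ENNReal.ofReal ((C2 + (qq ^ (7 * K1))⁻¹) * (qq ^ K * bmu e f N K)) := by
  have hq := qqG_pos
  have hm0 : 0 ≤ mu2 e f N K := mu2_nn _ _ _ _
  have hc : 0 ≤ (qq ^ (4 * K) * mu2 e f N K)⁻¹ := by positivity
  have hb0 : 0 ≤ bmu e f N K := bmu_nn _ _ _ _
  have hcancel : mu2 e f N K * (mu2 e f N K)⁻¹ ≤ 1 := mul_inv_le_one
  simp only [ENNReal.ofReal_mul hc]
  rw [lintegral_const_mul' _ _ ENNReal.ofReal_ne_top]
  rcases le_or_gt K1 K with h | h
  · refine (mul_le_mul_right (hray f hf e N K h hKN ρ hρ Ω hΩ hΩsub hρr) _).trans ?_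
    rw [← ENNReal.ofReal_mul hc]
    refine ENNReal.ofReal_le_ofReal ?_
    have e92 : qq ^ (92 * K) = qq ^ (4 * K) * qq ^ (88 * K) := by rw [← pow_add]; congr 1; ring
    calc (qq ^ (4 * K) * mu2 e f N K)⁻¹ * (C2 * qq ^ (92 * K) * (bmu e f N K * mu2 e f N K))
        = C2 * (qq ^ (88 * K) * bmu e f N K) * (mu2 e f N K * (mu2 e f N K)⁻¹) := by
          rw [e92, mul_inv]; field_simp
      _ ≤ C2 * (qq ^ (88 * K) * bmu e f N K) * 1 := mul_le_mul_of_nonneg_left hcancel (by positivity)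
      _ ≤ (C2 + (qq ^ (7 * K1))⁻¹) * (qq ^ K * bmu e f N K) := by
          rw [mul_one]
          refine mul_le_mul (le_add_of_nonneg_right (by positivity)) (mul_le_mul_of_nonneg_right
            (pow_le_pow_of_le_one hq.le qqG_lt_one.le (by omega)) hb0) (by positivity)
            (by positivity)
  · refine (mul_le_mul_right ((setLIntegral_mono' hΩ fun x _ => ENNReal.ofReal_le_ofReal
      (rayTerm_le x (ρ x) K)).trans (setLIntegral_const_le hΩsub _)) _).trans ?_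
    rw [← ENNReal.ofReal_mul hc]
    refine ENNReal.ofReal_le_ofReal ?_
    have e7 : qq ^ (7 * K) = qq ^ (4 * K) * qq ^ (2 * K) * qq ^ K := by
      rw [← pow_add, ← pow_add]; congr 1; ring
    calc (qq ^ (4 * K) * mu2 e f N K)⁻¹ * ((qq ^ (2 * K))⁻¹ * mu2 e f N K * bmu e f N K)
        = (qq ^ (7 * K))⁻¹ * (qq ^ K * bmu e f N K) * (mu2 e f N K * (mu2 e f N K)⁻¹) := by
          rw [e7, mul_inv]; field_simp
      _ ≤ (qq ^ (7 * K))⁻¹ * (qq ^ K * bmu e f N K) * 1 :=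
          mul_le_mul_of_nonneg_left hcancel (by positivity)
      _ ≤ (C2 + (qq ^ (7 * K1))⁻¹) * (qq ^ K * bmu e f N K) := by
          rw [mul_one]
          refine mul_le_mul_of_nonneg_right ?_ (by positivity)
          refine le_trans (inv_anti₀ (by positivity)
            (pow_le_pow_of_le_one hq.le qqG_lt_one.le (by omega))) (le_add_of_nonneg_left hC2)

lemma badMass_nn (η : ℝ) (e : X d) (f : X d → ℝ) (j : ℕ) : 0 ≤ badMass η e f j :=
  Finset.sum_nonneg fun _ _ => bad_nonneg _ _ _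

lemma sum_box_desc {j s : ℕ} (h : j ≤ s) (F : (Fin d → ℤ) → ℝ) :
    ∑ k ∈ dbox d 8 j, ∑ k' ∈ desc j s k, F k' = ∑ k' ∈ dbox d 8 s, F k' := by
  rw [← Finset.sum_fiberwise_of_maps_to (fun k' hk' => anc_mem_box h hk') F]
  refine Finset.sum_congr rfl fun k hk => Finset.sum_congr ?_ fun _ _ => rfl
  ext k'
  simp only [Finset.mem_filter, mem_desc, funext_iff, banc]
  exact ⟨fun h' => ⟨desc_subset_box h hk (mem_desc.2 h'), h'⟩, fun h' => h'.2⟩

lemma bmu_eq (e : X d) (f : X d → ℝ) (N j : ℕ) :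
    bmu e f N j = ∑ s ∈ Finset.Icc j N, ((2:ℝ) ^ (s - j))⁻¹ * badMass (etaC d) e f s := by
  unfold bmu bwt
  rw [Finset.sum_comm]
  refine Finset.sum_congr rfl fun s hs => ?_
  rw [← Finset.mul_sum, sum_box_desc (Finset.mem_Icc.1 hs).1 fun k' => bad (etaC d) e (dint f s k')]
  rfl

/-- The weighted bad masses are controlled by the bad masses. -/
lemma sum_bmu_le (e : X d) (f : X d → ℝ) (N : ℕ) :
    ∑ j ∈ Finset.Icc 1 N, qq ^ j * bmu e f N j ≤
      (1 - qq ^ 99)⁻¹ * ∑ s ∈ Finset.range (N + 1), qq ^ s * badMass (etaC d) e f s := by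
  have hq := qqG_pos
  have hw : ∀ m : ℕ, ((2:ℝ) ^ m)⁻¹ = qq ^ (100 * m) := fun m => dlG_eq_qq m
  simp only [bmu_eq, Finset.mul_sum]
  rw [Finset.sum_comm' (t' := Finset.Icc 1 N) (s' := fun s => Finset.Icc 1 s)
    (fun j s => by simp only [Finset.mem_Icc]; omega)]
  refine le_trans (Finset.sum_le_sum fun s hs => ?_)
    (Finset.sum_le_sum_of_subset_of_nonneg (fun s hs => ?_) fun s _ _ =>
      mul_nonneg (inv_nonneg.2 (sub_nonneg.2 (pow_le_one₀ hq.le qqG_lt_one.le)))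
        (mul_nonneg (by positivity) (badMass_nn _ _ _ _)))
  swap
  · have := Finset.mem_Icc.1 hs
    exact Finset.mem_range.2 (by omega)
  have hsum : ∑ j ∈ Finset.Icc 1 s, (qq ^ 99) ^ (s - j) ≤ (1 - qq ^ 99)⁻¹ := by
    have hlt : qq ^ 99 < 1 := pow_lt_one₀ hq.le qqG_lt_one (by norm_num)
    rw [← tsum_geometric_of_lt_one (by positivity) hlt,
      ← Finset.sum_image (f := fun m => (qq ^ 99) ^ m) (g := fun j => s - j)]
    · exact (summable_geometric_of_lt_one (by positivity) hlt).sum_le_tsum _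
        fun m _ => by positivity
    · intro a ha b hb hab
      simp only [Finset.coe_Icc, Set.mem_Icc] at ha hb
      simp only at hab
      omega
  refine le_trans (le_of_eq ?_) (mul_le_mul_of_nonneg_right hsum
    (mul_nonneg (pow_nonneg hq.le s) (badMass_nn (etaC d) e f s)))
  rw [Finset.sum_mul]
  refine Finset.sum_congr rfl fun j hj => ?_
  obtain ⟨m, rfl⟩ := Nat.exists_eq_add_of_le (Finset.mem_Icc.1 hj).2
  rw [Nat.add_sub_cancel_left, hw, ← pow_mul, pow_add,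
    show 100 * m = 99 * m + m by ring, pow_add]
  ring

lemma abs_clamp_le {g : X d → ℝ} {L : ℝ} (h : ∀ x y, |g x - g y| ≤ L * ‖x - y‖) (x y : X d) :
    |min (max (g x) (1 / 2)) 4 - min (max (g y) (1 / 2)) 4| ≤ L * ‖x - y‖ := by
  have h1 := abs_min_sub_min_le_max (max (g x) (1 / 2)) 4 (max (g y) (1 / 2)) 4
  have h2 := abs_max_sub_max_le_abs (g x) (g y) (1 / 2)
  rw [sub_self (4:ℝ), abs_zero, max_eq_left (abs_nonneg (max (g x) (1 / 2) - max (g y) (1 / 2)))] at h1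
  linarith [h x y]

/-- The core estimate follows from the pointwise estimate. -/
theorem coreEst_of_pointwise (hPW : Pointwise d) : CoreEst d := by
  classical
  obtain ⟨C1, hC1, hpair⟩ := pairEst d
  obtain ⟨C3, hC3, hsweep⟩ := sweepEst d
  obtain ⟨C2, K1, hC2, hray⟩ := rayEst d
  obtain ⟨C, C', K0, hC, hC', hK0, hpw⟩ := hPW
  have hq := qqG_pos
  have hq1 := qqG_lt_one
  have hS : Summable fun K : ℕ => (3 * (K:ℝ) + 2) * qq ^ (41 * K) := by
    have h41 : ‖qq ^ 41‖ < 1 := by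
      rw [Real.norm_of_nonneg (by positivity)]; exact pow_lt_one₀ hq.le hq1 (by norm_num)
    have h1 := (summable_pow_mul_geometric_of_norm_lt_one 1 h41).mul_left 3
    have h2 := (summable_geometric_of_norm_lt_one h41).mul_left 2
    refine (h1.add h2).congr fun K => ?_
    rw [pow_one, pow_mul]; ring
  set S := ∑' K : ℕ, (3 * (K:ℝ) + 2) * qq ^ (41 * K) with hSdef
  have hS0 : 0 ≤ S := tsum_nonneg fun K => by positivity
  set Cs := (1 - qq ^ 99)⁻¹ with hCs
  have hCs0 : 0 ≤ Cs := inv_nonneg.2 (sub_nonneg.2 (pow_le_one₀ hq.le hq1.le))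
  set A := 1 + 2 * C3 + 2 * (2 * C1 + 1) * S + (C2 + (qq ^ (7 * K1))⁻¹) with hA
  have hA0 : 0 ≤ A := by positivity
  refine ⟨etaC d, lamC d, qq, C, C' * (1 + A * Cs), etaC_pos d,
    lt_of_le_of_lt (etaC_le d) (by norm_num), lamC_pos d,
    lt_of_le_of_lt (lamC_le_half d) (by norm_num), hq, hq1, hC, by positivity, ?_⟩
  intro f hf e he lo up ρ hlo hup hρ Ω hΩ hΩsub hmax
  obtain ⟨V0, hV0⟩ := (isCompact_closedBall (0 : X d) (16 * (d:ℝ) + 16)).exists_bound_of_continuousOn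
    (continuous_vgrad hf).continuousOn
  have hV00 : 0 ≤ V0 := (norm_nonneg _).trans (hV0 0 (mem_closedBall_self (by positivity)))
  set el := fun x => min (max (lo x) (1 / 2)) 4 with hel
  set eu := fun x => min (max (up x) (1 / 2)) 4 with heu
  have hell : ∀ x y, |el x - el y| ≤ lamC d * ‖x - y‖ := abs_clamp_le hlo
  have heul : ∀ x y, |eu x - eu y| ≤ lamC d * ‖x - y‖ := abs_clamp_le hup
  have hrange : ∀ (g : X d → ℝ), ∀ x ∈ Ω,
      1 / 2 ≤ min (max (g x) (1 / 2)) 4 ∧ min (max (g x) (1 / 2)) 4 ≤ 4 := fun g x _ =>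
    ⟨le_min (le_max_right _ _) (by norm_num), min_le_right _ _⟩
  have hρr : ∀ x ∈ Ω, 1 ≤ ρ x ∧ ρ x ≤ 2 := fun x hx => ⟨(hmax x hx).1, (hmax x hx).2.1⟩
  set T := ∑' j : ℕ, ENNReal.ofReal (qq ^ j * badMass (etaC d) e f j) with hT
  have key : ∀ N, K0 ≤ N → ∫⁻ x in Ω, ENNReal.ofReal (‖gradA f x (ρ x)‖ + |slopeA f x (ρ x)| -
      C * (⟪e, gradA f x (ρ x)⟫ - lamC d * |slopeA f x (ρ x)|)) ≤
      ENNReal.ofReal (C' * (1 + A * Cs)) * (ENNReal.ofReal (qq ^ N * V0) + T) := by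
    intro N hN
    set Sb := ∑ j ∈ Finset.Icc 1 N, qq ^ j * bmu e f N j with hSb
    have hSb0 : 0 ≤ Sb := Finset.sum_nonneg fun j _ => mul_nonneg (by positivity) (bmu_nn _ _ _ _)
    set T0 := qq ^ N * V0 + Sb with hT0
    set P := fun K x => ENNReal.ofReal ((qq ^ (5 * K))⁻¹ * pairTerm e f N x (ρ x) K) with hP
    set R := fun K x => ENNReal.ofReal ((qq ^ (4 * K) * mu2 e f N K)⁻¹ * rayTerm e f N x (ρ x) K)
      with hR
    have hPm : ∀ K, Measurable (P K) := fun K =>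
      ((measurable_pairTerm hρ K).const_mul _).ennreal_ofReal
    have hRm : ∀ K, Measurable (R K) := fun K =>
      ((measurable_rayTerm hρ K).const_mul _).ennreal_ofReal
    set Sl := fun x => ENNReal.ofReal (sweepTerm e f N x (el x)) with hSl
    set Su := fun x => ENNReal.ofReal (sweepTerm e f N x (eu x)) with hSu
    have hSlm : Measurable Sl :=
      (measurable_sweepTerm (continuous_of_lam hell).measurable).ennreal_ofReal
    have hSum : Measurable Su :=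
      (measurable_sweepTerm (continuous_of_lam heul).measurable).ennreal_ofReal
    have hpt : ∀ x ∈ Ω, ENNReal.ofReal (‖gradA f x (ρ x)‖ + |slopeA f x (ρ x)| -
        C * (⟪e, gradA f x (ρ x)⟫ - lamC d * |slopeA f x (ρ x)|)) ≤ ENNReal.ofReal C' *
        (ENNReal.ofReal T0 + Sl x + Su x + ∑ K ∈ Finset.Icc K0 N, P K x +
          ∑ K ∈ Finset.Icc K0 N, R K x) := by
      intro x hx
      obtain ⟨h1, h2, h3, h4, h5⟩ := hmax x hx
      refine (ENNReal.ofReal_le_ofReal (hpw f hf e he N hN x (hΩsub hx) (ρ x) (lo x) (up x)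
        h1 h2 h3 h4 h5 V0 hV0)).trans ?_
      rw [ENNReal.ofReal_mul hC']
      refine mul_le_mul_right ?_ _
      refine ENNReal.ofReal_add_le.trans (add_le_add ?_ (le_of_eq ?_))
      · refine ENNReal.ofReal_add_le.trans (add_le_add ?_ (le_of_eq ?_))
        · refine ENNReal.ofReal_add_le.trans (add_le_add ?_ le_rfl)
          exact ENNReal.ofReal_add_le
        · exact ENNReal.ofReal_sum_of_nonneg fun K _ => mul_nonneg (by positivity)
            (Finset.sum_nonneg fun _ _ => Finset.sum_nonneg fun _ _ => Real.sqrt_nonneg _)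
      · exact ENNReal.ofReal_sum_of_nonneg fun K _ => mul_nonneg
          (inv_nonneg.2 (mul_nonneg (by positivity) (mu2_nn _ _ _ _))) (rayTerm_nn _ _ _)
    refine (setLIntegral_mono' hΩ hpt).trans ?_
    rw [lintegral_const_mul' _ _ ENNReal.ofReal_ne_top, ENNReal.ofReal_mul hC', mul_assoc]
    refine mul_le_mul_right ?_ _
    rw [lintegral_add_right _ (Finset.measurable_fun_sum _ fun K _ => hRm K),
      lintegral_add_right _ (Finset.measurable_fun_sum _ fun K _ => hPm K),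
      lintegral_add_right _ hSum, lintegral_add_right _ hSlm,
      lintegral_finsetSum _ fun K _ => hPm K, lintegral_finsetSum _ fun K _ => hRm K]
    have hdlb : ∑ j ∈ Finset.Icc 1 N, dl j * bmu e f N j ≤ Sb :=
      Finset.sum_le_sum fun j _ => mul_le_mul_of_nonneg_right (by
        rw [dlG_eq_qq]; exact pow_le_pow_of_le_one hq.le hq1.le (by omega)) (bmu_nn _ _ _ _)
    have iL : ∫⁻ x in Ω, Sl x ≤ ENNReal.ofReal (C3 * Sb) :=
      (hsweep f e N el hell Ω hΩ hΩsub (hrange lo)).trans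
        (ENNReal.ofReal_le_ofReal (mul_le_mul_of_nonneg_left hdlb hC3))
    have iU : ∫⁻ x in Ω, Su x ≤ ENNReal.ofReal (C3 * Sb) :=
      (hsweep f e N eu heul Ω hΩ hΩsub (hrange up)).trans
        (ENNReal.ofReal_le_ofReal (mul_le_mul_of_nonneg_left hdlb hC3))
    have iP : ∑ K ∈ Finset.Icc K0 N, ∫⁻ x in Ω, P K x ≤
        ENNReal.ofReal (2 * (2 * C1 + 1) * S * Sb) := by
      refine (Finset.sum_le_sum fun K hK => lintegral_pairTerm_le hC1 hpair hρ hΩ hΩsub hρr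
        (hK0.trans (Finset.mem_Icc.1 hK).1)).trans ?_
      rw [← ENNReal.ofReal_sum_of_nonneg fun K _ => by positivity, ← Finset.sum_mul,
        ← Finset.mul_sum]
      exact ENNReal.ofReal_le_ofReal (mul_le_mul_of_nonneg_right (mul_le_mul_of_nonneg_left
        (hS.sum_le_tsum _ fun K _ => by positivity) (by positivity)) hSb0)
    have iR : ∑ K ∈ Finset.Icc K0 N, ∫⁻ x in Ω, R K x ≤
        ENNReal.ofReal ((C2 + (qq ^ (7 * K1))⁻¹) * Sb) := by
      refine (Finset.sum_le_sum fun K hK => lintegral_rayTerm_le hC2 hray hf hρ hΩ hΩsub hρr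
        (Finset.mem_Icc.1 hK).2).trans ?_
      rw [← ENNReal.ofReal_sum_of_nonneg fun K _ => mul_nonneg (by positivity)
        (mul_nonneg (by positivity) (bmu_nn _ _ _ _)), ← Finset.mul_sum]
      refine ENNReal.ofReal_le_ofReal (mul_le_mul_of_nonneg_left
        (Finset.sum_le_sum_of_subset_of_nonneg (Finset.Icc_subset_Icc_left (by omega))
          fun j _ _ => mul_nonneg (by positivity) (bmu_nn _ _ _ _)) (by positivity))
    refine (add_le_add (add_le_add (add_le_add (add_le_add (setLIntegral_const_le hΩsub _) iL)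
      iU) iP) iR).trans ?_
    have hT00 : 0 ≤ T0 := add_nonneg (by positivity) hSb0
    have hC3S : 0 ≤ C3 * Sb := mul_nonneg hC3 hSb0
    have hPS : 0 ≤ 2 * (2 * C1 + 1) * S * Sb := mul_nonneg (by positivity) hSb0
    have hRS : 0 ≤ (C2 + (qq ^ (7 * K1))⁻¹) * Sb := mul_nonneg (by positivity) hSb0
    rw [← ENNReal.ofReal_add hT00 hC3S, ← ENNReal.ofReal_add (by positivity) hC3S,
      ← ENNReal.ofReal_add (by positivity) hPS, ← ENNReal.ofReal_add (by positivity) hRS]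
    set M := ∑ s ∈ Finset.range (N + 1), qq ^ s * badMass (etaC d) e f s with hM
    have hM0 : 0 ≤ M := Finset.sum_nonneg fun s _ => mul_nonneg (by positivity) (badMass_nn _ _ _ _)
    have hSbM : Sb ≤ Cs * M := sum_bmu_le e f N
    refine (ENNReal.ofReal_le_ofReal (q := (1 + A * Cs) * (qq ^ N * V0 + M)) ?_).trans ?_
    · have h6 := mul_le_mul_of_nonneg_left hSbM hA0
      have h7 : 0 ≤ A * Cs * (qq ^ N * V0) := by positivity
      rw [hT0]
      rw [hA] at h6 h7 ⊢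
      linarith
    · rw [ENNReal.ofReal_mul (by positivity), ENNReal.ofReal_add (by positivity) hM0, hM,
        ENNReal.ofReal_sum_of_nonneg fun s _ => mul_nonneg (by positivity) (badMass_nn _ _ _ _)]
      exact mul_le_mul_right (add_le_add le_rfl (ENNReal.sum_le_tsum _)) _
  have hlim : Tendsto (fun N : ℕ => ENNReal.ofReal (C' * (1 + A * Cs)) *
      (ENNReal.ofReal (qq ^ N * V0) + T)) atTop
      (𝓝 (ENNReal.ofReal (C' * (1 + A * Cs)) * (ENNReal.ofReal 0 + T))) := by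
    refine ENNReal.Tendsto.const_mul (Tendsto.add (ENNReal.tendsto_ofReal ?_) tendsto_const_nhds)
      (Or.inr ENNReal.ofReal_ne_top)
    simpa using (tendsto_pow_atTop_nhds_zero_of_lt_one hq.le hq1).mul_const V0
  rw [ENNReal.ofReal_zero, zero_add] at hlim
  exact ge_of_tendsto hlim (eventually_atTop.2 ⟨K0, key⟩)

/-- The core estimate. -/
theorem coreEst (hd : 1 ≤ d) : CoreEst d := coreEst_of_pointwise (pointwise hd)

end Vale.Agent.P137.Centred
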