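import Vale.Agent.P137.Centred.Core.Geo
import Vale.Agent.P137.Centred.Core.Far

/-!
P137, centred operator: two bad items are rarely both in the bands.
-/

open MeasureTheory Metric Set Filter
open scoped ENNReal Topology RealInnerProductSpace

noncomputable section

namespace Vale.Agent.P137.Centred

variable {d : ℕ}

/-- The volume of the ball used for averaging over translations. -/
def transC (d : ℕ) : ℝ := volume.real (closedBall (0 : X d) ((d:ℝ) + 1 + 1))

/-- The constant of one pair. -/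
def pairC (d : ℕ) : ℝ := (8 + 192 * transC d) * (4 * (d:ℝ) + 4)

lemma pairC_nonneg (d : ℕ) : 0 ≤ pairC d := by
  have : 0 ≤ transC d := measureReal_nonneg
  unfold pairC; positivity

lemma norm_le_of_unit_cube {x : X d} (hx : x ∈ cube (0 : X d) 1) : ‖x‖ ≤ (d:ℝ) + 1 := by
  have h0 : (0 : X d) ∈ cube (0 : X d) 1 := fun i => by simp
  simpa using dist_cube_le zero_le_one hx h0

lemma measurableSet_annuli (p q : X d) (W : ℝ) :
    MeasurableSet {x : X d | x ∈ cube (0 : X d) 1 ∧ ‖p - x‖ + ‖q - x‖ ≤ 8 ∧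
      |‖p - x‖ - ‖q - x‖| ≤ W} := by
  rw [Set.ofPred_and, Set.ofPred_and]
  exact (measurableSet_cube _ _).inter ((measurableSet_le (by fun_prop) measurable_const).inter
    (measurableSet_le (by fun_prop) measurable_const))

/-- Points almost equidistant from two points fill a thin slab. -/
lemma volume_annuli_le {p q : X d} (hpq : p ≠ q) {W : ℝ} (hW : 0 ≤ W) :
    volume {x : X d | x ∈ cube (0 : X d) 1 ∧ ‖p - x‖ + ‖q - x‖ ≤ 8 ∧
        |‖p - x‖ - ‖q - x‖| ≤ W} ≤
      ENNReal.ofReal (2 * (8 * W / ‖q - p‖) * transC d) := by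
  have hD : 0 < ‖q - p‖ := norm_pos_iff.2 (sub_ne_zero.2 hpq.symm)
  have hv : ‖‖q - p‖⁻¹ • (q - p)‖ ≤ 1 := by
    rw [norm_smul, norm_inv, norm_norm, inv_mul_cancel₀ hD.ne']
  refine (volume_le_translates (measurableSet_annuli p q W) (R := (d:ℝ) + 1)
    (fun x hx => norm_le_of_unit_cube hx.1) hv (w := 8 * W / ‖q - p‖) ?_).trans ?_
  · intro z s t hst hs ht
    have key : ∀ u : ℝ, z + u • (‖q - p‖⁻¹ • (q - p)) ∈
        {x : X d | x ∈ cube (0 : X d) 1 ∧ ‖p - x‖ + ‖q - x‖ ≤ 8 ∧
          |‖p - x‖ - ‖q - x‖| ≤ W} →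
        |‖p - z‖ ^ 2 - ‖q - z‖ ^ 2 + 2 * ‖q - p‖ * u| ≤ 8 * W := by
      rintro u ⟨-, h1, h2⟩
      set x := z + u • (‖q - p‖⁻¹ • (q - p)) with hx
      have e1 : ‖p - x‖ ^ 2 - ‖q - x‖ ^ 2 =
          ‖p - z‖ ^ 2 - ‖q - z‖ ^ 2 + 2 * ‖q - p‖ * u := by
        have ep : p - x = (p - z) - (u * ‖q - p‖⁻¹) • (q - p) := by rw [hx]; module
        have eq' : q - x = (q - z) - (u * ‖q - p‖⁻¹) • (q - p) := by rw [hx]; module
        rw [ep, eq', norm_sub_sq_real (p - z), norm_sub_sq_real (q - z), inner_smul_right,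
          inner_smul_right]
        have e2 : ⟪q - z, q - p⟫ - ⟪p - z, q - p⟫ = ‖q - p‖ ^ 2 := by
          rw [← inner_sub_left, sub_sub_sub_cancel_right, real_inner_self_eq_norm_sq]
        have e3 : ⟪q - z, q - p⟫ = ⟪p - z, q - p⟫ + ‖q - p‖ ^ 2 := by linarith
        rw [e3]
        field_simp
        ring
      rw [← e1, sq_sub_sq, abs_mul, abs_of_nonneg (by positivity), mul_comm]
      calc |‖p - x‖ - ‖q - x‖| * (‖p - x‖ + ‖q - x‖) ≤ W * 8 :=
            mul_le_mul h2 h1 (by positivity) hW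
        _ = _ := mul_comm _ _
    have a := abs_le.1 (key s hs)
    have b := abs_le.1 (key t ht)
    rw [le_div_iff₀ hD]
    nlinarith
  · rw [transC, ENNReal.ofReal_mul (p := 2 * (8 * W / ‖q - p‖)) (by positivity),
      ofReal_measureReal measure_closedBall_lt_top.ne]

/-- One pair. -/
lemma lintegral_pair_le (p q : X d) {j l : ℕ} (hjl : j ≤ l + 1) :
    ∃ G : X d → ℝ≥0∞, Measurable G ∧ ∫⁻ x in cube (0 : X d) 1, G x ≤
        ENNReal.ofReal (pairC d * dl j) ∧
      ∀ x ∈ cube (0 : X d) 1, ∀ r : ℝ, 1 ≤ r → r ≤ 2 → |‖p - x‖ - r| ≤ bw d j →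
        |‖q - x‖ - r| ≤ bw d l → ENNReal.ofReal ‖udir x p - udir x q‖ ≤ G x := by
  classical
  have hT : 0 ≤ transC d := measureReal_nonneg
  have hl : dl l ≤ 2 * dl j := by
    have := dl_antitone hjl
    rw [dl_succ] at this
    linarith
  have hbl : bw d l ≤ 2 * bw d j := by
    unfold bw
    have : (0:ℝ) ≤ 4 * (d:ℝ) + 4 := by positivity
    nlinarith
  have hbj := bw_pos d j
  have hC : pairC d * dl j = (8 + 192 * transC d) * bw d j := by unfold pairC bw; ring
  by_cases hbig : 1 / 4 ≤ bw d j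
  · refine ⟨fun _ => 2, measurable_const, ?_, fun x _ r _ _ _ _ => ?_⟩
    · rw [setLIntegral_const, volume_cube _ zero_le_one, one_pow, ENNReal.ofReal_one, mul_one,
        show (2:ℝ≥0∞) = ENNReal.ofReal 2 by norm_num, hC]
      exact ENNReal.ofReal_le_ofReal (by nlinarith)
    · refine le_trans (ENNReal.ofReal_le_ofReal (q := 2) ?_) (by norm_num)
      exact (by
        linarith [norm_sub_le (udir x p) (udir x q), udir_norm_le x p, udir_norm_le x q])
  · push Not at hbig
    refine ⟨{x : X d | x ∈ cube (0 : X d) 1 ∧ ‖p - x‖ + ‖q - x‖ ≤ 8 ∧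
        |‖p - x‖ - ‖q - x‖| ≤ 3 * bw d j}.indicator fun _ => ENNReal.ofReal (4 * ‖q - p‖),
      measurable_const.indicator (measurableSet_annuli _ _ _), ?_, ?_⟩
    · refine (setLIntegral_le_lintegral _ _).trans ?_
      rw [lintegral_indicator_const (measurableSet_annuli _ _ _)]
      by_cases hpq : p = q
      · simp [hpq]
      refine (mul_le_mul_right (volume_annuli_le hpq (by positivity)) _).trans ?_
      rw [← ENNReal.ofReal_mul (by positivity)]
      refine ENNReal.ofReal_le_ofReal ?_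
      have hD : 0 < ‖q - p‖ := norm_pos_iff.2 (sub_ne_zero.2 (Ne.symm hpq))
      rw [hC]
      field_simp
      nlinarith
    · intro x hx r hr1 hr2 h1 h2
      have a := abs_le.1 h1
      have b := abs_le.1 h2
      have hq : 1 / 2 ≤ ‖q - x‖ := by linarith
      rw [indicator_of_mem]
      · refine ENNReal.ofReal_le_ofReal ((udir_sub_le x p (by linarith)).trans ?_)
        rw [div_le_iff₀ (by linarith), norm_sub_rev p q]
        nlinarith [norm_nonneg (q - p)]
      · exact ⟨hx, by linarith, abs_le.2 ⟨by linarith, by linarith⟩⟩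

theorem pairEst (d : ℕ) : PairEst d := by
  classical
  refine ⟨pairC d, pairC_nonneg d, fun f e N j l _ hjl ρ hρ Ω hΩ hΩsub hρr => ?_⟩
  choose G hGm hGi hGb using fun (k k' : Fin d → ℤ) =>
    lintegral_pair_le (dcen j k) (dcen l k') hjl
  set w := fun k => bwt e f N j k
  set w' := fun k => bwt e f N l k
  have hpt : ∀ x ∈ Ω, ENNReal.ofReal (pairs e f N x (ρ x) j l) ≤
      ∑ k ∈ dbox d 8 j, ∑ k' ∈ dbox d 8 l, ENNReal.ofReal (w k * w' k') * G k k' x := by
    intro x hx
    have hnn : ∀ k k' : Fin d → ℤ, 0 ≤ bwt e f N j k * bwt e f N l k' := fun k k' =>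
      mul_nonneg (bwt_nn _ _ _ _ _) (bwt_nn _ _ _ _ _)
    rw [pairs, ENNReal.ofReal_sum_of_nonneg fun k _ => Finset.sum_nonneg fun k' _ =>
      mul_nonneg (hnn k k') (norm_nonneg _)]
    refine le_trans (Finset.sum_le_sum fun k hk => ?_)
      (Finset.sum_le_sum_of_subset_of_nonneg (Finset.filter_subset _ _) fun _ _ _ => zero_le)
    rw [ENNReal.ofReal_sum_of_nonneg fun k' _ => mul_nonneg (hnn k k') (norm_nonneg _)]
    refine le_trans (Finset.sum_le_sum fun k' hk' => ?_)
      (Finset.sum_le_sum_of_subset_of_nonneg (Finset.filter_subset _ _) fun _ _ _ => zero_le)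
    rw [ENNReal.ofReal_mul (hnn k k')]
    exact mul_le_mul_right
      (hGb k k' x (hΩsub hx) _ (hρr x hx).1 (hρr x hx).2 (mem_band.1 hk).2 (mem_band.1 hk').2) _
  refine (setLIntegral_mono' hΩ hpt).trans ?_
  rw [lintegral_finsetSum _ fun k _ => Finset.measurable_fun_sum _ fun k' _ =>
    (hGm k k').const_mul _]
  calc ∑ k ∈ dbox d 8 j, ∫⁻ x in Ω, ∑ k' ∈ dbox d 8 l, ENNReal.ofReal (w k * w' k') * G k k' x
      ≤ ∑ k ∈ dbox d 8 j, ∑ k' ∈ dbox d 8 l,
          ENNReal.ofReal (w k * w' k') * ENNReal.ofReal (pairC d * dl j) := by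
        refine Finset.sum_le_sum fun k _ => ?_
        rw [lintegral_finsetSum _ fun k' _ => (hGm k k').const_mul _]
        refine Finset.sum_le_sum fun k' _ => ?_
        rw [lintegral_const_mul _ (hGm k k')]
        exact mul_le_mul_right ((lintegral_mono_set hΩsub).trans (hGi k k')) _
    _ = _ := by
        have hw : ∀ k k', 0 ≤ w k * w' k' := fun k k' =>
          mul_nonneg (bwt_nn _ _ _ _ _) (bwt_nn _ _ _ _ _)
        have hp : 0 ≤ pairC d * dl j := mul_nonneg (pairC_nonneg d) (dl_pos j).le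
        simp only [← ENNReal.ofReal_mul (hw _ _)]
        simp only [← ENNReal.ofReal_sum_of_nonneg (fun k' _ => mul_nonneg (hw _ k') hp)]
        rw [← ENNReal.ofReal_sum_of_nonneg fun k _ => Finset.sum_nonneg fun k' _ =>
          mul_nonneg (hw k k') hp]
        congr 1
        rw [bmu, bmu, Finset.sum_mul_sum, Finset.mul_sum]
        refine Finset.sum_congr rfl fun k _ => ?_
        rw [Finset.mul_sum]
        exact Finset.sum_congr rfl fun k' _ => by simp only [w, w']; ring

end Vale.Agent.P137.Centred
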