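import Vale.Agent.P137.Centred.Core.Jump

/-!
P137, centred operator: error sums, the case of small bad mass, growth of cumulative bad masses.
-/

open MeasureTheory Metric Set Filter
open scoped ENNReal Topology RealInnerProductSpace

noncomputable section

namespace Vale.Agent.P137.Centred

variable {d : ℕ}

/-- Summation by parts. -/
lemma abel_sum {E : Type*} [AddCommGroup E] [Module ℝ E] (F : ℕ → ℝ) (v : ℕ → E) {a n : ℕ}
    (h : a < n) :
    ∑ j ∈ Finset.Ico a n, (F (j + 1) - F j) • v j =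
      F n • v (n - 1) - F a • v a + ∑ j ∈ Finset.Ico (a + 1) n, F j • (v (j - 1) - v j) := by
  induction n, h using Nat.le_induction with
  | base => simp [sub_smul]
  | succ n hn ih =>
    have hn' : a + 1 ≤ n := hn
    rw [Finset.sum_Ico_succ_top (by omega : a ≤ n), ih,
      Finset.sum_Ico_succ_top (by omega : a + 1 ≤ n)]
    simp only [Nat.add_sub_cancel, sub_smul, smul_sub]
    abel

lemma exists_large (d : ℕ) (A : ℝ) : ∃ K0 : ℕ, 2 ≤ K0 ∧ ∀ K, K0 ≤ K → Large d A K := by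
  have hq := qq_pos'
  have hq1 := qq_lt_one
  have ht : Tendsto (fun n : ℕ => qq ^ n) atTop (𝓝 0) :=
    tendsto_pow_atTop_nhds_zero_of_lt_one hq.le hq1
  have ev : ∀ (B b : ℝ), 0 < b → ∀ᶠ n : ℕ in atTop, B * qq ^ n ≤ b := fun B b hb => by
    have h := ht.const_mul B
    rw [mul_zero] at h
    exact h.eventually (Iic_mem_nhds hb)
  have hall : ∀ᶠ n : ℕ in atTop, (4 / (1 - qq)) * qq ^ n ≤ 1 ∧
      (2 * (4 * (d:ℝ) + 4)) * qq ^ n ≤ 1 / 2 ∧ (32 * ((d:ℝ) + 1)) * qq ^ n ≤ 1 ∧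
      A * qq ^ n ≤ 1 ∧ (28 * (d:ℝ)) * qq ^ n ≤ Ctx.sigC d :=
    (ev _ _ one_pos).and ((ev _ _ (by norm_num)).and ((ev _ _ one_pos).and
      ((ev _ _ one_pos).and (ev _ _ (Ctx.sigC_pos d)))))
  obtain ⟨K1, hK1⟩ := eventually_atTop.1 hall
  refine ⟨max K1 2, le_max_right _ _, fun K hK => ?_⟩
  obtain ⟨h1, h2, h3, h4, h5⟩ := hK1 K (le_of_max_le_left hK)
  have hK2 : 2 ≤ K := le_of_max_le_right hK
  have hdl : dl (K - 1) = 2 * qq ^ (100 * K) := by
    have h : 100 * K = 100 * (K - 1) + 100 := by omega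
    rw [h, pow_add, qq_pow_hundred, dl_eq_qq]; ring
  refine ⟨hK2, ?_, ?_, ?_, h4, ?_⟩
  · refine le_trans (le_of_eq ?_) h1; ring
  · rw [bw, hdl]
    have : qq ^ (100 * K) ≤ qq ^ K := pow_le_pow_of_le_one hq.le hq1.le (by omega)
    nlinarith [mul_le_mul_of_nonneg_left this (show (0:ℝ) ≤ 2 * (4 * (d:ℝ) + 4) by positivity)]
  · rw [hdl, show 100 * K = 97 * K + 3 * K by omega, pow_add]
    have : qq ^ (97 * K) ≤ qq ^ K := pow_le_pow_of_le_one hq.le hq1.le (by omega)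
    calc 16 * ((d:ℝ) + 1) * (2 * (qq ^ (97 * K) * qq ^ (3 * K)))
        = (32 * ((d:ℝ) + 1) * qq ^ (97 * K)) * qq ^ (3 * K) := by ring
      _ ≤ 1 * qq ^ (3 * K) := mul_le_mul_of_nonneg_right
          ((mul_le_mul_of_nonneg_left this (by positivity)).trans h3) (by positivity)
      _ = _ := one_mul _
  · refine le_trans ?_ h5
    exact mul_le_mul_of_nonneg_left (pow_le_pow_of_le_one hq.le hq1.le (by omega)) (by positivity)

lemma exists_sq_dl_le : ∃ C : ℝ, 0 ≤ C ∧ ∀ n : ℕ, ((n:ℝ) + 1) ^ 2 * dl n ≤ C * qq ^ n := by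
  have hq := qq_pos'
  set x := qq ^ 99 with hx
  have hx0 : 0 < x := by rw [hx]; positivity
  have hx1 : x < 1 := pow_lt_one₀ hq.le qq_lt_one (by norm_num)
  have h := (tendsto_pow_const_mul_const_pow_of_lt_one 2 hx0.le hx1).comp (tendsto_add_atTop_nat 1)
  obtain ⟨C, hC⟩ := h.bddAbove_range
  refine ⟨max C 0 / x, div_nonneg (le_max_right _ _) hx0.le, fun n => ?_⟩
  have h1 := hC ⟨n, rfl⟩
  simp only [Function.comp_apply, Nat.cast_add, Nat.cast_one, pow_succ x n] at h1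
  have e : dl n = x ^ n * qq ^ n := by
    rw [dl_eq_qq, hx, ← pow_mul, ← pow_add]; congr 1; ring
  rw [e, ← mul_assoc]
  refine mul_le_mul_of_nonneg_right ?_ (by positivity)
  rw [le_div_iff₀ hx0, mul_assoc]
  exact h1.trans (le_max_left _ _)

namespace Ctx

variable (c : Ctx d)

/-- The bracket of error terms. -/
def err (K0 : ℕ) (lo up : ℝ) : ℝ :=
  qq ^ c.N * c.V0 + (∑ j ∈ Finset.Icc 1 c.N, qq ^ j * bmu c.e c.f c.N j) +
    sweepTerm c.e c.f c.N c.x (min (max lo (1 / 2)) 4) +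
    sweepTerm c.e c.f c.N c.x (min (max up (1 / 2)) 4) +
    (∑ K ∈ Finset.Icc K0 c.N, (qq ^ (5 * K))⁻¹ * pairTerm c.e c.f c.N c.x c.r K) +
    ∑ K ∈ Finset.Icc K0 c.N,
      (qq ^ (4 * K) * mu2 c.e c.f c.N K)⁻¹ * rayTerm c.e c.f c.N c.x c.r K

lemma sweep_nonneg (t : ℝ) : 0 ≤ sweepTerm c.e c.f c.N c.x t :=
  Finset.sum_nonneg fun _ _ => Finset.sum_nonneg fun _ _ => c.bwt_nonneg _ _

lemma err_parts (K0 : ℕ) (lo up : ℝ) :
    0 ≤ qq ^ c.N * c.V0 ∧ 0 ≤ ∑ j ∈ Finset.Icc 1 c.N, qq ^ j * bmu c.e c.f c.N j ∧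
    0 ≤ ∑ K ∈ Finset.Icc K0 c.N, (qq ^ (5 * K))⁻¹ * pairTerm c.e c.f c.N c.x c.r K ∧
    0 ≤ ∑ K ∈ Finset.Icc K0 c.N,
      (qq ^ (4 * K) * mu2 c.e c.f c.N K)⁻¹ * rayTerm c.e c.f c.N c.x c.r K ∧
    0 ≤ c.err K0 lo up := by
  have hq := qq_pos'
  have h1 : 0 ≤ qq ^ c.N * c.V0 := mul_nonneg (by positivity) c.V0_nonneg
  have h2 : 0 ≤ ∑ j ∈ Finset.Icc 1 c.N, qq ^ j * bmu c.e c.f c.N j :=
    Finset.sum_nonneg fun j _ => mul_nonneg (by positivity) (c.bmu_nonneg j)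
  have h3 : 0 ≤ ∑ K ∈ Finset.Icc K0 c.N, (qq ^ (5 * K))⁻¹ * pairTerm c.e c.f c.N c.x c.r K :=
    Finset.sum_nonneg fun K _ => mul_nonneg (by positivity) (c.pairTerm_nonneg K)
  have h4 : 0 ≤ ∑ K ∈ Finset.Icc K0 c.N,
      (qq ^ (4 * K) * mu2 c.e c.f c.N K)⁻¹ * rayTerm c.e c.f c.N c.x c.r K :=
    Finset.sum_nonneg fun K _ => mul_nonneg
      (inv_nonneg.2 (mul_nonneg (by positivity) (c.mu2_nonneg K))) (c.rayTerm_nonneg K)
  refine ⟨h1, h2, h3, h4, ?_⟩
  have := c.sweep_nonneg (min (max lo (1 / 2)) 4)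
  have := c.sweep_nonneg (min (max up (1 / 2)) 4)
  unfold err; linarith

lemma rem_le_err {Cq : ℝ} (hCq0 : 0 ≤ Cq)
    (hCq : ∀ n : ℕ, ((n:ℝ) + 1) ^ 2 * dl n ≤ Cq * qq ^ n) (K0 : ℕ) (lo up : ℝ) :
    ((c.N:ℝ) + 1) ^ 2 * c.rem0 ≤ Cq * c.err K0 lo up := by
  obtain ⟨h1, h2, h3, h4, h5⟩ := c.err_parts K0 lo up
  calc ((c.N:ℝ) + 1) ^ 2 * c.rem0 = ((c.N:ℝ) + 1) ^ 2 * dl c.N * c.V0 := by unfold rem0; ring
    _ ≤ Cq * qq ^ c.N * c.V0 := mul_le_mul_of_nonneg_right (hCq c.N) c.V0_nonneg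
    _ = Cq * (qq ^ c.N * c.V0) := by ring
    _ ≤ _ := by
      refine mul_le_mul_of_nonneg_left ?_ hCq0
      have := c.sweep_nonneg (min (max lo (1 / 2)) 4)
      have := c.sweep_nonneg (min (max up (1 / 2)) 4)
      unfold err; linarith

lemma sum_errK_le {Cq : ℝ} (hCq0 : 0 ≤ Cq)
    (hCq : ∀ n : ℕ, ((n:ℝ) + 1) ^ 2 * dl n ≤ Cq * qq ^ n) {K0 : ℕ} (hK0 : 2 ≤ K0) (lo up : ℝ) :
    ∑ K ∈ Finset.Icc K0 c.N, c.errK K ≤ (4 + Cq) * c.err K0 lo up := by
  obtain ⟨h1, h2, h3, h4, h5⟩ := c.err_parts K0 lo up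
  have hq := qq_pos'
  have a1 : ∑ K ∈ Finset.Icc K0 c.N, qq ^ K * mu2 c.e c.f c.N K ≤
      2 * ∑ j ∈ Finset.Icc 1 c.N, qq ^ j * bmu c.e c.f c.N j := by
    simp only [mu2, mul_add, Finset.sum_add_distrib]
    rw [two_mul]
    refine add_le_add ?_ ?_
    · refine (Finset.sum_le_sum (g := fun K => qq ^ (K - 1) * bmu c.e c.f c.N (K - 1))
        fun K _ => mul_le_mul_of_nonneg_right
          (pow_le_pow_of_le_one hq.le qq_lt_one.le (Nat.sub_le _ _)) (c.bmu_nonneg _)).trans ?_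
      rw [← Finset.sum_image (g := fun K => K - 1)
        (f := fun j => qq ^ j * bmu c.e c.f c.N j)]
      · refine Finset.sum_le_sum_of_subset_of_nonneg (fun j hj => ?_)
          fun j _ _ => mul_nonneg (by positivity) (c.bmu_nonneg j)
        simp only [Finset.mem_image, Finset.mem_Icc] at hj ⊢
        obtain ⟨K, hK, rfl⟩ := hj
        omega
      · intro x hx y hy hxy
        simp only [Finset.coe_Icc, Set.mem_Icc] at hx hy
        simp only at hxy
        omega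
    · exact Finset.sum_le_sum_of_subset_of_nonneg (Finset.Icc_subset_Icc_left (by omega))
        fun j _ _ => mul_nonneg (by positivity) (c.bmu_nonneg j)
  have a2 : ∑ _K ∈ Finset.Icc K0 c.N, ((c.N:ℝ) + 1) * c.rem0 ≤ Cq * c.err K0 lo up := by
    refine le_trans ?_ (c.rem_le_err hCq0 hCq K0 lo up)
    rw [Finset.sum_const, nsmul_eq_mul, Nat.card_Icc, pow_two, mul_assoc]
    refine mul_le_mul_of_nonneg_right ?_ (mul_nonneg (by positivity) c.rem0_nonneg)
    have : c.N + 1 - K0 ≤ c.N + 1 := Nat.sub_le _ _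
    exact_mod_cast this
  have := c.sweep_nonneg (min (max lo (1 / 2)) 4)
  have := c.sweep_nonneg (min (max up (1 / 2)) 4)
  simp only [errK, Finset.sum_add_distrib]
  unfold err at a2 ⊢
  linarith

/-- The radius range contains the two tests of level `j`. -/
def Inside (lo up : ℝ) (j : ℕ) : Prop := lo ≤ c.r - dl j ∧ c.r + dl j ≤ up

lemma Inside.mono {lo up : ℝ} {i j : ℕ} (hij : i ≤ j) (h : c.Inside lo up i) :
    c.Inside lo up j := by
  have := dl_antitone hij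
  exact ⟨by linarith [h.1], by linarith [h.2]⟩

lemma bS_le_err {K0 : ℕ} {lo up : ℝ} (hK0 : 2 ≤ K0) (hlo : lo ≤ c.r) (hup : c.r ≤ up) {m : ℕ}
    (hmN : m ≤ c.N + 1) (hN : 1 ≤ c.N)
    (hsw : ∀ j, 1 ≤ j → j < m → j ≤ K0 ∨ ¬c.Inside lo up (j - 1)) :
    bS c.e c.f c.N c.x c.r m ≤ 2 * (qq ^ K0)⁻¹ * c.err K0 lo up := by
  classical
  obtain ⟨h1, h2, h3, h4, h5⟩ := c.err_parts K0 lo up
  have hq := qq_pos'
  set Q := ∑ j ∈ Finset.Icc 1 c.N, qq ^ j * bmu c.e c.f c.N j with hQ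
  set tl := min (max lo (1 / 2)) 4 with htl
  set tu := min (max up (1 / 2)) 4 with htu
  set S : ℝ → ℕ → ℝ := fun t j =>
    ∑ k ∈ (dbox d 8 j).filter (fun k => |‖dcen j k - c.x‖ - t| ≤ 4 * bw d j),
      bwt c.e c.f c.N j k with hS
  have hS0 : ∀ t j, 0 ≤ S t j := fun t j => Finset.sum_nonneg fun _ _ => c.bwt_nonneg _ _
  have hST : ∀ t, sweepTerm c.e c.f c.N c.x t = ∑ j ∈ Finset.Icc 1 c.N, S t j := fun t => by
    simp only [hS, sweepTerm]
  have hone := one_le_qq_inv_pow K0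
  have hterm : ∀ j ∈ Finset.Ico 1 m, bM c.e c.f c.N c.x c.r j ≤
      (qq ^ K0)⁻¹ * (qq ^ j * bmu c.e c.f c.N j) + S tl j + S tu j := by
    intro j hj
    rw [Finset.mem_Ico] at hj
    by_cases hjK : j ≤ K0
    · refine le_add_of_le_of_nonneg (le_add_of_le_of_nonneg ?_ (hS0 _ _)) (hS0 _ _)
      refine (c.bM_le_bmu j).trans ?_
      rw [← mul_assoc]
      refine le_mul_of_one_le_left (c.bmu_nonneg j) ?_
      rw [inv_mul_eq_div, one_le_div (pow_pos hq _)]
      exact pow_le_pow_of_le_one hq.le qq_lt_one.le hjK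
    have hni := (hsw j hj.1 hj.2).resolve_left hjK
    have hdl : dl (j - 1) = 2 * dl j := by
      obtain ⟨i, rfl⟩ := Nat.exists_eq_add_of_le' hj.1
      rw [Nat.add_sub_cancel, dl_succ]; ring
    have hdl2 : dl (j - 1) ≤ 1 / 2 := dl_le_half (by omega)
    have hbw : 2 * dl j ≤ 3 * bw d j := by
      unfold bw; nlinarith [dl_pos j, mul_nonneg (Nat.cast_nonneg (α := ℝ) d) (dl_pos j).le]
    have hq0 : 0 ≤ (qq ^ K0)⁻¹ * (qq ^ j * bmu c.e c.f c.N j) :=
      mul_nonneg (by positivity) (mul_nonneg (by positivity) (c.bmu_nonneg j))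
    have key : ∀ t, |c.r - t| ≤ 2 * dl j → bM c.e c.f c.N c.x c.r j ≤ S t j := by
      intro t ht
      refine Finset.sum_le_sum_of_subset_of_nonneg (fun k hk => ?_) fun _ _ _ => c.bwt_nonneg _ _
      obtain ⟨hk1, hk2⟩ := mem_band.1 hk
      refine Finset.mem_filter.2 ⟨hk1, ?_⟩
      have h3 := abs_sub_le ‖dcen j k - c.x‖ c.r t
      have hk3 : |‖dcen j k - c.x‖ - c.r| ≤ bw d j := hk2
      linarith
    unfold Inside at hni
    rw [not_and_or, not_le, not_le] at hni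
    rcases hni with h | h
    · have e : tl = lo := by
        rw [htl, max_eq_left (by linarith [c.hr1]), min_eq_left (by linarith [c.hr2])]
      have : bM c.e c.f c.N c.x c.r j ≤ S tl j := by
        refine key _ ?_
        rw [e, abs_of_nonneg (by linarith)]; linarith
      linarith [hS0 tu j]
    · have e : tu = up := by
        rw [htu, max_eq_left (by linarith [c.hr1]), min_eq_left (by linarith [c.hr2])]
      have : bM c.e c.f c.N c.x c.r j ≤ S tu j := by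
        refine key _ ?_
        rw [e, abs_of_nonpos (by linarith)]; linarith
      linarith [hS0 tl j]
  have hsum : ∑ j ∈ Finset.Ico 1 m, bM c.e c.f c.N c.x c.r j ≤
      (qq ^ K0)⁻¹ * Q + sweepTerm c.e c.f c.N c.x tl + sweepTerm c.e c.f c.N c.x tu := by
    refine (Finset.sum_le_sum hterm).trans ?_
    have hsub : Finset.Ico 1 m ⊆ Finset.Icc 1 c.N := fun j hj => by
      simp only [Finset.mem_Ico, Finset.mem_Icc] at hj ⊢; omega
    rw [hQ, Finset.mul_sum, hST, hST, ← Finset.sum_add_distrib, ← Finset.sum_add_distrib]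
    exact Finset.sum_le_sum_of_subset_of_nonneg hsub fun j _ _ => add_nonneg (add_nonneg
      (mul_nonneg (by positivity) (mul_nonneg (by positivity) (c.bmu_nonneg j))) (hS0 _ _)) (hS0 _ _)
  have hb1 : bmu c.e c.f c.N 1 ≤ (qq ^ K0)⁻¹ * Q := by
    refine le_trans ?_ (mul_le_mul_of_nonneg_left (Finset.single_le_sum
      (f := fun j => qq ^ j * bmu c.e c.f c.N j)
      (fun j _ => mul_nonneg (by positivity) (c.bmu_nonneg j))
      (Finset.mem_Icc.2 ⟨le_rfl, hN⟩)) (by positivity))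
    rw [← mul_assoc]
    refine le_mul_of_one_le_left (c.bmu_nonneg 1) ?_
    rw [inv_mul_eq_div, one_le_div (pow_pos hq _)]
    exact pow_le_pow_of_le_one hq.le qq_lt_one.le (by omega)
  have s1 := c.sweep_nonneg tl
  have s2 := c.sweep_nonneg tu
  have : bS c.e c.f c.N c.x c.r m ≤
      2 * ((qq ^ K0)⁻¹ * (Q + sweepTerm c.e c.f c.N c.x tl + sweepTerm c.e c.f c.N c.x tu)) := by
    unfold bS
    have := mul_le_mul_of_nonneg_right hone (add_nonneg s1 s2)
    linarith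
  refine this.trans ?_
  rw [mul_assoc]
  refine mul_le_mul_of_nonneg_left (mul_le_mul_of_nonneg_left ?_ (by positivity)) zero_le_two
  unfold err; rw [← htl, ← htu]; linarith

lemma slope_eq (hr : 0 < c.r) :
    slopeA c.f c.x c.r = volc d * (c.r ^ d)⁻¹ * c.Fl c.ballW := slopeA_eq c.x hr

lemma grad_eq (hr : 0 < c.r) :
    gradA c.f c.x c.r = (volc d * (c.r ^ d)⁻¹) • c.Iv c.ballW := gradA_eq c.x hr

/-- The truncation error of the ball. -/
def rB (d : ℕ) : ℝ := 3 * bandC d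

lemma Iv_ball_sub (hN : 1 ≤ c.N) : ‖c.Iv c.ballW - c.Iv (c.w c.N)‖ ≤ rB d * c.rem0 := by
  have hB : RWeight c.ballW := rweight_ball (by linarith [c.hr2])
  have i1 := hB.integrable (continuous_vgrad c.hf) c.x
  have i2 := (c.w_test hN).rweight.integrable (continuous_vgrad c.hf) c.x
  set u := c.Iv c.ballW - c.Iv (c.w c.N) with hu
  set z := ‖u‖⁻¹ • u with hz
  have hz1 : ‖z‖ ≤ 1 := by rw [hz, norm_smul, norm_inv, norm_norm]; exact inv_mul_le_one
  have h : |∫ y, (c.ballW ‖y - c.x‖ - c.w c.N ‖y - c.x‖) * ⟪z, vgrad c.f y⟫| ≤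
      3 * bandC d * (dl c.N * c.V0) := by
    refine c.shell_le (fun y hy => (abs_real_inner_le_norm _ _).trans ?_) hN
    have h1 := mul_le_mul hz1 (c.V0_bound hy) (norm_nonneg _) zero_le_one
    have h2 := c.V0_nonneg
    linarith
  have e : ∫ y, (c.ballW ‖y - c.x‖ - c.w c.N ‖y - c.x‖) * ⟪z, vgrad c.f y⟫ = ⟪z, u⟫ := by
    rw [hu, Iv, Iv, ← integral_sub i1 i2, ← integral_inner (i1.sub' i2)]
    exact integral_congr_ae (Eventually.of_forall fun y => by
      simp only [inner_sub_right, real_inner_smul_right]; ring)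
  rw [e, hz, real_inner_smul_left, real_inner_self_eq_norm_sq] at h
  have e2 : ‖u‖⁻¹ * ‖u‖ ^ 2 = ‖u‖ := by
    rcases eq_or_ne ‖u‖ 0 with h0 | h0
    · simp [h0]
    · field_simp
  rw [e2, abs_of_nonneg (norm_nonneg u)] at h
  exact h

lemma lam_fC : lamC d * fC d ≤ 1 / 4 := by
  unfold lamC fC
  rw [div_mul_eq_mul_div, one_mul, div_le_iff₀ (by positivity)]
  have h : (1:ℝ) ≤ (d:ℝ) + 1 := by linarith [Nat.cast_nonneg (α := ℝ) d]
  nlinarith [pow_le_pow_right₀ h (show 2 ≤ 4 by norm_num)]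

/-- The case of a small bad mass. -/
theorem good_case (hN : 1 ≤ c.N) {B : ℝ}
    (h : bS c.e c.f c.N c.x c.r c.N ≤ 2 * epsC d * c.D c.N + B) :
    ‖c.Iv c.ballW‖ + |c.Fl c.ballW| -
        coneC d * (⟪c.e, c.Iv c.ballW⟫ - lamC d * |c.Fl c.ballW|) ≤
      coneC d * (4 * cC d * (B + rC d * ((c.N:ℝ) * c.rem0))) +
        (2 + coneC d) * (rB d + 3 * bandC d) * c.rem0 := by
  have hc := cC_pos d
  have hf := fC_pos d
  have hC : 0 < coneC d := by unfold coneC; positivity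
  set J := c.Iv (c.w c.N)
  set F := c.Fl (c.w c.N)
  set D := c.D c.N with hD
  obtain ⟨hI, hF⟩ := c.norm_Iv_le (j := c.N) hN (by omega) hN
  have hD0 : 0 ≤ D := c.D_nonneg hN (by omega) hN
  have hIJ := c.Iv_ball_sub hN
  have hTF := c.Fl_ball_sub (j := c.N) hN
  rw [show dl c.N * c.V0 = c.rem0 from rfl] at hTF
  have h1 : ‖c.Iv c.ballW‖ ≤ 2 * D + rB d * c.rem0 := by
    have := norm_le_norm_add_norm_sub J (c.Iv c.ballW)
    rw [norm_sub_rev] at this
    linarith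
  have h2 : |c.Fl c.ballW| ≤ fC d * D + 3 * bandC d * c.rem0 := by
    have := abs_sub_abs_le_abs_sub (c.Fl c.ballW) F
    linarith
  have h3 : c.Eg c.N - rB d * c.rem0 ≤ ⟪c.e, c.Iv c.ballW⟫ := by
    have h4 := (abs_le.1 (abs_real_inner_le_norm c.e (c.Iv c.ballW - J))).1
    have h5 := mul_le_mul_of_nonneg_right c.he (norm_nonneg (c.Iv c.ballW - J))
    rw [inner_sub_right] at h4
    unfold Eg
    linarith
  have hEg := c.Eg_eq c.N
  have hBt : 4 * cC d * c.Bt c.N ≤ D / 32 + 4 * cC d * (B + rC d * ((c.N:ℝ) * c.rem0)) := by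
    have e : 4 * cC d * (2 * epsC d) ≤ 1 / 32 := by
      unfold epsC
      rw [show 4 * cC d * (2 * (1 / (256 * cC d * (1 + fC d)))) = 1 / (32 * (1 + fC d)) by
        field_simp; norm_num]
      exact one_div_le_one_div_of_le (by norm_num) (by linarith)
    have h6 := mul_le_mul_of_nonneg_left h (by positivity : (0:ℝ) ≤ 4 * cC d)
    have h7 := mul_le_mul_of_nonneg_right e hD0
    unfold Bt
    linarith
  have hlam : 0 < lamC d := by unfold lamC; positivity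
  have hl2 : lamC d * |c.Fl c.ballW| ≤ D / 4 + 3 * bandC d * c.rem0 := by
    have hl1 : lamC d ≤ 1 := by
      unfold lamC
      rw [div_le_one (by positivity)]
      have h : (1:ℝ) ≤ ((d:ℝ) + 1) ^ 4 := one_le_pow₀ (by linarith [Nat.cast_nonneg (α := ℝ) d])
      linarith
    have a := mul_le_mul_of_nonneg_left h2 hlam.le
    have b := mul_le_mul_of_nonneg_right (lam_fC (d := d)) hD0
    have e := mul_le_mul_of_nonneg_right hl1
      (mul_nonneg (mul_nonneg (by norm_num : (0:ℝ) ≤ 3) (bandC_nonneg d)) c.rem0_nonneg)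
    linarith
  have h7 : coneC d * (D / 2 - 4 * cC d * (B + rC d * ((c.N:ℝ) * c.rem0)) -
      (rB d + 3 * bandC d) * c.rem0) ≤
      coneC d * (⟪c.e, c.Iv c.ballW⟫ - lamC d * |c.Fl c.ballW|) :=
    mul_le_mul_of_nonneg_left (by linarith) hC.le
  have h8 : (2 + fC d) * D ≤ coneC d * (D / 2) := by
    unfold coneC
    have : 0 ≤ (2 + fC d) * D := mul_nonneg (by linarith) hD0
    linarith
  have h9 : 0 ≤ (rB d + 3 * bandC d) * c.rem0 :=
    mul_nonneg (by unfold rB; have := bandC_nonneg d; positivity) c.rem0_nonneg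
  linarith

lemma growth {A : ℝ} {a b : ℕ} (hab : a ≤ b) (ha : Large d A a)
    (h : ∀ s, a ≤ s → s < b → bM c.e c.f c.N c.x c.r s ≤ qq ^ s * bS c.e c.f c.N c.x c.r (s + 1)) :
    bS c.e c.f c.N c.x c.r b ≤ 2 * bS c.e c.f c.N c.x c.r a := by
  have hq := qq_pos'
  have key : ∀ n, a ≤ n → n ≤ b → bS c.e c.f c.N c.x c.r n ≤
      (1 + 4 * ∑ s ∈ Finset.Ico a n, qq ^ s) * bS c.e c.f c.N c.x c.r a := by
    intro n hn
    induction n, hn using Nat.le_induction with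
    | base => intro _; simp
    | succ n hn ih =>
      intro hnb
      have h1 := ih (by omega)
      have h2 := h n hn (by omega)
      have h3 := c.bS_succ (show 1 ≤ n by have := ha.two; omega)
      have hs := sum_qq_pow_le (a := a) (Finset.Ico a n) fun j hj => (Finset.mem_Ico.1 hj).1
      have hqn : qq ^ n ≤ 1 / 4 := by
        have h5 : qq ^ n ≤ qq ^ a := pow_le_pow_of_le_one hq.le qq_lt_one.le hn
        have h6 : qq ^ a ≤ qq ^ a / (1 - qq) := by
          rw [le_div_iff₀ (by linarith [qq_lt_one])]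
          exact mul_le_of_le_one_right (pow_nonneg hq.le a) (by linarith)
        linarith [ha.growth]
      rw [Finset.sum_Ico_succ_top hn]
      set σ := ∑ s ∈ Finset.Ico a n, qq ^ s
      set X := bS c.e c.f c.N c.x c.r (n + 1)
      have hX : (1 - qq ^ n) * X ≤ bS c.e c.f c.N c.x c.r n := by linarith
      have hS0 := c.bS_nonneg a
      have hσ : 4 * σ ≤ 1 := by linarith [ha.growth]
      have hX0 : 0 ≤ X := c.bS_nonneg _
      have hn0 : 0 ≤ bS c.e c.f c.N c.x c.r n := c.bS_nonneg _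
      have hq0 : 0 ≤ qq ^ n := by positivity
      have h4 : X ≤ (1 + 2 * qq ^ n) * bS c.e c.f c.N c.x c.r n := by
        have := mul_le_mul_of_nonneg_left hX (show 0 ≤ 1 + 2 * qq ^ n by linarith)
        nlinarith [mul_nonneg (mul_nonneg hq0 (show 0 ≤ 1 - 2 * qq ^ n by linarith)) hX0]
      refine h4.trans ((mul_le_mul_of_nonneg_left h1 (by linarith)).trans ?_)
      rw [← mul_assoc]
      refine mul_le_mul_of_nonneg_right ?_ hS0
      nlinarith [mul_le_mul_of_nonneg_left hσ hq0]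
  refine (key b hab le_rfl).trans (mul_le_mul_of_nonneg_right ?_ (c.bS_nonneg a))
  linarith [ha.growth, sum_qq_pow_le (a := a) (Finset.Ico a b) fun j hj => (Finset.mem_Ico.1 hj).1]

end Ctx

end Vale.Agent.P137.Centred
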