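import Vale.Agent.P137.Centred.Core.Geo

/-!
P137, centred operator: bands meeting an edge of the range of radii are rare.
-/

open MeasureTheory Metric Set Filter
open scoped ENNReal Topology RealInnerProductSpace

noncomputable section

namespace Vale.Agent.P137.Centred

variable {d : ℕ}

lemma lamC_pos (d : ℕ) : 0 < lamC d := by unfold lamC; positivity

lemma lamC_le_half (d : ℕ) : lamC d ≤ 1 / 2 := by
  unfold lamC
  rw [div_le_div_iff₀ (by positivity) (by norm_num)]
  have : (1:ℝ) ≤ ((d:ℝ) + 1) ^ 4 := one_le_pow₀ (by linarith [Nat.cast_nonneg (α := ℝ) d])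
  nlinarith

/-- The volume of the ball used for averaging over dilations. -/
def dilC (d : ℕ) : ℝ := volume.real (closedBall (0 : X d) 6)

lemma dilC_nonneg (d : ℕ) : 0 ≤ dilC d := measureReal_nonneg

/-- The constant of one band. -/
def sweepC (d : ℕ) : ℝ := (16 + 256 * 2 ^ d * dilC d) * (4 * (d:ℝ) + 4)

lemma sweepC_nonneg (d : ℕ) : 0 ≤ sweepC d := by
  have := dilC_nonneg d
  unfold sweepC; positivity

lemma continuous_of_lam {g : X d → ℝ} (h : ∀ x y, |g x - g y| ≤ lamC d * ‖x - y‖) :
    Continuous g :=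
  (LipschitzWith.of_dist_le_mul (K := (lamC d).toNNReal) fun x y => by
    rw [Real.coe_toNNReal _ (lamC_pos d).le, Real.dist_eq, dist_eq_norm]; exact h x y).continuous

lemma volume_sweep_le (p : X d) (j : ℕ) {edge : X d → ℝ}
    (he : ∀ x y, |edge x - edge y| ≤ lamC d * ‖x - y‖) :
    volume {x : X d | x ∈ cube (0 : X d) 1 ∧ 1 / 2 ≤ edge x ∧ edge x ≤ 4 ∧
        |‖p - x‖ - edge x| ≤ 4 * bw d j} ≤ ENNReal.ofReal (sweepC d * dl j) := by
  set S := {x : X d | x ∈ cube (0 : X d) 1 ∧ 1 / 2 ≤ edge x ∧ edge x ≤ 4 ∧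
        |‖p - x‖ - edge x| ≤ 4 * bw d j} with hSdef
  have hb := bw_pos d j
  have hV := dilC_nonneg d
  have hC : sweepC d * dl j = (16 + 256 * 2 ^ d * dilC d) * bw d j := by unfold sweepC bw; ring
  have h2 : (0:ℝ) ≤ 256 * 2 ^ d * dilC d := by positivity
  by_cases hbig : 1 / 4 ≤ 4 * bw d j
  · refine (measure_mono fun x hx => hx.1).trans ?_
    rw [volume_cube _ zero_le_one, one_pow, hC]
    exact ENNReal.ofReal_le_ofReal (by nlinarith)
  push Not at hbig
  have hec := (continuous_of_lam he).measurable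
  have hS : MeasurableSet S := by
    rw [hSdef, Set.ofPred_and, Set.ofPred_and, Set.ofPred_and]
    exact (measurableSet_cube _ _).inter ((measurableSet_le measurable_const hec).inter
      ((measurableSet_le hec measurable_const).inter
        (measurableSet_le (((measurable_id.const_sub _).norm.sub hec).abs) measurable_const)))
  rw [← lintegral_indicator_one hS]
  refine (lintegral_le_dilates p (measurable_one.indicator hS)).trans ?_
  have key : ∀ z : X d, ∫⁻ t in Icc (1:ℝ) 2, S.indicator (1 : X d → ℝ≥0∞) (p + t • z) ≤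
      (closedBall (0 : X d) 6).indicator (fun _ => ENNReal.ofReal (256 * bw d j)) z := by
    intro z
    set A := {t : ℝ | t ∈ Icc (1:ℝ) 2 ∧ p + t • z ∈ S} with hA
    have hAm : MeasurableSet A := measurableSet_Icc.inter
      ((by fun_prop : Measurable fun t : ℝ => p + t • z) hS)
    have hint : ∫⁻ t in Icc (1:ℝ) 2, S.indicator (1 : X d → ℝ≥0∞) (p + t • z) ≤ volume A := by
      rw [← lintegral_indicator_one hAm, ← lintegral_indicator measurableSet_Icc]
      refine lintegral_mono fun t => ?_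
      by_cases ht : t ∈ Icc (1:ℝ) 2
      · rw [indicator_of_mem ht]
        by_cases hm : p + t • z ∈ S
        · rw [indicator_of_mem hm, indicator_of_mem (show t ∈ A from ⟨ht, hm⟩)]; simp
        · simp [indicator_of_notMem hm]
      · simp [indicator_of_notMem ht]
    have hnorm : ∀ t ∈ A, 1 / 8 ≤ ‖z‖ ∧ ‖z‖ ≤ 6 ∧ |t * ‖z‖ - edge (p + t • z)| ≤ 4 * bw d j := by
      rintro t ⟨⟨ht1, ht2⟩, -, h1, h2, h3⟩
      rw [sub_add_cancel_left, norm_neg, norm_smul, Real.norm_of_nonneg (by linarith)] at h3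
      have := abs_le.1 h3
      exact ⟨by nlinarith [norm_nonneg z], by nlinarith [norm_nonneg z], h3⟩
    rcases A.eq_empty_or_nonempty with h0 | ⟨a, ha⟩
    · rw [h0, measure_empty] at hint
      exact hint.trans zero_le
    · rw [indicator_of_mem (mem_closedBall_zero_iff.2 (hnorm a ha).2.1)]
      refine hint.trans ((volume_le_of_close (w := 128 * bw d j) fun s hs t ht hst => ?_).trans
        (le_of_eq (by ring_nf)))
      obtain ⟨hz, -, h3⟩ := hnorm s hs
      have h4 := abs_le.1 (hnorm t ht).2.2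
      have h3' := abs_le.1 h3
      have h5 := (abs_le.1 (he (p + t • z) (p + s • z))).2
      rw [add_sub_add_left_eq_sub, ← sub_smul, norm_smul,
        Real.norm_of_nonneg (by linarith)] at h5
      have h6 : lamC d * ((t - s) * ‖z‖) ≤ 1 / 2 * ((t - s) * ‖z‖) :=
        mul_le_mul_of_nonneg_right (lamC_le_half d) (mul_nonneg (by linarith) (norm_nonneg z))
      have h7 : (t - s) * (1 / 8) ≤ (t - s) * ‖z‖ := mul_le_mul_of_nonneg_left hz (by linarith)
      nlinarith
  refine (mul_le_mul_right (lintegral_mono key) _).trans ?_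
  rw [lintegral_indicator_const measurableSet_closedBall, hC,
    ← ofReal_measureReal measure_closedBall_lt_top.ne, ← ENNReal.ofReal_mul (by positivity),
    ← ENNReal.ofReal_mul (by positivity), ← dilC]
  exact ENNReal.ofReal_le_ofReal (by nlinarith)

theorem sweepEst (d : ℕ) : SweepEst d := by
  classical
  refine ⟨sweepC d, sweepC_nonneg d, fun f e N edge he Ω hΩ hΩsub hr => ?_⟩
  have hec := (continuous_of_lam he).measurable
  have hm : ∀ (j : ℕ) (k : Fin d → ℤ),
      MeasurableSet {x : X d | |‖dcen j k - x‖ - edge x| ≤ 4 * bw d j} := fun j k =>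
    measurableSet_le (((measurable_id.const_sub _).norm.sub hec).abs) measurable_const
  have heq : ∀ x, ENNReal.ofReal (sweepTerm e f N x (edge x)) = ∑ j ∈ Finset.Icc 1 N,
      ∑ k ∈ dbox d 8 j, {x : X d | |‖dcen j k - x‖ - edge x| ≤ 4 * bw d j}.indicator
        (fun _ => ENNReal.ofReal (bwt e f N j k)) x := by
    intro x
    rw [sweepTerm, ENNReal.ofReal_sum_of_nonneg fun j _ => Finset.sum_nonneg fun k _ =>
      bwt_nn _ _ _ _ _]
    refine Finset.sum_congr rfl fun j _ => ?_
    rw [ENNReal.ofReal_sum_of_nonneg fun k _ => bwt_nn _ _ _ _ _, Finset.sum_filter]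
    exact Finset.sum_congr rfl fun k _ => by simp [indicator_apply]
  simp only [heq]
  rw [lintegral_finsetSum _ fun j _ => Finset.measurable_fun_sum _ fun k _ =>
    measurable_const.indicator (hm j k)]
  rw [Finset.mul_sum, ENNReal.ofReal_sum_of_nonneg fun j _ => mul_nonneg (sweepC_nonneg d)
    (mul_nonneg (dl_pos j).le (bmu_nn _ _ _ _))]
  refine Finset.sum_le_sum fun j _ => ?_
  rw [lintegral_finsetSum _ fun k _ => measurable_const.indicator (hm j k), bmu, Finset.mul_sum,
    Finset.mul_sum, ENNReal.ofReal_sum_of_nonneg fun k _ => mul_nonneg (sweepC_nonneg d)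
      (mul_nonneg (dl_pos j).le (bwt_nn _ _ _ _ _))]
  refine Finset.sum_le_sum fun k _ => ?_
  rw [lintegral_indicator_const (hm j k), Measure.restrict_apply (hm j k),
    show sweepC d * (dl j * bwt e f N j k) = bwt e f N j k * (sweepC d * dl j) by ring,
    ENNReal.ofReal_mul (bwt_nn _ _ _ _ _)]
  exact mul_le_mul_right ((measure_mono fun x hx =>
    (⟨hΩsub hx.2, (hr x hx.2).1, (hr x hx.2).2, hx.1⟩ :
      x ∈ {x : X d | x ∈ cube (0 : X d) 1 ∧ 1 / 2 ≤ edge x ∧ edge x ≤ 4 ∧
        |‖dcen j k - x‖ - edge x| ≤ 4 * bw d j})).trans (volume_sweep_le (dcen j k) j he)) _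

end Vale.Agent.P137.Centred
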