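import Vale.Agent.P137.Centred.Core.Defs

/-!
P137, centred operator: the radial test weights.
-/

open MeasureTheory Metric Set Filter
open scoped ENNReal Topology RealInnerProductSpace

noncomputable section

namespace Vale.Agent.P137.Centred

variable {d : ℕ}

lemma inv_pow_gap {a b : ℝ} (hd : 1 ≤ d) (ha : 0 < a) (hab : a < b) :
    0 < (a ^ d)⁻¹ - (b ^ d)⁻¹ :=
  sub_pos.2 (inv_strictAnti₀ (pow_pos ha _) (pow_lt_pow_left₀ hab ha.le (by omega)))

lemma inv_pow_anti {a b : ℝ} (ha : 0 < a) (hab : a ≤ b) : (b ^ d)⁻¹ ≤ (a ^ d)⁻¹ :=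
  inv_anti₀ (pow_pos ha _) (pow_le_pow_left₀ ha.le hab _)

lemma wIn_of_le {r h s : ℝ} (hd : 1 ≤ d) (hr : 0 < r - h) (hh : 0 < h) (hs : s ≤ r - h) :
    wIn d r h s = 1 := by
  have e : max (r - h) (min s r) = r - h := max_eq_left ((min_le_left _ _).trans hs)
  rw [wIn, e, div_self (inv_pow_gap hd hr (by linarith)).ne']

lemma wIn_of_ge {r h s : ℝ} (hh : 0 < h) (hs : r ≤ s) : wIn d r h s = 0 := by
  have e : max (r - h) (min s r) = r := by
    rw [min_eq_right hs]; exact max_eq_right (by linarith)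
  simp [wIn, e]

lemma wIn_mem {r h : ℝ} (hd : 1 ≤ d) (hr : 0 < r - h) (hh : 0 < h) (s : ℝ) :
    0 ≤ wIn d r h s ∧ wIn d r h s ≤ 1 := by
  have hg := inv_pow_gap hd hr (show r - h < r by linarith)
  have h1 : r - h ≤ max (r - h) (min s r) := le_max_left _ _
  have h2 : max (r - h) (min s r) ≤ r := max_le (by linarith) (min_le_right _ _)
  constructor
  · exact div_nonneg (sub_nonneg.2 (inv_pow_anti (by linarith) h2)) hg.le
  · rw [wIn, div_le_one hg]
    linarith [inv_pow_anti (d := d) hr h1]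

lemma continuous_wIn {r h : ℝ} (hr : 0 < r - h) : Continuous (wIn d r h) := by
  unfold wIn
  refine (Continuous.sub (Continuous.inv₀ (by fun_prop) fun s => ?_) continuous_const).div_const _
  exact pow_ne_zero _ (lt_of_lt_of_le hr (le_max_left _ _)).ne'

/-- A mean value bound for inverse powers. -/
lemma inv_pow_sub_le {a b : ℝ} (ha : 0 < a) (hab : a ≤ b) :
    (a ^ d)⁻¹ - (b ^ d)⁻¹ ≤ d * (b - a) * (a ^ (d + 1))⁻¹ := by
  have hb : 0 < b := lt_of_lt_of_le ha hab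
  induction d with
  | zero => simp
  | succ n ih =>
    have h1 : (a ^ (n + 1))⁻¹ - (b ^ (n + 1))⁻¹ =
        ((a ^ n)⁻¹ - (b ^ n)⁻¹) * a⁻¹ + (b ^ n)⁻¹ * (a⁻¹ - b⁻¹) := by
      rw [pow_succ, pow_succ, mul_inv, mul_inv]; ring
    have h2 : ((a ^ n)⁻¹ - (b ^ n)⁻¹) * a⁻¹ ≤ n * (b - a) * (a ^ (n + 1 + 1))⁻¹ := by
      refine (mul_le_mul_of_nonneg_right ih (by positivity)).trans (le_of_eq ?_)
      rw [pow_succ a (n + 1), mul_inv]; ring
    have h3 : (b ^ n)⁻¹ * (a⁻¹ - b⁻¹) ≤ (b - a) * (a ^ (n + 1 + 1))⁻¹ := by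
      have e : a⁻¹ - b⁻¹ = (b - a) * (a⁻¹ * b⁻¹) := by field_simp
      rw [e, pow_succ, pow_succ, mul_inv, mul_inv, mul_left_comm]
      refine mul_le_mul_of_nonneg_left ?_ (by linarith)
      rw [mul_assoc]
      refine mul_le_mul (inv_pow_anti ha hab) (mul_le_mul_of_nonneg_left ?_ (by positivity))
        (by positivity) (by positivity)
      exact inv_anti₀ ha hab
    push_cast
    linarith

lemma le_inv_pow_sub {a b : ℝ} (hd : 1 ≤ d) (ha : 0 < a) (hab : a ≤ b) :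
    (b - a) * (b ^ (d + 1))⁻¹ ≤ (a ^ d)⁻¹ - (b ^ d)⁻¹ := by
  have hb : 0 < b := lt_of_lt_of_le ha hab
  obtain ⟨n, rfl⟩ := Nat.exists_eq_add_of_le' hd
  have h1 : (a ^ (n + 1))⁻¹ - (b ^ (n + 1))⁻¹ =
      ((a ^ n)⁻¹ - (b ^ n)⁻¹) * a⁻¹ + (b ^ n)⁻¹ * (a⁻¹ - b⁻¹) := by
    rw [pow_succ, pow_succ, mul_inv, mul_inv]; ring
  have h2 : 0 ≤ ((a ^ n)⁻¹ - (b ^ n)⁻¹) * a⁻¹ :=
    mul_nonneg (sub_nonneg.2 (inv_pow_anti ha hab)) (by positivity)
  have h3 : (b - a) * (b ^ (n + 1 + 1))⁻¹ ≤ (b ^ n)⁻¹ * (a⁻¹ - b⁻¹) := by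
    have e : a⁻¹ - b⁻¹ = (b - a) * (a⁻¹ * b⁻¹) := by field_simp
    rw [e, pow_succ, pow_succ, mul_inv, mul_inv, mul_left_comm ((b ^ n)⁻¹)]
    refine mul_le_mul_of_nonneg_left ?_ (by linarith)
    rw [mul_assoc]
    refine mul_le_mul_of_nonneg_left (mul_le_mul_of_nonneg_right ?_ (by positivity)) (by positivity)
    exact inv_anti₀ ha hab
  linarith

/-- The test weights are Lipschitz at their own scale. -/
lemma abs_wIn_sub {r h : ℝ} (hd : 1 ≤ d) (hr : 1 / 2 ≤ r - h) (hh : 0 < h) (hr3 : r ≤ 3)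
    (s t : ℝ) : |wIn d r h s - wIn d r h t| ≤ d * 6 ^ (d + 1) / h * |s - t| := by
  wlog hst : s ≤ t generalizing s t
  · rw [abs_sub_comm, abs_sub_comm s t]; exact this t s (le_of_not_ge hst)
  have hr0 : 0 < r - h := by linarith
  have hg := inv_pow_gap hd hr0 (show r - h < r by linarith)
  set cs := max (r - h) (min s r) with hcs
  set ct := max (r - h) (min t r) with hct
  have hle : cs ≤ ct := max_le_max le_rfl (min_le_min hst le_rfl)
  have hcs0 : 1 / 2 ≤ cs := hr.trans (le_max_left _ _)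
  have hd' : ct - cs ≤ t - s := by
    rw [hcs, hct]; rcases le_total s r with a | a <;> rcases le_total t r with b | b <;>
      simp only [min_def, max_def] <;> split_ifs <;> linarith
  have e : wIn d r h s - wIn d r h t = ((cs ^ d)⁻¹ - (ct ^ d)⁻¹) /
      (((r - h) ^ d)⁻¹ - (r ^ d)⁻¹) := by
    rw [wIn, wIn, ← sub_div, ← hcs, ← hct]; ring
  rw [e, abs_sub_comm s t, abs_of_nonneg (sub_nonneg.2 hst),
    abs_of_nonneg (div_nonneg (sub_nonneg.2 (inv_pow_anti (by linarith) hle)) hg.le),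
    div_le_iff₀ hg]
  have n1 := inv_pow_sub_le (d := d) (by linarith : 0 < cs) hle
  have n2 : h * (r ^ (d + 1))⁻¹ ≤ ((r - h) ^ d)⁻¹ - (r ^ d)⁻¹ := by
    simpa using le_inv_pow_sub hd hr0 (show r - h ≤ r by linarith)
  have n3 : (cs ^ (d + 1))⁻¹ ≤ 6 ^ (d + 1) * (r ^ (d + 1))⁻¹ := by
    rw [← div_eq_mul_inv, ← div_pow, ← inv_pow]
    refine pow_le_pow_left₀ (inv_nonneg.2 (by linarith)) ?_ _
    rw [inv_le_iff_one_le_mul₀ (by linarith), div_mul_eq_mul_div, le_div_iff₀ (by linarith)]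
    linarith
  calc (cs ^ d)⁻¹ - (ct ^ d)⁻¹ ≤ d * (ct - cs) * (cs ^ (d + 1))⁻¹ := n1
    _ ≤ d * (t - s) * (6 ^ (d + 1) * (r ^ (d + 1))⁻¹) :=
        mul_le_mul (mul_le_mul_of_nonneg_left hd' (Nat.cast_nonneg d)) n3
          (inv_nonneg.2 (pow_nonneg (by linarith) _))
          (mul_nonneg (Nat.cast_nonneg d) (by linarith))
    _ = d * 6 ^ (d + 1) / h * (t - s) * (h * (r ^ (d + 1))⁻¹) := by field_simp
    _ ≤ _ := mul_le_mul_of_nonneg_left n2 (by
        have : 0 ≤ t - s := sub_nonneg.2 hst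
        positivity)

/-- Shorter inner tests are larger. -/
lemma wIn_le_wIn {r h h' : ℝ} (hd : 1 ≤ d) (hr : 0 < r - h) (h0 : 0 < h') (hh : h' ≤ h) (s : ℝ) :
    wIn d r h s ≤ wIn d r h' s := by
  rcases le_total s (r - h') with hs | hs
  · rw [wIn_of_le (h := h') hd (by linarith) h0 hs]; exact (wIn_mem hd hr (by linarith) s).2
  rcases le_total r s with hs' | hs'
  · rw [wIn_of_ge h0 hs', wIn_of_ge (by linarith) hs']
  have e1 : max (r - h) (min s r) = s := by
    rw [min_eq_left hs']; exact max_eq_right (by linarith)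
  have e2 : max (r - h') (min s r) = s := by rw [min_eq_left hs']; exact max_eq_right hs
  rw [wIn, wIn, e1, e2]
  refine div_le_div_of_nonneg_left (sub_nonneg.2 (inv_pow_anti (by linarith) hs'))
    (inv_pow_gap hd (by linarith) (by linarith)) ?_
  linarith [inv_pow_anti (d := d) hr (show r - h ≤ r - h' by linarith)]

/-- Shorter outer tests are smaller. -/
lemma wIn_outer_le {r h h' : ℝ} (hd : 1 ≤ d) (hr : 0 < r) (h0 : 0 < h') (hh : h' ≤ h) (s : ℝ) :
    wIn d (r + h') h' s ≤ wIn d (r + h) h s := by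
  rcases le_total s r with hs | hs
  · rw [wIn_of_le (h := h) hd (by linarith) (by linarith) (by linarith),
      wIn_of_le (h := h') hd (by linarith) h0 (by linarith)]
  rcases le_total (r + h') s with hs' | hs'
  · rw [wIn_of_ge h0 hs']; exact (wIn_mem hd (by linarith) (by linarith) s).1
  have e1 : max (r + h - h) (min s (r + h)) = s := by
    rw [min_eq_left (by linarith), add_sub_cancel_right]; exact max_eq_right hs
  have e2 : max (r + h' - h') (min s (r + h')) = s := by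
    rw [min_eq_left hs', add_sub_cancel_right]; exact max_eq_right hs
  rw [wIn, wIn, e1, e2]
  simp only [add_sub_cancel_right]
  have g1 := inv_pow_gap hd hr (show r < r + h' by linarith)
  have g2 := inv_pow_gap hd hr (show r < r + h by linarith)
  rw [div_le_div_iff₀ g1 g2]
  have key : ((r + h) ^ d)⁻¹ ≤ ((r + h') ^ d)⁻¹ := inv_pow_anti (by linarith) (by linarith)
  have hs0 : (s ^ d)⁻¹ ≤ (r ^ d)⁻¹ := inv_pow_anti hr hs
  nlinarith [mul_nonneg (sub_nonneg.2 key) (sub_nonneg.2 hs0)]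

/-- An inner test lies below every outer test. -/
lemma wIn_le_outer {r h h' : ℝ} (hd : 1 ≤ d) (hr : 0 < r - h) (h0 : 0 < h) (h0' : 0 < h') (s : ℝ) :
    wIn d r h s ≤ wIn d (r + h') h' s := by
  rcases le_total s r with hs | hs
  · rw [wIn_of_le (h := h') hd (by linarith) h0' (by linarith)]; exact (wIn_mem hd hr h0 s).2
  · rw [wIn_of_ge h0 hs]; exact (wIn_mem hd (by linarith) h0' s).1

/-- The weight of an increment of averages as an integral over the radii. -/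
lemma integral_inv_pow {a b : ℝ} (hd : 1 ≤ d) (ha : 0 < a) (hab : a ≤ b) :
    ∫ t in a..b, (t ^ (d + 1))⁻¹ = ((a ^ d)⁻¹ - (b ^ d)⁻¹) / d := by
  have hne : (0:ℝ) ∉ Set.uIcc a b := by
    rw [uIcc_of_le hab]; rintro ⟨h, -⟩; linarith
  have h := integral_zpow (a := a) (b := b) (n := -((d:ℤ) + 1)) (Or.inr ⟨by omega, hne⟩)
  have e : ∀ t : ℝ, (t ^ (d + 1))⁻¹ = t ^ (-((d:ℤ) + 1)) := fun t => by
    rw [zpow_neg]; norm_cast
  simp only [e]
  rw [h, show (-((d:ℤ) + 1) + 1) = -(d:ℤ) by ring, zpow_neg, zpow_neg, zpow_natCast, zpow_natCast]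
  push_cast
  have : (d:ℝ) ≠ 0 := by exact_mod_cast (show d ≠ 0 by omega)
  rw [div_eq_div_iff (by simpa using this) this]
  ring

/-- The radii above `s` carry the test weight. -/
lemma integral_wIn {r h : ℝ} (hd : 1 ≤ d) (hr : 0 < r - h) (hh : 0 < h) (s : ℝ) :
    ∫ t in Ioc (r - h) r, (if s < t then (t ^ (d + 1))⁻¹ else 0) =
      ((((r - h) ^ d)⁻¹ - (r ^ d)⁻¹) / d) * wIn d r h s := by
  set c := max (r - h) (min s r) with hc
  have hc1 : r - h ≤ c := le_max_left _ _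
  have hc2 : c ≤ r := max_le (by linarith) (min_le_right _ _)
  have e : ∀ᵐ t, t ∈ Ioc (r - h) r → (if s < t then (t ^ (d + 1))⁻¹ else 0) =
      (Ioc c r).indicator (fun t : ℝ => (t ^ (d + 1))⁻¹) t := by
    refine Eventually.of_forall fun t ht => ?_
    have hiff : s < t ↔ c < t := by
      rw [hc, max_lt_iff, min_lt_iff]
      exact ⟨fun h => ⟨ht.1, Or.inl h⟩, fun h => h.2.resolve_right (not_lt.2 ht.2)⟩
    by_cases hs : s < t
    · rw [if_pos hs, indicator_of_mem]; exact ⟨hiff.1 hs, ht.2⟩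
    · rw [if_neg hs, indicator_of_notMem]; exact fun h => hs (hiff.2 h.1)
  rw [setIntegral_congr_ae measurableSet_Ioc e, setIntegral_indicator measurableSet_Ioc,
    inter_eq_right.2 (Ioc_subset_Ioc_left hc1), ← intervalIntegral.integral_of_le hc2,
    integral_inv_pow hd (by linarith) hc2, wIn, ← hc]
  have hg := inv_pow_gap hd hr (show r - h < r by linarith)
  set A := ((r - h) ^ d)⁻¹ - (r ^ d)⁻¹
  set B := (c ^ d)⁻¹ - (r ^ d)⁻¹
  field_simp

end Vale.Agent.P137.Centred
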